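import Crest.Agent.R077.Kelvin

/-! # Row 77: basic facts on sources, energy, scaling, and the hole-filling lemma -/

set_option autoImplicit false
set_option linter.unusedSectionVars false

open MeasureTheory Metric Set Filter Topology
open scoped RealInnerProductSpace Pointwise

namespace Crest.Agent.R077

/-- Hole-filling iteration lemma. -/
theorem hole_filling {θ κ : ℝ} (hθ0 : 0 ≤ θ) (hθ : θ < 1) (hκ : 0 ≤ κ) :
    ∃ C : ℝ, ∀ (φ : ℝ → ℝ) (A M : ℝ), 0 ≤ A → (∀ t ∈ Icc (0 : ℝ) 1, φ t ≤ M) →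
      (∀ t s : ℝ, 0 ≤ t → t < s → s ≤ 1 → φ t ≤ θ * φ s + A * (s - t) ^ (-κ)) → φ 0 ≤ C * A := by
  -- choose σ < 1 with θ σ^{-κ} < 1
  obtain ⟨σ, hσ0, hσ1, hσ⟩ : ∃ σ : ℝ, 0 < σ ∧ σ < 1 ∧ θ * σ ^ (-κ) < 1 := by
    have hc : ContinuousAt (fun σ : ℝ => θ * σ ^ (-κ)) 1 := by
      have : ContinuousAt (fun σ : ℝ => σ ^ (-κ)) 1 := Real.continuousAt_rpow_const _ _ (by simp)
      exact continuousAt_const.mul this
    have h1 : ∀ᶠ σ in 𝓝 (1 : ℝ), θ * σ ^ (-κ) < 1 := hc.eventually_lt continuousAt_const (by simpa)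
    have h2 : ∀ᶠ σ in 𝓝 (1 : ℝ), 0 < σ := lt_mem_nhds one_pos
    have h3 : ∀ᶠ σ in 𝓝[<] (1 : ℝ), σ < 1 := self_mem_nhdsWithin
    obtain ⟨σ, h, h', h''⟩ := ((h2.filter_mono nhdsWithin_le_nhds).and
      (h3.and (h1.filter_mono nhdsWithin_le_nhds))).exists
    exact ⟨σ, h, h', h''⟩
  set ρ := θ * σ ^ (-κ) with hρ
  have hρ0 : 0 ≤ ρ := mul_nonneg hθ0 (Real.rpow_nonneg hσ0.le _)
  refine ⟨(1 - σ) ^ (-κ) / (1 - ρ), fun φ A M hA hM h => ?_⟩
  set c := A * (1 - σ) ^ (-κ) with hc
  have hc0 : 0 ≤ c := mul_nonneg hA (Real.rpow_nonneg (by linarith) _)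
  have hpow : ∀ j : ℕ, 0 < σ ^ j ∧ σ ^ j ≤ 1 := fun j =>
    ⟨pow_pos hσ0 j, pow_le_one₀ hσ0.le hσ1.le⟩
  have key : ∀ j : ℕ, φ 0 ≤ θ ^ j * φ (1 - σ ^ j) + c * ∑ i ∈ Finset.range j, ρ ^ i := by
    intro j
    induction j with
    | zero => simp
    | succ j ih =>
      have h1 := h (1 - σ ^ j) (1 - σ ^ (j + 1)) (by linarith [(hpow j).2])
        (by rw [pow_succ]; nlinarith [(hpow j).1]) (by linarith [(hpow (j + 1)).1])
      have e : (1 - σ ^ (j + 1) - (1 - σ ^ j)) ^ (-κ) = (1 - σ) ^ (-κ) * (σ ^ (-κ)) ^ j := by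
        have : 1 - σ ^ (j + 1) - (1 - σ ^ j) = (1 - σ) * σ ^ j := by ring
        rw [this, Real.mul_rpow (by linarith) (hpow j).1.le, ← Real.rpow_natCast σ j,
          ← Real.rpow_mul hσ0.le, mul_comm (j : ℝ), Real.rpow_mul hσ0.le, Real.rpow_natCast]
      rw [e] at h1
      have h2 := mul_le_mul_of_nonneg_left h1 (pow_nonneg hθ0 j)
      rw [Finset.sum_range_succ, hρ, mul_pow, ← hρ]
      calc φ 0 ≤ _ := ih
        _ ≤ θ ^ j * (θ * φ (1 - σ ^ (j + 1)) + A * ((1 - σ) ^ (-κ) * (σ ^ (-κ)) ^ j)) +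
            c * ∑ i ∈ Finset.range j, ρ ^ i := by linarith
        _ = _ := by rw [hc]; ring
  have hsum : ∀ j : ℕ, ∑ i ∈ Finset.range j, ρ ^ i ≤ 1 / (1 - ρ) := by
    intro j
    rw [le_div_iff₀ (by linarith)]
    have := geom_sum_mul_neg ρ j
    have h2 := pow_nonneg hρ0 j
    linarith
  have key2 : ∀ j : ℕ, φ 0 ≤ θ ^ j * M + c * (1 / (1 - ρ)) := by
    intro j
    have h1 := hM (1 - σ ^ j) ⟨by linarith [(hpow j).2], by linarith [(hpow j).1]⟩
    have h2 := mul_le_mul_of_nonneg_left h1 (pow_nonneg hθ0 j)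
    have h3 := mul_le_mul_of_nonneg_left (hsum j) hc0
    linarith [key j]
  have hlim : Tendsto (fun j : ℕ => θ ^ j * M + c * (1 / (1 - ρ))) atTop
      (𝓝 (0 * M + c * (1 / (1 - ρ)))) :=
    ((tendsto_pow_atTop_nhds_zero_of_lt_one hθ0 hθ).mul_const M).add_const _
  have := ge_of_tendsto' hlim key2
  calc φ 0 ≤ _ := this
    _ = _ := by rw [hc]; ring

variable {E : Type*} [NormedAddCommGroup E] [InnerProductSpace ℝ E]

theorem src_nonneg {c A p : ℝ} {v : E → ℝ} (hc : 0 ≤ c) {y : E} (hv : 0 ≤ v y) :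
    0 ≤ src c A p v y :=
  mul_nonneg (mul_nonneg hc (Real.rpow_nonneg (norm_nonneg _) _)) (Real.rpow_nonneg hv _)

theorem src_pos {c A p : ℝ} {v : E → ℝ} (hc : 0 < c) {y : E} (hy : y ≠ 0) (hv : 0 < v y) :
    0 < src c A p v y :=
  mul_pos (mul_pos hc (Real.rpow_pos_of_pos (norm_pos_iff.2 hy) _)) (Real.rpow_pos_of_pos hv _)

theorem src_scale {c A p R : ℝ} (v : E → ℝ) (hR : 0 < R) (y : E) :
    src (c * R ^ (2 + A)) A p (fun x => v (R • x)) y = R ^ 2 * src c A p v (R • y) := by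
  simp only [src]
  rw [norm_smul, Real.norm_of_nonneg hR.le, Real.mul_rpow hR.le (norm_nonneg _),
    Real.rpow_add hR, Real.rpow_two]
  ring

theorem K_scale (m : ℝ) {R : ℝ} (hR : 0 < R) (x y : E) :
    K m x y = R ^ (2 * m) * K m (R • x) (R • y) := by
  simp only [K]
  rw [← smul_sub, norm_smul, Real.norm_of_nonneg hR.le, mul_pow,
    Real.mul_rpow (by positivity) (by positivity), ← mul_assoc, ← Real.rpow_natCast R 2,
    ← Real.rpow_mul hR.le, ← Real.rpow_add hR]
  simp

theorem continuousOn_src {c A p : ℝ} {v : E → ℝ} (hv : Continuous v) (hp : 0 ≤ p) :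
    ContinuousOn (src c A p v) {0}ᶜ := by
  intro y hy
  have hy' : ‖y‖ ≠ 0 := norm_ne_zero_iff.2 hy
  apply ContinuousAt.continuousWithinAt
  unfold src
  refine (continuousAt_const.mul (continuous_norm.continuousAt.rpow_const (Or.inl hy'))).mul ?_
  exact hv.continuousAt.rpow_const (Or.inr hp)

variable [FiniteDimensional ℝ E] [MeasurableSpace E] [BorelSpace E]

theorem measurable_src {c A p : ℝ} {v : E → ℝ} (hv : Measurable v) :
    Measurable (src c A p v) := by
  unfold src; fun_prop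

theorem measurable_K (m : ℝ) : Measurable (fun z : E × E => K m z.1 z.2) := by
  unfold K; fun_prop

theorem measurable_Qs : Measurable (fun z : E × E => Qs z.1 z.2) := by
  unfold Qs; fun_prop

theorem measurable_Ks (m : ℝ) : Measurable (fun z : E × E => Ks m z.1 z.2) := by
  unfold Ks; exact measurable_Qs.pow_const _

theorem nontrivial_of_hn {m : ℝ} (hn : (Module.finrank ℝ E : ℝ) = 2 * m + 2) (hm : 0 < m) :
    Nontrivial E := by
  apply Module.nontrivial_of_finrank_pos (R := ℝ)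
  have : (0 : ℝ) < Module.finrank ℝ E := by rw [hn]; linarith
  exact_mod_cast this

theorem rpow_finrank {m R : ℝ} (hn : (Module.finrank ℝ E : ℝ) = 2 * m + 2) :
    R ^ Module.finrank ℝ E = R ^ (2 * m + 2) := by
  rw [← hn, Real.rpow_natCast]

theorem integrableOn_rpow_mul {σ R : ℝ} [Nontrivial E] (hσ : -(Module.finrank ℝ E : ℝ) < σ)
    {w : E → ℝ} (hw : Continuous w) :
    IntegrableOn (fun y : E => ‖y‖ ^ σ * w y) (ball (0 : E) R) := by
  obtain ⟨C, hC⟩ := (isCompact_closedBall (0 : E) R).exists_bound_of_continuousOn hw.continuousOn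
  refine integrableOn_ball_of_norm_le_rpow (C := C) (α := -σ) Module.finrank_pos (by linarith) ?_ ?_
  · filter_upwards [ae_restrict_mem measurableSet_ball] with y hy
    rw [norm_mul, neg_neg, Real.norm_of_nonneg (Real.rpow_nonneg (norm_nonneg _) _), mul_comm]
    exact mul_le_mul_of_nonneg_right (hC y (ball_subset_closedBall hy))
      (Real.rpow_nonneg (norm_nonneg _) _)
  · have := hw.measurable
    exact (by fun_prop : Measurable fun y : E => ‖y‖ ^ σ * w y).aestronglyMeasurable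

theorem integrableOn_src_mul {m c A p R : ℝ} (hn : (Module.finrank ℝ E : ℝ) = 2 * m + 2)
    (hm : 0 < m) (hA : -2 < A) (hp : 0 ≤ p) {v w : E → ℝ} (hv : Continuous v)
    (hw : Continuous w) : IntegrableOn (fun y : E => src c A p v y * w y) (ball (0 : E) R) := by
  have := nontrivial_of_hn hn hm
  have h := integrableOn_rpow_mul (E := E) (σ := A) (R := R) (by rw [hn]; linarith)
    (w := fun y => c * v y ^ p * w y)
    ((continuous_const.mul (hv.rpow_const fun _ => Or.inr hp)).mul hw)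
  refine h.congr_fun (fun y _ => ?_) measurableSet_ball
  simp only [src]; ring

theorem integrableOn_src {m c A p R : ℝ} (hn : (Module.finrank ℝ E : ℝ) = 2 * m + 2)
    (hm : 0 < m) (hA : -2 < A) (hp : 0 ≤ p) {v : E → ℝ} (hv : Continuous v) :
    IntegrableOn (src c A p v) (ball (0 : E) R) := by
  have := integrableOn_src_mul (c := c) (R := R) hn hm hA hp hv (w := fun _ => (1 : ℝ))
    continuous_const
  simpa using this

theorem IntSol.scale {m c₁ c₂ A B p q R : ℝ} {u v : E → ℝ}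
    (hn : (Module.finrank ℝ E : ℝ) = 2 * m + 2) (hR : 0 < R) (S : IntSol m c₁ c₂ A B p q u v) :
    IntSol m (c₁ * R ^ (2 + A)) (c₂ * R ^ (2 + B)) A B p q (fun x => u (R • x))
      (fun x => v (R • x)) := by
  have hRne : ∀ x : E, x ≠ 0 → R • x ≠ 0 := fun x hx => smul_ne_zero hR.ne' hx
  have e : ∀ (c A p : ℝ) (v : E → ℝ) (x y : E),
      K m x y * src (c * R ^ (2 + A)) A p (fun x => v (R • x)) y =
        R ^ (2 * m + 2) * (K m (R • x) (R • y) * src c A p v (R • y)) := by
    intro c A p v x y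
    rw [src_scale v hR, K_scale m hR, Real.rpow_add hR, Real.rpow_two]; ring
  have hi : ∀ (c A p : ℝ) (v : E → ℝ) (x : E),
      Integrable (fun y => K m (R • x) y * src c A p v y) →
      Integrable (fun y => K m x y * src (c * R ^ (2 + A)) A p (fun x => v (R • x)) y) := by
    intro c A p v x h
    simp only [e]
    exact (h.comp_smul hR.ne').const_mul _
  have he : ∀ (c A p : ℝ) (v : E → ℝ) (x : E),
      ∫ y, K m x y * src (c * R ^ (2 + A)) A p (fun x => v (R • x)) y =
        ∫ y, K m (R • x) y * src c A p v y := by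
    intro c A p v x
    simp only [e]
    rw [integral_const_mul, Measure.integral_comp_smul_of_nonneg volume
      (fun y => K m (R • x) y * src c A p v y) R (hR := hR.le), rpow_finrank hn, smul_eq_mul,
      ← mul_assoc, mul_inv_cancel₀ (Real.rpow_pos_of_pos hR _).ne', one_mul]
  exact
    { cu := S.cu.comp (continuous_const_smul R)
      cv := S.cv.comp (continuous_const_smul R)
      pu := fun x => S.pu _
      pv := fun x => S.pv _
      iu := fun x hx => hi _ _ _ _ _ (S.iu _ (hRne x hx))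
      iv := fun x hx => hi _ _ _ _ _ (S.iv _ (hRne x hx))
      lu := fun x hx => by rw [he]; exact S.lu _ (hRne x hx)
      lv := fun x hx => by rw [he]; exact S.lv _ (hRne x hx)
      eu := fun x hx => by rw [he]; exact S.eu _ (hRne x hx)
      ev := fun x hx => by rw [he]; exact S.ev _ (hRne x hx) }

theorem mass_integrand_scale {m c A p R : ℝ} (v : E → ℝ) (hR : 0 < R) (y : E) :
    (max ‖y‖ 1) ^ (-(2 * m)) * src (c * R ^ (2 + A)) A p (fun x => v (R • x)) y =
      R ^ (2 * m + 2) * ((max ‖R • y‖ R) ^ (-(2 * m)) * src c A p v (R • y)) := by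
  have : max ‖R • y‖ R = R * max ‖y‖ 1 := by
    rw [norm_smul, Real.norm_of_nonneg hR.le, mul_max_of_nonneg _ _ hR.le, mul_one]
  rw [src_scale v hR, this, Real.mul_rpow hR.le (by positivity), Real.rpow_add hR, Real.rpow_two,
    Real.rpow_neg hR.le]
  have : R ^ (2 * m) ≠ 0 := (Real.rpow_pos_of_pos hR _).ne'
  field_simp

theorem mass_scale {m c A p R : ℝ} (hn : (Module.finrank ℝ E : ℝ) = 2 * m + 2) (v : E → ℝ)
    (hR : 0 < R) :
    mass m (src (c * R ^ (2 + A)) A p (fun x => v (R • x))) 1 = mass m (src c A p v) R := by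
  simp only [mass, mass_integrand_scale v hR]
  rw [integral_const_mul, Measure.integral_comp_smul_of_nonneg volume
      (fun y => (max ‖y‖ R) ^ (-(2 * m)) * src c A p v y) R (hR := hR.le), rpow_finrank hn,
      smul_eq_mul, ← mul_assoc, mul_inv_cancel₀ (Real.rpow_pos_of_pos hR _).ne', one_mul]

theorem mass_integrable_scale {m c A p R : ℝ} (v : E → ℝ) (hR : 0 < R)
    (h : Integrable (fun y : E => (max ‖y‖ R) ^ (-(2 * m)) * src c A p v y)) :
    Integrable (fun y : E => (max ‖y‖ 1) ^ (-(2 * m)) *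
      src (c * R ^ (2 + A)) A p (fun x => v (R • x)) y) := by
  simp only [mass_integrand_scale v hR]
  exact (h.comp_smul hR.ne').const_mul _

theorem energy_part_scale {m c A p R r : ℝ} (hn : (Module.finrank ℝ E : ℝ) = 2 * m + 2)
    (v : E → ℝ) (hR : 0 < R) :
    ∫ x in ball (0 : E) r, src (c * R ^ (2 + A)) A p (fun x => v (R • x)) x * v (R • x) =
      R ^ (-(2 * m)) * ∫ x in ball (0 : E) (R * r), src c A p v x * v x := by
  simp only [src_scale v hR, mul_assoc]
  rw [integral_const_mul, Measure.setIntegral_comp_smul_of_pos volume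
      (fun y => src c A p v y * v y) _ hR, rpow_finrank hn, smul_eq_mul, ← mul_assoc,
      _root_.smul_ball hR.ne', smul_zero, Real.norm_of_nonneg hR.le]
  congr 1
  rw [← Real.rpow_two, ← Real.rpow_neg hR.le, ← Real.rpow_add hR]
  congr 1; ring

theorem energy_scale {m c₁ c₂ A B p q R r : ℝ} (hn : (Module.finrank ℝ E : ℝ) = 2 * m + 2)
    (u v : E → ℝ) (hR : 0 < R) :
    energy (c₁ * R ^ (2 + A)) (c₂ * R ^ (2 + B)) A B p q (fun x => u (R • x))
      (fun x => v (R • x)) r = R ^ (-(2 * m)) * energy c₁ c₂ A B p q u v (R * r) := by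
  simp only [energy]
  rw [energy_part_scale hn u hR, energy_part_scale hn v hR]; ring

theorem energy_part_mono {m c A p r R : ℝ} (hn : (Module.finrank ℝ E : ℝ) = 2 * m + 2)
    (hm : 0 < m) (hc : 0 ≤ c) (hA : -2 < A) (hp : 0 ≤ p) {v : E → ℝ} (hv : Continuous v)
    (hv0 : ∀ x, 0 ≤ v x) (h : r ≤ R) :
    ∫ x in ball (0 : E) r, src c A p v x * v x ≤ ∫ x in ball (0 : E) R, src c A p v x * v x :=
  setIntegral_mono_set (integrableOn_src_mul hn hm hA hp hv hv)
    (Eventually.of_forall fun x => mul_nonneg (src_nonneg hc (hv0 x)) (hv0 x))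
    (ball_subset_ball h).eventuallyLE

theorem energy_part_pos {m c A p R : ℝ} (hn : (Module.finrank ℝ E : ℝ) = 2 * m + 2)
    (hm : 0 < m) (hc : 0 < c) (hA : -2 < A) (hp : 0 ≤ p) {v : E → ℝ} (hv : Continuous v)
    (hv0 : ∀ x, 0 < v x) (hR : 0 < R) :
    0 < ∫ x in ball (0 : E) R, src c A p v x * v x := by
  have := nontrivial_of_hn hn hm
  rw [setIntegral_pos_iff_support_of_nonneg_ae
    (Eventually.of_forall fun x => mul_nonneg (src_nonneg hc.le (hv0 x).le) (hv0 x).le)
    (integrableOn_src_mul hn hm hA hp hv hv)]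
  have h1 : (ball (0 : E) R \ {0} : Set E) ⊆
      (Function.support fun x => src c A p v x * v x) ∩ ball (0 : E) R := by
    intro x hx
    exact ⟨(mul_pos (src_pos hc hx.2 (hv0 x)) (hv0 x)).ne', hx.1⟩
  refine lt_of_lt_of_le ?_ (measure_mono h1)
  rw [measure_congr (ball_diff_ae_eq R)]
  exact measure_ball_pos _ _ hR

end Crest.Agent.R077
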