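import Crest.Agent.R077.MainC

/-! # Row 77: a priori bounds for positive supersolutions of the integral system -/

set_option autoImplicit false
set_option linter.unusedSectionVars false
set_option linter.unusedVariables false

open MeasureTheory Metric Set Filter Topology
open scoped RealInnerProductSpace

namespace Crest.Agent.R077

theorem bounds_combine {k₁ k₂ s t p q R a b : ℝ} (hk₁ : 0 < k₁) (hk₂ : 0 < k₂) (hp : 0 < p)
    (hR : 0 < R) (ha : 0 < a) (h1 : k₁ * R ^ s * b ^ p ≤ a) (h2 : k₂ * R ^ t * a ^ q ≤ b) :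
    k₁ * k₂ ^ p * R ^ (s + t * p) ≤ a ^ (1 - p * q) := by
  have h3 : (k₂ * R ^ t * a ^ q) ^ p ≤ b ^ p := Real.rpow_le_rpow (by positivity) h2 hp.le
  rw [Real.mul_rpow (by positivity) (by positivity), Real.mul_rpow (by positivity) (by positivity),
    ← Real.rpow_mul hR.le, ← Real.rpow_mul ha.le] at h3
  have h4 := (mul_le_mul_of_nonneg_left h3 (by positivity : 0 ≤ k₁ * R ^ s)).trans h1
  rw [Real.rpow_sub ha, Real.rpow_one, le_div_iff₀ (by positivity), Real.rpow_add hR, mul_comm p q]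
  calc _ = _ := by ring
    _ ≤ _ := h4

theorem bounds_decay {k e r R a : ℝ} (hk : 0 < k) (hr : 0 < r) (hR : 0 < R) (ha : 0 < a)
    (h : k * R ^ e ≤ a ^ (-r)) : a ≤ k ^ (-(1 / r)) * R ^ (-(e / r)) := by
  have h1 := Real.rpow_le_rpow_of_nonpos (by positivity) h (by
    have := one_div_pos.2 hr; linarith : -(1 / r) ≤ 0)
  rw [← Real.rpow_mul ha.le, Real.mul_rpow hk.le (by positivity), ← Real.rpow_mul hR.le] at h1
  have e1 : -r * -(1 / r) = 1 := by field_simp
  have e2 : e * -(1 / r) = -(e / r) := by ring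
  rwa [e1, e2, Real.rpow_one] at h1

theorem not_bounded_rpow {k e M : ℝ} (hk : 0 < k) (he : 0 < e)
    (h : ∀ R : ℝ, 1 ≤ R → k * R ^ e ≤ M) : False := by
  have h1 := ((tendsto_rpow_atTop he).const_mul_atTop hk).eventually_gt_atTop M
  obtain ⟨R, hR, hR'⟩ := (h1.and (eventually_ge_atTop 1)).exists
  exact absurd (h R hR') (not_le.2 hR)

variable {E : Type*} [NormedAddCommGroup E] [InnerProductSpace ℝ E]
  [FiniteDimensional ℝ E] [MeasurableSpace E] [BorelSpace E]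

theorem mass_le {m R : ℝ} [Nontrivial E] (hm : 0 < m) {f : E → ℝ} (hf : Measurable f)
    (hf0 : ∀ y, 0 ≤ f y) (hR : 0 < R) {x : E} (hx : ‖x‖ ≤ R)
    (hi : Integrable (fun y => K m x y * f y)) :
    Integrable (fun y : E => (max ‖y‖ R) ^ (-(2 * m)) * f y) ∧
      mass m f R ≤ 2 ^ (2 * m) * ∫ y, K m x y * f y := by
  have hae : ∀ᵐ y ∂(volume : Measure E), 0 ≤ (max ‖y‖ R) ^ (-(2 * m)) * f y ∧
      (max ‖y‖ R) ^ (-(2 * m)) * f y ≤ 2 ^ (2 * m) * (K m x y * f y) := by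
    have h2 : ∀ᵐ y ∂(volume : Measure E), y ≠ x := by simp [ae_iff]
    filter_upwards [h2] with y hy
    have hM : 0 < max ‖y‖ R := lt_max_of_lt_right hR
    refine ⟨mul_nonneg (Real.rpow_nonneg hM.le _) (hf0 y), ?_⟩
    rw [← mul_assoc]
    refine mul_le_mul_of_nonneg_right ?_ (hf0 y)
    have h3 : ‖x - y‖ ≤ 2 * max ‖y‖ R := by
      have := norm_sub_le x y
      have := le_max_left ‖y‖ R
      have := le_max_right ‖y‖ R
      linarith
    have h4 : 0 < ‖x - y‖ := norm_pos_iff.2 (sub_ne_zero.2 hy.symm)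
    have h5 := Real.rpow_le_rpow_of_nonpos h4 h3 (by linarith : -(2 * m) ≤ 0)
    rw [Real.mul_rpow (by norm_num) hM.le] at h5
    have h6 := mul_le_mul_of_nonneg_left h5 (by positivity : (0 : ℝ) ≤ 2 ^ (2 * m))
    rw [← mul_assoc, ← Real.rpow_add (by norm_num), add_neg_cancel, Real.rpow_zero, one_mul] at h6
    rwa [K, sq_rpow, mul_neg]
  have h1 : Integrable (fun y : E => (max ‖y‖ R) ^ (-(2 * m)) * f y) := by
    refine Integrable.mono' (hi.const_mul _) ?_ (hae.mono fun y hy => by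
      rw [Real.norm_of_nonneg hy.1]; exact hy.2)
    exact ((by fun_prop : Measurable fun y : E => (max ‖y‖ R) ^ (-(2 * m))).mul
      hf).aestronglyMeasurable
  refine ⟨h1, ?_⟩
  rw [mass, ← integral_const_mul]
  exact integral_mono_ae h1 (hi.const_mul _) (hae.mono fun y hy => hy.2)

theorem mass_anti {m r R : ℝ} (hm : 0 < m) {f : E → ℝ} (hf0 : ∀ y, 0 ≤ f y) (hr : 0 < r)
    (h : r ≤ R) (hi : Integrable (fun y : E => (max ‖y‖ r) ^ (-(2 * m)) * f y)) :
    mass m f R ≤ mass m f r := by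
  refine integral_mono_of_nonneg (Eventually.of_forall fun y => ?_) hi
    (Eventually.of_forall fun y => ?_)
  · exact mul_nonneg (Real.rpow_nonneg (le_max_of_le_left (norm_nonneg _)) _) (hf0 y)
  · exact mul_le_mul_of_nonneg_right (Real.rpow_le_rpow_of_nonpos (lt_max_of_lt_right hr)
      (max_le_max le_rfl h) (by linarith)) (hf0 y)

theorem mass_lower {m : ℝ} (hn : (Module.finrank ℝ E : ℝ) = 2 * m + 2) (hm : 0 < m) (A : ℝ) :
    ∃ κ : ℝ, 0 < κ ∧ ∀ (c p R μ : ℝ) (v : E → ℝ), 0 ≤ c → 0 ≤ p → 0 < R → 0 ≤ μ →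
      (∀ y, 0 ≤ v y) → (∀ y : E, y ≠ 0 → ‖y‖ ≤ R → μ ≤ v y) →
      Integrable (fun y : E => (max ‖y‖ R) ^ (-(2 * m)) * src c A p v y) →
      c * κ * R ^ (2 + A) * μ ^ p ≤ mass m (src c A p v) R := by
  have := nontrivial_of_hn hn hm
  set ω := (volume : Measure E).real (ball 0 1) with hω
  have hω0 : 0 < ω := ENNReal.toReal_pos (measure_ball_pos _ _ one_pos).ne' measure_ball_lt_top.ne
  have h2 : (1 / 2 : ℝ) ^ (2 * m + 2) < 1 := Real.rpow_lt_one (by norm_num) (by norm_num) (by linarith)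
  refine ⟨min 1 ((1 / 2) ^ A) * (ω * (1 - (1 / 2) ^ (2 * m + 2))),
    mul_pos (by positivity) (mul_pos hω0 (by linarith)), fun c p R μ v hc hp hR hμ hv0 hv hi => ?_⟩
  have hsub : ball (0 : E) (R / 2) ⊆ ball (0 : E) R := ball_subset_ball (by linarith)
  have hvol : (volume : Measure E).real (ball (0 : E) R \ ball (0 : E) (R / 2)) =
      R ^ (2 * m + 2) * (ω * (1 - (1 / 2) ^ (2 * m + 2))) := by
    rw [measureReal_sdiff hsub measurableSet_ball measure_ball_lt_top.ne,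
      ← Measure.addHaar_real_closedBall_eq_addHaar_real_ball volume 0 R,
      ← Measure.addHaar_real_closedBall_eq_addHaar_real_ball volume 0 (R / 2),
      Measure.addHaar_real_closedBall volume 0 hR.le,
      Measure.addHaar_real_closedBall volume 0 (by linarith : 0 ≤ R / 2), rpow_finrank hn,
      rpow_finrank hn, ← hω, div_eq_mul_one_div R 2, Real.mul_rpow hR.le (by norm_num)]
    ring
  have hfin : volume (ball (0 : E) R \ ball (0 : E) (R / 2)) ≠ ⊤ :=
    ((measure_mono sdiff_subset).trans_lt measure_ball_lt_top).ne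
  calc _ = ∫ y in ball (0 : E) R \ ball (0 : E) (R / 2),
        R ^ (-(2 * m)) * (c * (min 1 ((1 / 2) ^ A) * R ^ A) * μ ^ p) := by
        rw [setIntegral_const, hvol, smul_eq_mul]
        have e : R ^ (2 + A) = R ^ (2 * m + 2) * R ^ (-(2 * m)) * R ^ A := by
          rw [← Real.rpow_add hR, ← Real.rpow_add hR]; congr 1; ring
        rw [e]; ring
    _ ≤ ∫ y in ball (0 : E) R \ ball (0 : E) (R / 2),
        (max ‖y‖ R) ^ (-(2 * m)) * src c A p v y := by
        refine setIntegral_mono_on (integrableOn_const hfin) hi.integrableOn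
          (measurableSet_ball.diff measurableSet_ball) fun y hy => ?_
        have hy1 : ‖y‖ < R := mem_ball_zero_iff.1 hy.1
        have hy2 : R / 2 ≤ ‖y‖ := by simpa using hy.2
        have hy0 : y ≠ 0 := by rintro rfl; simp at hy2; linarith
        rw [max_eq_right hy1.le]
        refine mul_le_mul_of_nonneg_left ?_ (Real.rpow_nonneg hR.le _)
        have a1 : min 1 ((1 / 2) ^ A) * R ^ A ≤ ‖y‖ ^ A := by
          rcases le_total 0 A with hA | hA
          · calc _ ≤ (1 / 2) ^ A * R ^ A :=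
                  mul_le_mul_of_nonneg_right (min_le_right _ _) (Real.rpow_nonneg hR.le _)
              _ = (1 / 2 * R) ^ A := (Real.mul_rpow (by norm_num) hR.le).symm
              _ ≤ _ := Real.rpow_le_rpow (by positivity) (by linarith) hA
          · calc _ ≤ 1 * R ^ A :=
                  mul_le_mul_of_nonneg_right (min_le_left _ _) (Real.rpow_nonneg hR.le _)
              _ = R ^ A := one_mul _
              _ ≤ _ := Real.rpow_le_rpow_of_nonpos (by linarith) hy1.le hA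
        exact mul_le_mul (mul_le_mul_of_nonneg_left a1 hc)
          (Real.rpow_le_rpow hμ (hv y hy0 hy1.le) hp) (Real.rpow_nonneg hμ _)
          (mul_nonneg hc (Real.rpow_nonneg (norm_nonneg _) _))
    _ ≤ _ := setIntegral_le_integral hi (Eventually.of_forall fun y =>
        mul_nonneg (Real.rpow_nonneg (le_max_of_le_left (norm_nonneg _)) _)
          (src_nonneg hc (hv0 y)))

theorem exp_gt_neg_two {m c A p U : ℝ} (hn : (Module.finrank ℝ E : ℝ) = 2 * m + 2) (hm : 0 < m)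
    (hc : 0 < c) (hp : 0 ≤ p) {v : E → ℝ} (hv : Continuous v) (hv0 : ∀ y, 0 < v y)
    (h : ∀ R : ℝ, 0 < R → R ≤ 1 →
      Integrable (fun y : E => (max ‖y‖ R) ^ (-(2 * m)) * src c A p v y) ∧
        mass m (src c A p v) R ≤ U) : -2 < A := by
  have := nontrivial_of_hn hn hm
  by_contra hA
  push Not at hA
  obtain ⟨y₀, -, hy₀⟩ := (isCompact_closedBall (0 : E) 1).exists_isMinOn
    (nonempty_closedBall.2 zero_le_one) hv.continuousOn
  have hf0 : ∀ y, 0 ≤ src c A p v y := fun y => src_nonneg hc.le (hv0 y).le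
  have hfm : Measurable (src c A p v) := measurable_src hv.measurable
  have hfat := lintegral_liminf_le (μ := (volume : Measure E)) (u := 𝓝[>] (0 : ℝ))
    (f := fun R y => ENNReal.ofReal ((max ‖y‖ R) ^ (-(2 * m)) * src c A p v y))
    (fun R => ((by fun_prop : Measurable fun y : E => (max ‖y‖ R) ^ (-(2 * m))).mul
      hfm).ennreal_ofReal)
  have hlim : ∀ᵐ y ∂(volume : Measure E),
      liminf (fun R : ℝ => ENNReal.ofReal ((max ‖y‖ R) ^ (-(2 * m)) * src c A p v y)) (𝓝[>] 0) =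
        ENNReal.ofReal (‖y‖ ^ (-(2 * m)) * src c A p v y) := by
    have h2 : ∀ᵐ y ∂(volume : Measure E), y ≠ 0 := by simp [ae_iff]
    filter_upwards [h2] with y hy
    apply Tendsto.liminf_eq
    refine tendsto_const_nhds.congr' ?_
    filter_upwards [nhdsWithin_le_nhds (gt_mem_nhds (norm_pos_iff.2 hy))] with R hR
    rw [max_eq_left (le_of_lt hR)]
  rw [lintegral_congr_ae hlim] at hfat
  have hle : liminf (fun R : ℝ => ∫⁻ y : E,
      ENNReal.ofReal ((max ‖y‖ R) ^ (-(2 * m)) * src c A p v y)) (𝓝[>] 0) ≤ ENNReal.ofReal U := by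
    apply liminf_le_of_frequently_le'
    apply Eventually.frequently
    filter_upwards [self_mem_nhdsWithin, nhdsWithin_le_nhds (gt_mem_nhds one_pos)] with R hR hR1
    rw [← ofReal_integral_eq_lintegral_ofReal (h R hR (le_of_lt hR1)).1 (Eventually.of_forall
      fun y => mul_nonneg (Real.rpow_nonneg (le_max_of_le_left (norm_nonneg _)) _) (hf0 y))]
    exact ENNReal.ofReal_le_ofReal (h R hR (le_of_lt hR1)).2
  have hint : Integrable (fun y : E => ‖y‖ ^ (-(2 * m)) * src c A p v y) := by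
    refine ⟨((by fun_prop : Measurable fun y : E => ‖y‖ ^ (-(2 * m))).mul
      hfm).aestronglyMeasurable, ?_⟩
    rw [hasFiniteIntegral_iff_ofReal (Eventually.of_forall fun y =>
      mul_nonneg (Real.rpow_nonneg (norm_nonneg _) _) (hf0 y))]
    exact (hfat.trans hle).trans_lt ENNReal.ofReal_lt_top
  have hμ : 0 < c * v y₀ ^ p := mul_pos hc (Real.rpow_pos_of_pos (hv0 _) _)
  have hint2 : IntegrableOn (fun y : E => ‖y‖ ^ (-(2 * m + 2))) (ball (0 : E) 1) := by
    refine dom_integrable (by fun_prop) (fun y h1 h0 => ⟨by positivity, ?_⟩)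
      ((hint.const_mul (c * v y₀ ^ p)⁻¹).integrableOn)
    have hy : 0 < ‖y‖ := norm_pos_iff.2 h0
    rw [le_inv_mul_iff₀ hμ]
    have a1 : ‖y‖ ^ (-(2 * m + 2)) ≤ ‖y‖ ^ (-(2 * m)) * ‖y‖ ^ A := by
      rw [← Real.rpow_add hy]
      exact Real.rpow_le_rpow_of_exponent_ge hy h1.le (by linarith)
    have a2 : v y₀ ^ p ≤ v y ^ p :=
      Real.rpow_le_rpow (hv0 _).le (hy₀ (mem_closedBall_zero_iff.2 h1.le)) hp
    calc c * v y₀ ^ p * ‖y‖ ^ (-(2 * m + 2)) ≤ c * v y ^ p * (‖y‖ ^ (-(2 * m)) * ‖y‖ ^ A) :=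
          mul_le_mul (mul_le_mul_of_nonneg_left a2 hc.le) a1 (by positivity)
            (mul_nonneg hc.le (Real.rpow_nonneg (hv0 y).le _))
      _ = _ := by simp only [src]; ring
  rw [integrableOn_fun_norm_addHaar volume (f := fun r : ℝ => r ^ (-(2 * m + 2)))] at hint2
  have hint3 : IntegrableOn (fun r : ℝ => r ^ (-1 : ℝ)) (Ioo 0 1) := by
    refine hint2.congr_fun (fun r hr => ?_) measurableSet_Ioo
    simp only [smul_eq_mul]
    rw [← Real.rpow_natCast, ← Real.rpow_add hr.1, Nat.cast_sub Module.finrank_pos, hn]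
    congr 1; push_cast; ring
  rw [intervalIntegral.integrableOn_Ioo_rpow_iff one_pos] at hint3
  exact lt_irrefl _ hint3

theorem half_mass {m c A p : ℝ} (hn : (Module.finrank ℝ E : ℝ) = 2 * m + 2) (hm : 0 < m)
    (hc : 0 < c) (hp : 0 < p) {u v : E → ℝ} (hu : Continuous u) (hv : Continuous v)
    (hv0 : ∀ y, 0 < v y) (hi : ∀ x, x ≠ 0 → Integrable (fun y => K m x y * src c A p v y))
    (hl : ∀ x, x ≠ 0 → ∫ y, K m x y * src c A p v y ≤ u x) :
    (∀ R : ℝ, 0 < R → Integrable (fun y : E => (max ‖y‖ R) ^ (-(2 * m)) * src c A p v y)) ∧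
    (∀ R : ℝ, 0 < R → 0 < mass m (src c A p v) R) ∧
    (∀ R : ℝ, 0 < R → ∀ x : E, x ≠ 0 → ‖x‖ ≤ R →
      2 ^ (-(2 * m)) * mass m (src c A p v) R ≤ u x) ∧ -2 < A := by
  have := nontrivial_of_hn hn hm
  have hf0 : ∀ y, 0 ≤ src c A p v y := fun y => src_nonneg hc.le (hv0 y).le
  have hfm : Measurable (src c A p v) := measurable_src hv.measurable
  have hex : ∀ R : ℝ, 0 < R → ∃ x : E, x ≠ 0 ∧ ‖x‖ ≤ R := fun R hR => by
    obtain ⟨x, hx⟩ := exists_norm_eq E hR.le
    exact ⟨x, norm_pos_iff.1 (by rwa [hx]), hx.le⟩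
  have h1 : ∀ R : ℝ, 0 < R →
      Integrable (fun y : E => (max ‖y‖ R) ^ (-(2 * m)) * src c A p v y) := fun R hR => by
    obtain ⟨x, hx0, hx⟩ := hex R hR
    exact (mass_le hm hfm hf0 hR hx (hi x hx0)).1
  have h3 : ∀ R : ℝ, 0 < R → ∀ x : E, x ≠ 0 → ‖x‖ ≤ R →
      mass m (src c A p v) R ≤ 2 ^ (2 * m) * u x := fun R hR x hx0 hx =>
    (mass_le hm hfm hf0 hR hx (hi x hx0)).2.trans
      (mul_le_mul_of_nonneg_left (hl x hx0) (by positivity))
  refine ⟨h1, fun R hR => ?_, fun R hR x hx0 hx => ?_, ?_⟩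
  · obtain ⟨κ, hκ, hlow⟩ := mass_lower hn hm A
    obtain ⟨y₀, -, hy₀⟩ := (isCompact_closedBall (0 : E) R).exists_isMinOn
      (nonempty_closedBall.2 hR.le) hv.continuousOn
    refine lt_of_lt_of_le ?_ (hlow c p R (v y₀) v hc.le hp.le hR (hv0 _).le (fun y => (hv0 y).le)
      (fun y _ hy => hy₀ (mem_closedBall_zero_iff.2 hy)) (h1 R hR))
    have := hv0 y₀
    positivity
  · rw [Real.rpow_neg (by norm_num), inv_mul_le_iff₀ (by positivity)]
    exact h3 R hR x hx0 hx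
  · obtain ⟨C, hC⟩ := (isCompact_closedBall (0 : E) 1).exists_bound_of_continuousOn hu.continuousOn
    refine exp_gt_neg_two (U := 2 ^ (2 * m) * C) hn hm hc hp.le hv hv0 fun R hR hR1 => ⟨h1 R hR, ?_⟩
    obtain ⟨x, hx0, hx⟩ := hex R hR
    exact (h3 R hR x hx0 hx).trans (mul_le_mul_of_nonneg_left
      ((le_abs_self _).trans (hC x (mem_closedBall_zero_iff.2 (hx.trans hR1)))) (by positivity))

theorem inf_zero {m c A p : ℝ} (hn : (Module.finrank ℝ E : ℝ) = 2 * m + 2) (hm : 0 < m)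
    (hc : 0 < c) (hp : 0 < p) (hA : -2 < A) {v : E → ℝ} (hv0 : ∀ y, 0 < v y)
    (h1 : ∀ R : ℝ, 0 < R → Integrable (fun y : E => (max ‖y‖ R) ^ (-(2 * m)) * src c A p v y))
    (μ : ℝ) (hμ : 0 < μ) : ∃ x, x ≠ 0 ∧ v x < μ := by
  by_contra h
  push Not at h
  obtain ⟨κ, hκ, hlow⟩ := mass_lower hn hm A
  refine not_bounded_rpow (k := c * κ * μ ^ p) (e := 2 + A) (M := mass m (src c A p v) 1)
    (by positivity) (by linarith) fun R hR => ?_
  have h2 := hlow c p R μ v hc.le hp.le (by linarith) hμ.le (fun y => (hv0 y).le)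
    (fun y hy _ => h y hy) (h1 R (by linarith))
  have h3 := mass_anti hm (fun y => src_nonneg (A := A) (p := p) hc.le (hv0 y).le) one_pos hR
    (h1 1 one_pos)
  linarith

theorem SuperSol.bounds {m c₁ c₂ A B p q : ℝ} {u v : E → ℝ}
    (hn : (Module.finrank ℝ E : ℝ) = 2 * m + 2) (hm : 0 < m) (hc₁ : 0 < c₁) (hc₂ : 0 < c₂)
    (hp : 0 < p) (hq : 0 < q) (S : SuperSol m c₁ c₂ A B p q u v) :
    -2 < A ∧ -2 < B ∧ 1 < p * q ∧
      (∀ μ : ℝ, 0 < μ → ∃ x, x ≠ 0 ∧ u x < μ) ∧ (∀ μ : ℝ, 0 < μ → ∃ x, x ≠ 0 ∧ v x < μ) ∧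
      (∀ R : ℝ, 0 < R →
        Integrable (fun y : E => (max ‖y‖ R) ^ (-(2 * m)) * src c₁ A p v y) ∧
        Integrable (fun y : E => (max ‖y‖ R) ^ (-(2 * m)) * src c₂ B q u y)) ∧
      ∃ C : ℝ, ∀ R : ℝ, 0 < R →
        mass m (src c₁ A p v) R * mass m (src c₂ B q u) R ≤
          C * R ^ (-(((p + 1) * (B + 2) + (q + 1) * (A + 2)) / (p * q - 1))) := by
  obtain ⟨f1, f2, f3, hA⟩ := half_mass hn hm hc₁ hp S.cu S.cv S.pv S.iu S.lu
  obtain ⟨g1, g2, g3, hB⟩ := half_mass hn hm hc₂ hq S.cv S.cu S.pu S.iv S.lv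
  obtain ⟨κ₁, hκ₁, l₁⟩ := mass_lower hn hm A
  obtain ⟨κ₂, hκ₂, l₂⟩ := mass_lower hn hm B
  set k₁ := c₁ * κ₁ * (2 ^ (-(2 * m))) ^ p with hk₁
  set k₂ := c₂ * κ₂ * (2 ^ (-(2 * m))) ^ q with hk₂
  have hk₁0 : 0 < k₁ := by positivity
  have hk₂0 : 0 < k₂ := by positivity
  have i₁ : ∀ R : ℝ, 0 < R →
      k₁ * R ^ (2 + A) * mass m (src c₂ B q u) R ^ p ≤ mass m (src c₁ A p v) R := by
    intro R hR
    have h := l₁ c₁ p R _ v hc₁.le hp.le hR (mul_pos (by positivity) (g2 R hR)).le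
      (fun y => (S.pv y).le) (g3 R hR) (f1 R hR)
    rw [Real.mul_rpow (by positivity) (g2 R hR).le] at h
    calc _ = _ := by rw [hk₁]; ring
      _ ≤ _ := h
  have i₂ : ∀ R : ℝ, 0 < R →
      k₂ * R ^ (2 + B) * mass m (src c₁ A p v) R ^ q ≤ mass m (src c₂ B q u) R := by
    intro R hR
    have h := l₂ c₂ q R _ u hc₂.le hq.le hR (mul_pos (by positivity) (f2 R hR)).le
      (fun y => (S.pu y).le) (f3 R hR) (g1 R hR)
    rw [Real.mul_rpow (by positivity) (f2 R hR).le] at h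
    calc _ = _ := by rw [hk₂]; ring
      _ ≤ _ := h
  have j₁ := fun R hR => bounds_combine hk₁0 hk₂0 hp hR (f2 R hR) (i₁ R hR) (i₂ R hR)
  have j₂ := fun R hR => bounds_combine hk₂0 hk₁0 hq hR (g2 R hR) (i₂ R hR) (i₁ R hR)
  have hpq : 1 < p * q := by
    by_contra h
    push Not at h
    refine not_bounded_rpow (k := k₁ * k₂ ^ p) (e := 2 + A + (2 + B) * p)
      (M := mass m (src c₁ A p v) 1 ^ (1 - p * q)) (by positivity)
      (by have := mul_pos (by linarith : 0 < 2 + B) hp; linarith) fun R hR => ?_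
    refine (j₁ R (by linarith)).trans (Real.rpow_le_rpow (f2 R (by linarith)).le ?_ (by linarith))
    exact mass_anti hm (fun y => src_nonneg hc₁.le (S.pv y).le) one_pos hR (f1 1 one_pos)
  refine ⟨hA, hB, hpq, inf_zero hn hm hc₂ hq hB S.pu g1, inf_zero hn hm hc₁ hp hA S.pv f1,
    fun R hR => ⟨f1 R hR, g1 R hR⟩,
    (k₁ * k₂ ^ p) ^ (-(1 / (p * q - 1))) * (k₂ * k₁ ^ q) ^ (-(1 / (p * q - 1))), fun R hR => ?_⟩
  have d₁ := bounds_decay (k := k₁ * k₂ ^ p) (e := 2 + A + (2 + B) * p) (r := p * q - 1)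
    (by positivity) (by linarith) hR (f2 R hR)
    (by rw [neg_sub]; exact j₁ R hR)
  have d₂ := bounds_decay (k := k₂ * k₁ ^ q) (e := 2 + B + (2 + A) * q) (r := p * q - 1)
    (by positivity) (by linarith) hR (g2 R hR)
    (by rw [neg_sub, mul_comm p q]; exact j₂ R hR)
  refine (mul_le_mul d₁ d₂ (g2 R hR).le (by positivity)).trans (le_of_eq ?_)
  have e : R ^ (-(((p + 1) * (B + 2) + (q + 1) * (A + 2)) / (p * q - 1))) =
      R ^ (-((2 + A + (2 + B) * p) / (p * q - 1))) * R ^ (-((2 + B + (2 + A) * q) / (p * q - 1))) := by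
    rw [← Real.rpow_add hR]; congr 1; ring
  rw [e]; ring

end Crest.Agent.R077
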