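import Mathlib

/-!
# Row 77 (Henon-Lane-Emden): shared definitions

`E` is a finite-dimensional real inner product space of dimension `n = 2 m + 2`.
-/

set_option autoImplicit false

open MeasureTheory Metric Set Filter Topology
open scoped RealInnerProductSpace

namespace Crest.Agent.R077

variable {E : Type*} [NormedAddCommGroup E] [InnerProductSpace ℝ E]

/-- Newtonian kernel `‖x - y‖ ^ (-2m)`. -/
noncomputable def K (m : ℝ) (x y : E) : ℝ := (‖x - y‖ ^ 2) ^ (-m)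

/-- `[x,y]^2 = ‖x‖² ‖y‖² - 2⟪x,y⟫ + 1`. -/
def Qs (x y : E) : ℝ := ‖x‖ ^ 2 * ‖y‖ ^ 2 - 2 * ⟪x, y⟫ + 1

/-- Reflected kernel `[x,y] ^ (-2m)`. -/
noncomputable def Ks (m : ℝ) (x y : E) : ℝ := (Qs x y) ^ (-m)

/-- Derivative at `h = 0` of `exp (m h) * K m (exp h • x) y`. -/
noncomputable def D (m : ℝ) (x y : E) : ℝ :=
  m * (‖y‖ ^ 2 - ‖x‖ ^ 2) * (‖x - y‖ ^ 2) ^ (-(m + 1))

/-- Derivative at `h = 0` of `exp (m h) * Ks m (exp h • x) y`. -/
noncomputable def Ds (m : ℝ) (x y : E) : ℝ :=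
  m * (1 - ‖x‖ ^ 2 * ‖y‖ ^ 2) * (Qs x y) ^ (-(m + 1))

/-- Inversion in the unit sphere. -/
noncomputable def kinv (y : E) : E := (‖y‖ ^ 2)⁻¹ • y

/-- The source term `c ‖y‖^A v(y)^p`. -/
noncomputable def src (c A p : ℝ) (v : E → ℝ) (y : E) : ℝ := c * ‖y‖ ^ A * v y ^ p

variable [FiniteDimensional ℝ E] [MeasurableSpace E] [BorelSpace E]

/-- Positive continuous supersolutions of the integral system. -/
structure SuperSol (m c₁ c₂ A B p q : ℝ) (u v : E → ℝ) : Prop where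
  cu : Continuous u
  cv : Continuous v
  pu : ∀ x, 0 < u x
  pv : ∀ x, 0 < v x
  iu : ∀ x, x ≠ 0 → Integrable (fun y => K m x y * src c₁ A p v y)
  iv : ∀ x, x ≠ 0 → Integrable (fun y => K m x y * src c₂ B q u y)
  lu : ∀ x, x ≠ 0 → ∫ y, K m x y * src c₁ A p v y ≤ u x
  lv : ∀ x, x ≠ 0 → ∫ y, K m x y * src c₂ B q u y ≤ v x

/-- Positive continuous solutions of the integral system. -/
structure IntSol (m c₁ c₂ A B p q : ℝ) (u v : E → ℝ) : Prop
    extends SuperSol m c₁ c₂ A B p q u v where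
  eu : ∀ x, x ≠ 0 → u x = ∫ y, K m x y * src c₁ A p v y
  ev : ∀ x, x ≠ 0 → v x = ∫ y, K m x y * src c₂ B q u y

/-- The truncated mass `∫ max(‖y‖,R)^(-2m) f(y) dy`. -/
noncomputable def mass (m : ℝ) (f : E → ℝ) (R : ℝ) : ℝ :=
  ∫ y, (max ‖y‖ R) ^ (-(2 * m)) * f y

/-- Energy in the ball of radius `R`. -/
noncomputable def energy (c₁ c₂ A B p q : ℝ) (u v : E → ℝ) (R : ℝ) : ℝ :=
  (∫ x in ball (0 : E) R, src c₂ B q u x * u x) + ∫ x in ball (0 : E) R, src c₁ A p v x * v x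

/-- Densities on the unit ball dominated by a power `‖y‖^σ`. -/
def Good (σ : ℝ) (ψ : E → ℝ) : Prop :=
  Measurable ψ ∧ ∃ C : ℝ, ∀ y ∈ ball (0 : E) 1, y ≠ 0 → |ψ y| ≤ C * ‖y‖ ^ σ

/-- Integrable densities on the unit ball that are bounded near the unit sphere. -/
def GoodS (χ : E → ℝ) : Prop :=
  Measurable χ ∧ IntegrableOn χ (ball (0 : E) 1) ∧
    ∃ C : ℝ, ∀ y : E, 1 / 4 ≤ ‖y‖ → ‖y‖ < 1 → |χ y| ≤ C

/-- Potential of an interior density `ψ` and a reflected exterior density `χ`. -/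
noncomputable def pot (m : ℝ) (ψ χ : E → ℝ) (z : E) : ℝ :=
  (∫ y in ball (0 : E) 1, K m z y * ψ y) + ∫ y in ball (0 : E) 1, Ks m z y * χ y

end Crest.Agent.R077
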