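import Crest.Agent.R077.DerivDAux

/-! # Row 77: derivative of a pairing of potentials under conformal dilation -/

set_option autoImplicit false
set_option linter.unusedSectionVars false

open MeasureTheory Metric Set Filter Topology
open scoped RealInnerProductSpace

namespace Crest.Agent.R077

variable {E : Type*} [NormedAddCommGroup E] [InnerProductSpace ℝ E]
  [FiniteDimensional ℝ E] [MeasurableSpace E] [BorelSpace E]

/-- Continuity of dilations in `L¹`, tested against a bounded measurable function. -/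
theorem continuous_integral_dilate (φ Ψ : E → ℝ) (hφ : Integrable φ) (hΨ : Measurable Ψ)
    {C : ℝ} (hC : ∀ x, |Ψ x| ≤ C) :
    Continuous (fun r : ℝ => ∫ x, φ x * Ψ (Real.exp r • x)) :=
  derivD_cont φ Ψ hφ hΨ hC

lemma derivD_ae_ne (hd : 1 ≤ Module.finrank ℝ E) (w : E) :
    ∀ᵐ y ∂(volume.restrict (ball (0 : E) 1)), y ≠ w := by
  have : Nontrivial E := Module.nontrivial_of_finrank_pos (R := ℝ) hd
  refine ae_restrict_of_ae ?_
  simp [ae_iff]

lemma derivD_ae_span (hd : 2 ≤ Module.finrank ℝ E) (x : E) :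
    ∀ᵐ y ∂(volume.restrict (ball (0 : E) 1)), y ∉ Submodule.span ℝ ({x} : Set E) := by
  refine ae_restrict_of_ae ?_
  have h : Submodule.span ℝ ({x} : Set E) ≠ ⊤ := by
    intro h
    have h1 := finrank_span_le_card (R := ℝ) ({x} : Set E)
    rw [h, finrank_top] at h1
    simp at h1
    omega
  have := Measure.addHaar_submodule (volume : Measure E) _ h
  simpa [ae_iff] using this

/-- A function dominated by an integrable function with a bounded integral. -/
lemma derivD_dom {ν : Measure E} {f g : E → ℝ} {C : ℝ} (hf : Measurable f) (hg : Integrable g ν)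
    (hC : ∫ y, g y ∂ν ≤ C) (h : ∀ᵐ y ∂ν, ‖f y‖ ≤ g y) :
    Integrable f ν ∧ ∫ y, ‖f y‖ ∂ν ≤ C := by
  have h1 := hg.mono' hf.aestronglyMeasurable h
  exact ⟨h1, (integral_mono_ae h1.norm hg h).trans hC⟩

lemma derivD_meas_K (m : ℝ) : Measurable (fun z : E × E => K m z.1 z.2) := by
  unfold K; exact Measurable.pow_const (by fun_prop) _

lemma derivD_meas_D (m : ℝ) : Measurable (fun z : E × E => D m z.1 z.2) := by
  unfold D; exact Measurable.mul (by fun_prop) (Measurable.pow_const (by fun_prop) _)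

lemma derivD_cont_Qs : Continuous (fun z : E × E => Qs z.1 z.2) := by
  unfold Qs; fun_prop

lemma derivD_meas_Ks (m : ℝ) : Measurable (fun z : E × E => Ks m z.1 z.2) := by
  unfold Ks; exact Measurable.pow_const derivD_cont_Qs.measurable _

lemma derivD_meas_Ds (m : ℝ) : Measurable (fun z : E × E => Ds m z.1 z.2) := by
  unfold Ds; exact Measurable.mul (by fun_prop) (Measurable.pow_const derivD_cont_Qs.measurable _)

lemma derivD_sq_rpow {d : ℝ} (hd : 0 ≤ d) (a : ℝ) : (d ^ 2) ^ (-a) = d ^ (-(2 * a)) := by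
  rw [← Real.rpow_natCast, ← Real.rpow_mul hd]; congr 1; push_cast; ring

/-- Schur bounds for the interior kernels. -/
lemma derivD_schur_int {m σ : ℝ} (hn : (Module.finrank ℝ E : ℝ) = 2 * m + 2) (hm : 0 < m)
    (hσ : -2 < σ) (ψ : E → ℝ) (hψ : Good σ ψ) :
    (∀ z : E, ‖z‖ < 2 → Integrable (fun y => K m z y * ψ y) (volume.restrict (ball (0 : E) 1))) ∧
    ∃ C : ℝ, ∀ z : E, ‖z‖ < 2 →
      Integrable (fun y => D m z y * ψ y) (volume.restrict (ball (0 : E) 1)) ∧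
        ∫ y in ball (0 : E) 1, ‖D m z y * ψ y‖ ≤ C := by
  have hd : 1 ≤ Module.finrank ℝ E := by
    have : (1 : ℝ) ≤ Module.finrank ℝ E := by linarith
    exact_mod_cast this
  obtain ⟨hψm, C₀, hC₀⟩ := hψ
  set b : ℝ := max (-σ) 1 with hb
  have hb1 : 1 ≤ b := le_max_right _ _
  have hb2 : b < 2 := max_lt (by linarith) (by norm_num)
  obtain ⟨C₁, hC₁⟩ := derivD_schur (E := E) (s := 2 * m + b) (by linarith) hd
  have hψb : ∀ y ∈ ball (0 : E) 1, y ≠ 0 → |ψ y| ≤ |C₀| * ‖y‖ ^ (-b) := by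
    intro y hy hy0
    refine (hC₀ y hy hy0).trans ?_
    refine mul_le_mul (le_abs_self _) ?_ (by positivity) (abs_nonneg _)
    refine Real.rpow_le_rpow_of_exponent_ge (norm_pos_iff.mpr hy0)
      (mem_ball_zero_iff.mp hy).le ?_
    have := le_max_left (-σ) 1
    linarith
  set g : E → E → ℝ := fun z y => ‖z - y‖ ^ (-(2 * m + b)) + ‖(0 : E) - y‖ ^ (-(2 * m + b)) with hg
  have hgi : ∀ z : E, ‖z‖ < 2 → Integrable (g z) (volume.restrict (ball (0 : E) 1)) ∧
      ∫ y in ball (0 : E) 1, g z y ≤ 2 * C₁ := by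
    intro z hz
    have h1 := hC₁ z hz.le
    have h2 := hC₁ 0 (by simp)
    refine ⟨h1.1.add h2.1, ?_⟩
    simp only [hg]
    rw [integral_add h1.1 h2.1]
    linarith [h1.2, h2.2]
  constructor
  · intro z hz
    refine (derivD_dom (f := fun y => K m z y * ψ y) (g := fun y => |C₀| * g z y) (C := ∫ y in ball (0 : E) 1, |C₀| * g z y)
      (((derivD_meas_K m).comp measurable_prodMk_left).mul hψm) ((hgi z hz).1.const_mul _)
      le_rfl ?_).1
    filter_upwards [derivD_ae_ne hd z, derivD_ae_ne hd 0, ae_restrict_mem measurableSet_ball]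
      with y h1 h2 h3
    have hdp : 0 < ‖z - y‖ := norm_pos_iff.mpr (sub_ne_zero.mpr h1.symm)
    have hsp : 0 < ‖y‖ := norm_pos_iff.mpr h2
    have hmix := derivD_mixed hdp hsp (show 0 ≤ 2 * m by linarith) (show 0 ≤ b by linarith)
    rw [norm_mul, Real.norm_eq_abs, Real.norm_eq_abs, K, derivD_sq_rpow hdp.le,
      abs_of_nonneg (by positivity)]
    simp only [hg, zero_sub, norm_neg]
    calc ‖z - y‖ ^ (-(2 * m)) * |ψ y| ≤ ‖z - y‖ ^ (-(2 * m)) * (|C₀| * ‖y‖ ^ (-b)) := by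
          gcongr; exact hψb y h3 h2
      _ = |C₀| * (‖z - y‖ ^ (-(2 * m)) * ‖y‖ ^ (-b)) := by ring
      _ ≤ _ := by gcongr
  · refine ⟨3 * m * |C₀| * (2 * C₁), fun z hz => ?_⟩
    refine derivD_dom (g := fun y => 3 * m * |C₀| * g z y)
      (((derivD_meas_D m).comp measurable_prodMk_left).mul hψm) ((hgi z hz).1.const_mul _) ?_ ?_
    · rw [integral_const_mul]
      exact mul_le_mul_of_nonneg_left (hgi z hz).2 (by positivity)
    filter_upwards [derivD_ae_ne hd z, derivD_ae_ne hd 0, ae_restrict_mem measurableSet_ball]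
      with y h1 h2 h3
    have hdp : 0 < ‖z - y‖ := norm_pos_iff.mpr (sub_ne_zero.mpr h1.symm)
    have hsp : 0 < ‖y‖ := norm_pos_iff.mpr h2
    have hmix := derivD_mixed hdp hsp (show 0 ≤ 2 * m by linarith) (show 0 ≤ b by linarith)
    have hmix' := derivD_mixed hdp hsp (show 0 ≤ 2 * m + 1 by linarith) (show 0 ≤ b - 1 by linarith)
    rw [show 2 * m + 1 + (b - 1) = 2 * m + b by ring] at hmix'
    set d := ‖z - y‖ with hdd
    set s := ‖y‖ with hs
    have hz1 : ‖z‖ ≤ d + s := by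
      have := norm_add_le (z - y) y
      rwa [sub_add_cancel] at this
    have hz2 : |s - ‖z‖| ≤ d := by
      rw [abs_sub_comm]; exact abs_norm_sub_norm_le z y
    have hnum : |s ^ 2 - ‖z‖ ^ 2| ≤ d * (d + 2 * s) := by
      rw [show s ^ 2 - ‖z‖ ^ 2 = (s - ‖z‖) * (s + ‖z‖) by ring, abs_mul,
        abs_of_nonneg (show 0 ≤ s + ‖z‖ by positivity)]
      exact mul_le_mul hz2 (by linarith) (by positivity) hdp.le
    have e1 : d ^ (-(2 * m)) = d ^ (-(2 * (m + 1))) * d * d := by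
      rw [← Real.rpow_add_one hdp.ne', ← Real.rpow_add_one hdp.ne']; congr 1; ring
    have e2 : d ^ (-(2 * m + 1)) = d ^ (-(2 * (m + 1))) * d := by
      rw [← Real.rpow_add_one hdp.ne']; congr 1; ring
    have e3 : s ^ (-(b - 1)) = s ^ (-b) * s := by
      rw [← Real.rpow_add_one hsp.ne']; congr 1; ring
    rw [norm_mul, Real.norm_eq_abs, Real.norm_eq_abs, D, derivD_sq_rpow hdp.le, abs_mul, abs_mul,
      abs_of_pos hm, abs_of_nonneg (show 0 ≤ d ^ (-(2 * (m + 1))) by positivity)]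
    simp only [hg, zero_sub, norm_neg]
    calc m * |s ^ 2 - ‖z‖ ^ 2| * d ^ (-(2 * (m + 1))) * |ψ y|
        ≤ m * (d * (d + 2 * s)) * d ^ (-(2 * (m + 1))) * (|C₀| * s ^ (-b)) := by
          gcongr; exact hψb y h3 h2
      _ = m * |C₀| * (d ^ (-(2 * m)) * s ^ (-b) + 2 * (d ^ (-(2 * m + 1)) * s ^ (-(b - 1)))) := by
          rw [e1, e2, e3]; ring
      _ ≤ m * |C₀| * ((d ^ (-(2 * m + b)) + s ^ (-(2 * m + b))) +
          2 * (d ^ (-(2 * m + b)) + s ^ (-(2 * m + b)))) := by gcongr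
      _ = _ := by ring

lemma derivD_Qs_ge (z y : E) : (1 - ‖z‖ * ‖y‖) ^ 2 ≤ Qs z y := by
  have := real_inner_le_norm z y
  unfold Qs; nlinarith

lemma derivD_Qs_eq {z : E} (hz : z ≠ 0) (y : E) : Qs z y = (‖z‖ * ‖kinv z - y‖) ^ 2 := by
  have h : ‖z‖ ≠ 0 := norm_ne_zero_iff.mpr hz
  rw [mul_pow, norm_sub_sq_real, kinv, norm_smul, inner_smul_left, Real.norm_eq_abs,
    abs_of_nonneg (by positivity), Qs]
  simp only [conj_trivial]
  field_simp
  ring

/-- Schur bound for powers of `√ Qs`. -/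
lemma derivD_schur_Q {e : ℝ} (he : e < Module.finrank ℝ E) (he0 : 0 ≤ e)
    (hd : 1 ≤ Module.finrank ℝ E) (χ : E → ℝ) (hχ : GoodS χ) :
    ∃ C : ℝ, ∀ z : E, ‖z‖ < 2 → ∃ g : E → ℝ, Integrable g (volume.restrict (ball (0 : E) 1)) ∧
      ∫ y in ball (0 : E) 1, g y ≤ C ∧ ∀ᵐ y ∂(volume.restrict (ball (0 : E) 1)),
        0 < √(Qs z y) ∧ √(Qs z y) ^ (-e) * |χ y| ≤ g y := by
  obtain ⟨_, hχi, C₀, hC₀⟩ := hχ
  obtain ⟨C₁, hC₁⟩ := derivD_schur (E := E) he hd
  refine ⟨(1 / 2) ^ (-e) * ((∫ y in ball (0 : E) 1, ‖χ y‖) + |C₀| * C₁), fun z hz => ?_⟩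
  set w : E := if 1 / 2 ≤ ‖z‖ then kinv z else 0 with hw
  have hw2 : ‖w‖ ≤ 2 := by
    rw [hw]
    split_ifs with h
    · have h0 : 0 < ‖z‖ := by linarith
      rw [kinv, norm_smul, Real.norm_eq_abs, abs_of_nonneg (by positivity), inv_mul_le_iff₀
        (by positivity)]
      nlinarith
    · simp
  have h1 := hC₁ w hw2
  refine ⟨fun y => (1 / 2) ^ (-e) * (‖χ y‖ + |C₀| * ‖w - y‖ ^ (-e)),
    (hχi.norm.add (h1.1.const_mul _)).const_mul _, ?_, ?_⟩
  · rw [integral_const_mul, integral_add hχi.norm (h1.1.const_mul _), integral_const_mul]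
    gcongr
    exact h1.2
  filter_upwards [derivD_ae_ne hd w, ae_restrict_mem measurableSet_ball] with y hy1 hy2
  rw [mem_ball_zero_iff] at hy2
  have hdp : 0 < ‖w - y‖ := norm_pos_iff.mpr (sub_ne_zero.mpr hy1.symm)
  by_cases hc : ‖z‖ * ‖y‖ ≤ 1 / 2
  · have hq : 1 / 2 ≤ √(Qs z y) := by
      apply Real.le_sqrt_of_sq_le
      refine le_trans ?_ (derivD_Qs_ge z y)
      nlinarith
    refine ⟨by linarith, ?_⟩
    have h2 : √(Qs z y) ^ (-e) ≤ (1 / 2) ^ (-e) :=
      Real.rpow_le_rpow_of_nonpos (by norm_num) hq (by linarith)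
    refine mul_le_mul h2 ?_ (abs_nonneg _) (by positivity)
    rw [Real.norm_eq_abs]
    have : 0 ≤ |C₀| * ‖w - y‖ ^ (-e) := by positivity
    linarith
  · push Not at hc
    have hz1 : 1 / 2 ≤ ‖z‖ := by nlinarith [norm_nonneg z, norm_nonneg y]
    have hy3 : 1 / 4 ≤ ‖y‖ := by nlinarith [norm_nonneg z, norm_nonneg y]
    have hz0 : z ≠ 0 := norm_pos_iff.mp (by linarith)
    have hwz : w = kinv z := by rw [hw, if_pos hz1]
    have hq : √(Qs z y) = ‖z‖ * ‖w - y‖ := by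
      rw [derivD_Qs_eq hz0, Real.sqrt_sq (by positivity), hwz]
    have hq2 : 1 / 2 * ‖w - y‖ ≤ √(Qs z y) := by rw [hq]; gcongr
    refine ⟨lt_of_lt_of_le (by positivity) hq2, ?_⟩
    have h2 : √(Qs z y) ^ (-e) ≤ (1 / 2) ^ (-e) * ‖w - y‖ ^ (-e) := by
      rw [← Real.mul_rpow (by norm_num) hdp.le]
      exact Real.rpow_le_rpow_of_nonpos (by positivity) hq2 (by linarith)
    have h3 : |χ y| ≤ |C₀| := (hC₀ y hy3 hy2).trans (le_abs_self _)
    calc √(Qs z y) ^ (-e) * |χ y| ≤ ((1 / 2) ^ (-e) * ‖w - y‖ ^ (-e)) * |C₀| := by gcongr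
      _ = (1 / 2) ^ (-e) * (0 + |C₀| * ‖w - y‖ ^ (-e)) := by ring
      _ ≤ _ := by gcongr; exact norm_nonneg _

/-- Schur bounds for the reflected kernels. -/
lemma derivD_schur_ext {m : ℝ} (hn : (Module.finrank ℝ E : ℝ) = 2 * m + 2) (hm : 0 < m)
    (χ : E → ℝ) (hχ : GoodS χ) :
    (∀ z : E, ‖z‖ < 2 → Integrable (fun y => Ks m z y * χ y) (volume.restrict (ball (0 : E) 1))) ∧
    ∃ C : ℝ, ∀ z : E, ‖z‖ < 2 →
      Integrable (fun y => Ds m z y * χ y) (volume.restrict (ball (0 : E) 1)) ∧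
        ∫ y in ball (0 : E) 1, ‖Ds m z y * χ y‖ ≤ C := by
  have hd : 1 ≤ Module.finrank ℝ E := by
    have : (1 : ℝ) ≤ Module.finrank ℝ E := by linarith
    exact_mod_cast this
  have hQ : ∀ z y : E, Qs z y = √(Qs z y) ^ 2 := fun z y =>
    (Real.sq_sqrt ((sq_nonneg _).trans (derivD_Qs_ge z y))).symm
  constructor
  · intro z hz
    obtain ⟨C, hC⟩ := derivD_schur_Q (e := 2 * m) (by linarith) (by linarith) hd χ hχ
    obtain ⟨g, hg, -, hgb⟩ := hC z hz
    refine (derivD_dom (f := fun y => Ks m z y * χ y) (C := ∫ y in ball (0 : E) 1, g y)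
      (((derivD_meas_Ks m).comp measurable_prodMk_left).mul hχ.1) hg le_rfl ?_).1
    filter_upwards [hgb] with y hy
    rw [norm_mul, Real.norm_eq_abs, Real.norm_eq_abs, Ks, hQ, derivD_sq_rpow hy.1.le,
      abs_of_nonneg (by positivity)]
    exact hy.2
  · obtain ⟨C, hC⟩ := derivD_schur_Q (e := 2 * m + 1) (by linarith) (by linarith) hd χ hχ
    refine ⟨3 * m * C, fun z hz => ?_⟩
    obtain ⟨g, hg, hgC, hgb⟩ := hC z hz
    refine derivD_dom (g := fun y => 3 * m * g y)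
      (((derivD_meas_Ds m).comp measurable_prodMk_left).mul hχ.1) (hg.const_mul _) ?_ ?_
    · rw [integral_const_mul]
      exact mul_le_mul_of_nonneg_left hgC (by positivity)
    filter_upwards [hgb, ae_restrict_mem measurableSet_ball] with y hy hy2
    rw [mem_ball_zero_iff] at hy2
    set q := √(Qs z y) with hq
    have h1 : |1 - ‖z‖ * ‖y‖| ≤ q := Real.abs_le_sqrt (derivD_Qs_ge z y)
    have h2 : ‖z‖ * ‖y‖ ≤ 2 := by nlinarith [norm_nonneg z, norm_nonneg y]
    have hnum : |1 - ‖z‖ ^ 2 * ‖y‖ ^ 2| ≤ q * 3 := by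
      rw [show 1 - ‖z‖ ^ 2 * ‖y‖ ^ 2 = (1 - ‖z‖ * ‖y‖) * (1 + ‖z‖ * ‖y‖) by ring, abs_mul,
        abs_of_nonneg (show 0 ≤ 1 + ‖z‖ * ‖y‖ by positivity)]
      exact mul_le_mul h1 (by linarith) (by positivity) hy.1.le
    have e2 : q ^ (-(2 * m + 1)) = q ^ (-(2 * (m + 1))) * q := by
      rw [← Real.rpow_add_one hy.1.ne']; congr 1; ring
    have hq0 := hy.1
    rw [norm_mul, Real.norm_eq_abs, Real.norm_eq_abs, Ds, hQ, ← hq, derivD_sq_rpow hy.1.le, abs_mul,
      abs_mul, abs_of_pos hm, abs_of_nonneg (show 0 ≤ q ^ (-(2 * (m + 1))) by positivity)]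
    calc m * |1 - ‖z‖ ^ 2 * ‖y‖ ^ 2| * q ^ (-(2 * (m + 1))) * |χ y|
        ≤ m * (q * 3) * q ^ (-(2 * (m + 1))) * |χ y| := by gcongr
      _ = 3 * m * (q ^ (-(2 * m + 1)) * |χ y|) := by rw [e2]; ring
      _ ≤ _ := by gcongr; exact hy.2

lemma derivD_der_int (m : ℝ) {x y : E} (hy : y ∉ Submodule.span ℝ ({x} : Set E)) :
    (∀ h : ℝ, HasDerivAt (fun h : ℝ => Real.exp (m * h) * K m (Real.exp h • x) y)
        (Real.exp (m * h) * D m (Real.exp h • x) y) h) ∧
        Continuous (fun h : ℝ => Real.exp (m * h) * D m (Real.exp h • x) y) := by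
  have e1 : ∀ h : ℝ, ‖Real.exp h • x - y‖ ^ 2 =
      Real.exp h ^ 2 * ‖x‖ ^ 2 - 2 * (Real.exp h * ⟪x, y⟫) + ‖y‖ ^ 2 := by
    intro h
    rw [norm_sub_sq_real, norm_smul, inner_smul_left, Real.norm_eq_abs, mul_pow, sq_abs]
    simp
  have e2 : ∀ h : ℝ, ‖Real.exp h • x‖ ^ 2 = Real.exp h ^ 2 * ‖x‖ ^ 2 := by
    intro h; rw [norm_smul, Real.norm_eq_abs, mul_pow, sq_abs]
  have := derivD_scalar m (‖x‖ ^ 2) (‖y‖ ^ 2) ⟪x, y⟫ (fun h => by
    rw [← e1]
    refine pow_pos (norm_pos_iff.mpr (sub_ne_zero.mpr fun h0 => hy ?_)) 2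
    rw [← h0]
    exact Submodule.smul_mem _ _ (Submodule.mem_span_singleton_self x))
  simpa only [K, D, e1, e2] using this

lemma derivD_der_ext (m : ℝ) {x y : E} (hx : x ≠ 0) (hy : y ∉ Submodule.span ℝ ({x} : Set E)) :
    (∀ h : ℝ, HasDerivAt (fun h : ℝ => Real.exp (m * h) * Ks m (Real.exp h • x) y)
        (Real.exp (m * h) * Ds m (Real.exp h • x) y) h) ∧
        Continuous (fun h : ℝ => Real.exp (m * h) * Ds m (Real.exp h • x) y) := by
  have e2 : ∀ h : ℝ, ‖Real.exp h • x‖ ^ 2 * ‖y‖ ^ 2 = Real.exp h ^ 2 * (‖x‖ ^ 2 * ‖y‖ ^ 2) := by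
    intro h; rw [norm_smul, Real.norm_eq_abs, mul_pow, sq_abs, mul_assoc]
  have e1 : ∀ h : ℝ, Qs (Real.exp h • x) y =
      Real.exp h ^ 2 * (‖x‖ ^ 2 * ‖y‖ ^ 2) - 2 * (Real.exp h * ⟪x, y⟫) + 1 := by
    intro h
    rw [Qs, e2, inner_smul_left]
    simp
  have := derivD_scalar m (‖x‖ ^ 2 * ‖y‖ ^ 2) 1 ⟪x, y⟫ (fun h => by
    have hz : Real.exp h • x ≠ 0 := smul_ne_zero (Real.exp_pos h).ne' hx
    rw [← e1, derivD_Qs_eq hz]
    refine pow_pos (mul_pos (norm_pos_iff.mpr hz)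
      (norm_pos_iff.mpr (sub_ne_zero.mpr fun h0 => hy ?_))) 2
    rw [← h0, kinv]
    exact Submodule.smul_mem _ _ (Submodule.smul_mem _ _ (Submodule.mem_span_singleton_self x)))
  simpa only [Ks, Ds, e1, e2] using this

lemma derivD_prod_int (φ ψ : E → ℝ) (d : E → E → ℝ) (hφm : Measurable φ)
    (hφ : IntegrableOn φ (ball (0 : E) 1)) (hd : Measurable (fun z : E × E => d z.1 z.2))
    (hψ : Measurable ψ) {C : ℝ}
    (hdC : ∀ z, ‖z‖ < 2 → Integrable (fun y => d z y * ψ y) (volume.restrict (ball (0 : E) 1)) ∧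
      ∫ y in ball (0 : E) 1, ‖d z y * ψ y‖ ≤ C) :
    Integrable (fun z : E × E => φ z.1 * (d z.1 z.2 * ψ z.2))
        ((volume.restrict (ball (0 : E) 1)).prod (volume.restrict (ball (0 : E) 1))) := by
  refine derivD_prod _ ((hφm.comp measurable_fst).mul (hd.mul (hψ.comp measurable_snd)))
    (fun x => ‖φ x‖ * C) (hφ.norm.mul_const C) ?_
  filter_upwards [ae_restrict_mem measurableSet_ball] with x hx
  rw [mem_ball_zero_iff] at hx
  have h1 := hdC x (by linarith)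
  refine ⟨h1.1.const_mul (φ x), ?_⟩
  simp only [norm_mul (φ x)]
  rw [integral_const_mul]
  exact mul_le_mul_of_nonneg_left h1.2 (norm_nonneg _)

theorem deriv_pot {m σ : ℝ} (hn : (Module.finrank ℝ E : ℝ) = 2 * m + 2) (hm : 0 < m)
    (hσ : -2 < σ) (φ ψ χ : E → ℝ) (hφm : Measurable φ) (hφ : IntegrableOn φ (ball (0 : E) 1))
    (hψ : Good σ ψ) (hχ : GoodS χ) :
    Integrable (fun z : E × E => φ z.1 * (D m z.1 z.2 * ψ z.2))
        ((volume.restrict (ball (0 : E) 1)).prod (volume.restrict (ball (0 : E) 1))) ∧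
      Integrable (fun z : E × E => φ z.1 * (Ds m z.1 z.2 * χ z.2))
        ((volume.restrict (ball (0 : E) 1)).prod (volume.restrict (ball (0 : E) 1))) ∧
      Tendsto (fun h : ℝ => (∫ x in ball (0 : E) 1,
          φ x * (Real.exp (m * h) * pot m ψ χ (Real.exp h • x) - pot m ψ χ x)) / h)
        (𝓝[≠] 0)
        (𝓝 ((∫ z : E × E, φ z.1 * (D m z.1 z.2 * ψ z.2)
            ∂((volume.restrict (ball (0 : E) 1)).prod (volume.restrict (ball (0 : E) 1)))) +
          ∫ z : E × E, φ z.1 * (Ds m z.1 z.2 * χ z.2)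
            ∂((volume.restrict (ball (0 : E) 1)).prod (volume.restrict (ball (0 : E) 1))))) := by
  have hd2 : 2 ≤ Module.finrank ℝ E := by
    have : (2 : ℝ) ≤ Module.finrank ℝ E := by linarith
    exact_mod_cast this
  obtain ⟨hK, C₁, hD⟩ := derivD_schur_int hn hm hσ ψ hψ
  obtain ⟨hKs, C₂, hDs⟩ := derivD_schur_ext hn hm χ hχ
  have i1 := derivD_prod_int φ ψ (D m) hφm hφ (derivD_meas_D m) hψ.1 hD
  have i2 := derivD_prod_int φ χ (Ds m) hφm hφ (derivD_meas_Ds m) hχ.1 hDs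
  refine ⟨i1, i2, ?_⟩
  set P₁ : E → ℝ := fun z => ∫ y in ball (0 : E) 1, D m z y * ψ y with hP₁
  set P₂ : E → ℝ := fun z => ∫ y in ball (0 : E) 1, Ds m z y * χ y with hP₂
  have mP₁ : Measurable P₁ :=
    (((derivD_meas_D m).mul (hψ.1.comp measurable_snd)).stronglyMeasurable.integral_prod_right'
      (ν := volume.restrict (ball (0 : E) 1))).measurable
  have mP₂ : Measurable P₂ :=
    (((derivD_meas_Ds m).mul (hχ.1.comp measurable_snd)).stronglyMeasurable.integral_prod_right'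
      (ν := volume.restrict (ball (0 : E) 1))).measurable
  set Ψ₁ : E → ℝ := (ball (0 : E) 2).indicator P₁ with hΨ₁
  set Ψ₂ : E → ℝ := (ball (0 : E) 2).indicator P₂ with hΨ₂
  have mΨ₁ : Measurable Ψ₁ := mP₁.indicator measurableSet_ball
  have mΨ₂ : Measurable Ψ₂ := mP₂.indicator measurableSet_ball
  have bΨ₁ : ∀ z, |Ψ₁ z| ≤ |C₁| := by
    intro z
    by_cases hz : z ∈ ball (0 : E) 2
    · rw [hΨ₁, indicator_of_mem hz, ← Real.norm_eq_abs]
      exact ((norm_integral_le_integral_norm _).trans (hD z (mem_ball_zero_iff.mp hz)).2).trans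
        (le_abs_self _)
    · rw [hΨ₁, indicator_of_notMem hz]; simp
  have bΨ₂ : ∀ z, |Ψ₂ z| ≤ |C₂| := by
    intro z
    by_cases hz : z ∈ ball (0 : E) 2
    · rw [hΨ₂, indicator_of_mem hz, ← Real.norm_eq_abs]
      exact ((norm_integral_le_integral_norm _).trans (hDs z (mem_ball_zero_iff.mp hz)).2).trans
        (le_abs_self _)
    · rw [hΨ₂, indicator_of_notMem hz]; simp
  set φ' : E → ℝ := (ball (0 : E) 1).indicator φ with hφ'
  have iφ' : Integrable φ' := (integrable_indicator_iff measurableSet_ball).mpr hφ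
  have mφ' : Measurable φ' := hφm.indicator measurableSet_ball
  have hres : ∀ G : E → ℝ, ∫ x, φ' x * G x = ∫ x in ball (0 : E) 1, φ x * G x := by
    intro G
    rw [← integral_indicator measurableSet_ball]
    congr 1
    ext x
    by_cases hx : x ∈ ball (0 : E) 1 <;> simp [hφ', hx]
  have L₁ := derivD_limit hm φ' Ψ₁ mφ' iφ' mΨ₁ bΨ₁
  have L₂ := derivD_limit hm φ' Ψ₂ mφ' iφ' mΨ₂ bΨ₂
  have hval : ∀ (d : E → E → ℝ) (ψ : E → ℝ), Integrable (fun z : E × E => φ z.1 * (d z.1 z.2 * ψ z.2))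
        ((volume.restrict (ball (0 : E) 1)).prod (volume.restrict (ball (0 : E) 1))) →
      ∫ x, φ' x * (ball (0 : E) 2).indicator (fun z => ∫ y in ball (0 : E) 1, d z y * ψ y) x =
        ∫ z : E × E, φ z.1 * (d z.1 z.2 * ψ z.2)
            ∂((volume.restrict (ball (0 : E) 1)).prod (volume.restrict (ball (0 : E) 1))) := by
    intro d ψ hi
    rw [hres, integral_prod _ hi]
    refine setIntegral_congr_fun measurableSet_ball fun x hx => ?_
    simp only
    rw [indicator_of_mem (ball_subset_ball (by norm_num) hx), integral_const_mul]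
  rw [hval (D m) ψ i1] at L₁
  rw [hval (Ds m) χ i2] at L₂
  refine (L₁.add L₂).congr' ?_
  have hev : ∀ᶠ h : ℝ in 𝓝[≠] 0, |h| ≤ 1 / 2 := by
    refine mem_nhdsWithin_of_mem_nhds ?_
    filter_upwards [Icc_mem_nhds (show -(1 / 2 : ℝ) < 0 by norm_num) (show (0 : ℝ) < 1 / 2 by norm_num)]
      with h hh using abs_le.mpr hh
  filter_upwards [hev] with h hh
  have hI : ∀ r ∈ uIcc (0 : ℝ) h, |r| ≤ 1 / 2 := by
    intro r hr
    have := abs_le.mp hh
    rcases mem_uIcc.mp hr with h1 | h1 <;> rw [abs_le] <;> constructor <;> linarith [h1.1, h1.2]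
  have hint : ∀ Ψ : E → ℝ, Measurable Ψ → ∀ C : ℝ, (∀ z, |Ψ z| ≤ C) →
      Integrable (fun x => φ' x * ∫ r in (0 : ℝ)..h, Real.exp (m * r) * Ψ (Real.exp r • x)) := by
    intro Ψ mΨ C bΨ
    have hms : Measurable (fun p : E × ℝ => Real.exp (m * p.2) * Ψ (Real.exp p.2 • p.1)) :=
      Measurable.mul (by fun_prop) (mΨ.comp (by fun_prop))
    refine iφ'.mul_bdd (c := Real.exp (m * (1 / 2)) * C * |h - 0|) ?_
      (Eventually.of_forall fun x => ?_)
    · simp only [intervalIntegral]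
      exact ((hms.stronglyMeasurable.integral_prod_right' (ν := volume.restrict (Ioc 0 h))).sub
        (hms.stronglyMeasurable.integral_prod_right'
          (ν := volume.restrict (Ioc h 0)))).aestronglyMeasurable
    · refine intervalIntegral.norm_integral_le_of_norm_le_const fun r hr => ?_
      rw [norm_mul, Real.norm_eq_abs, abs_of_pos (Real.exp_pos _)]
      refine mul_le_mul ?_ (bΨ _) (norm_nonneg _) (Real.exp_pos _).le
      exact Real.exp_le_exp.mpr
        (mul_le_mul_of_nonneg_left (le_of_abs_le (hI r (uIoc_subset_uIcc hr))) hm.le)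
  rw [← add_div, ← integral_add (hint Ψ₁ mΨ₁ _ bΨ₁) (hint Ψ₂ mΨ₂ _ bΨ₂)]
  congr 1
  simp only [← mul_add]
  rw [hres]
  refine integral_congr_ae ?_
  filter_upwards [derivD_ae_ne (le_trans (by norm_num) hd2) 0, ae_restrict_mem measurableSet_ball]
    with x hx0 hx
  rw [mem_ball_zero_iff] at hx
  have f1 := derivD_ftc hm _ (K m) (D m) ψ (derivD_meas_D m) hψ.1 hD hK hx
    ((derivD_ae_span hd2 x).mono fun y hy => derivD_der_int m hy) hh
  have f2 := derivD_ftc hm _ (Ks m) (Ds m) χ (derivD_meas_Ds m) hχ.1 hDs hKs hx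
    ((derivD_ae_span hd2 x).mono fun y hy => derivD_der_ext m hx0 hy) hh
  have g1 : ∫ r in (0 : ℝ)..h, Real.exp (m * r) * Ψ₁ (Real.exp r • x) =
      ∫ r in (0 : ℝ)..h, Real.exp (m * r) * P₁ (Real.exp r • x) := by
    refine intervalIntegral.integral_congr fun r hr => ?_
    rw [hΨ₁, indicator_of_mem (mem_ball_zero_iff.mpr (derivD_norm_lt hx (hI r hr)))]
  have g2 : ∫ r in (0 : ℝ)..h, Real.exp (m * r) * Ψ₂ (Real.exp r • x) =
      ∫ r in (0 : ℝ)..h, Real.exp (m * r) * P₂ (Real.exp r • x) := by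
    refine intervalIntegral.integral_congr fun r hr => ?_
    rw [hΨ₂, indicator_of_mem (mem_ball_zero_iff.mpr (derivD_norm_lt hx (hI r hr)))]
  rw [g1, g2, hP₁, hP₂]
  simp only
  rw [← f1, ← f2, pot, pot]
  ring

end Crest.Agent.R077
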