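import Crest.Agent.R077.Defs

/-! # Row 77: abstract lemmas for `DerivD` -/

set_option autoImplicit false
set_option linter.unusedSectionVars false

open MeasureTheory Metric Set Filter Topology
open scoped RealInnerProductSpace

namespace Crest.Agent.R077

variable {E : Type*} [NormedAddCommGroup E] [InnerProductSpace ℝ E]
  [FiniteDimensional ℝ E] [MeasurableSpace E] [BorelSpace E]

lemma derivD_cont_cc (φ Ψ : E → ℝ) (hφ : Continuous φ) (hc : HasCompactSupport φ)
    (hΨ : Measurable Ψ) {C : ℝ} (hC : ∀ x, |Ψ x| ≤ C) :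
    Continuous (fun r : ℝ => ∫ x, φ x * Ψ (Real.exp r • x)) := by
  have e : ∀ r : ℝ, ∫ x, φ x * Ψ (Real.exp r • x) =
      |((Real.exp r) ^ Module.finrank ℝ E)⁻¹| * ∫ y, φ (Real.exp (-r) • y) * Ψ y := by
    intro r
    have := Measure.integral_comp_smul (volume : Measure E)
      (fun y => φ (Real.exp (-r) • y) * Ψ y) (Real.exp r)
    rw [smul_eq_mul] at this
    rw [← this]
    refine integral_congr_ae (Eventually.of_forall fun x => ?_)
    simp only [smul_smul, ← Real.exp_add, neg_add_cancel, Real.exp_zero, one_smul]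
  simp_rw [e]
  refine Continuous.mul ?_ ?_
  · exact (((Real.continuous_exp.pow _).inv₀ (fun r => pow_ne_zero _ (Real.exp_pos r).ne'))).abs
  obtain ⟨M, hM⟩ := hφ.bounded_above_of_compact_support hc
  obtain ⟨R, hR⟩ := hc.isCompact.isBounded.subset_closedBall 0
  have hC0 : 0 ≤ C := (abs_nonneg _).trans (hC 0)
  refine continuous_iff_continuousAt.mpr fun r₀ => ?_
  refine continuousAt_of_dominated
    (bound := (closedBall (0 : E) (Real.exp (r₀ + 1) * |R|)).indicator (fun _ => M * C)) ?_ ?_ ?_ ?_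
  · refine Eventually.of_forall fun r => ?_
    exact ((hφ.comp (continuous_const_smul _)).measurable.mul hΨ).aestronglyMeasurable
  · filter_upwards [Iio_mem_nhds (show r₀ < r₀ + 1 by linarith)] with r hr
    refine Eventually.of_forall fun y => ?_
    by_cases hy : y ∈ closedBall (0 : E) (Real.exp (r₀ + 1) * |R|)
    · rw [indicator_of_mem hy, norm_mul]
      exact mul_le_mul (hM _) (hC y) (norm_nonneg _) ((norm_nonneg _).trans (hM 0))
    · rw [indicator_of_notMem hy]
      have : φ (Real.exp (-r) • y) = 0 := by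
        by_contra hne
        have h1 := hR (subset_tsupport φ hne)
        apply hy
        rw [mem_closedBall_zero_iff] at h1 ⊢
        rw [norm_smul, Real.norm_eq_abs, abs_of_pos (Real.exp_pos _)] at h1
        have h2 : ‖y‖ = Real.exp r * (Real.exp (-r) * ‖y‖) := by
          rw [← mul_assoc, ← Real.exp_add]; simp
        rw [h2]
        have h3 : Real.exp r ≤ Real.exp (r₀ + 1) := Real.exp_le_exp.mpr (le_of_lt hr)
        exact mul_le_mul h3 (h1.trans (le_abs_self R)) (by positivity) (by positivity)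
      simp [this]
  · exact (integrable_indicator_iff measurableSet_closedBall).mpr
      (integrableOn_const (measure_closedBall_lt_top).ne)
  · refine Eventually.of_forall fun y => ?_
    refine Continuous.continuousAt ?_
    fun_prop

lemma derivD_int_mul (φ Ψ : E → ℝ) (hφ : Integrable φ) (hΨ : Measurable Ψ)
    {C : ℝ} (hC : ∀ x, |Ψ x| ≤ C) (r : ℝ) : Integrable (fun x => φ x * Ψ (Real.exp r • x)) :=
  hφ.mul_bdd (c := C) (hΨ.comp (measurable_const_smul _)).aestronglyMeasurable
    (Eventually.of_forall fun _ => hC _)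

theorem derivD_cont (φ Ψ : E → ℝ) (hφ : Integrable φ) (hΨ : Measurable Ψ)
    {C : ℝ} (hC : ∀ x, |Ψ x| ≤ C) :
    Continuous (fun r : ℝ => ∫ x, φ x * Ψ (Real.exp r • x)) := by
  refine continuous_of_uniform_approx_of_continuous fun u hu => ?_
  obtain ⟨ε, hε, hu⟩ := Metric.mem_uniformity_dist.mp hu
  have hC0 : 0 ≤ C := (abs_nonneg _).trans (hC 0)
  obtain ⟨g, hgc, hg, hgcont, hgi⟩ := hφ.exists_hasCompactSupport_integral_sub_le
    (show 0 < ε / (C + 1) by positivity)
  refine ⟨_, derivD_cont_cc g Ψ hgcont hgc hΨ hC, fun r => hu ?_⟩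
  rw [Real.dist_eq, ← integral_sub (derivD_int_mul φ Ψ hφ hΨ hC r) (derivD_int_mul g Ψ hgi hΨ hC r)]
  have h1 : |∫ x, (φ x * Ψ (Real.exp r • x) - g x * Ψ (Real.exp r • x))| ≤
      ∫ x, ‖φ x - g x‖ * C := by
    rw [← Real.norm_eq_abs]
    refine norm_integral_le_of_norm_le ((hφ.sub hgi).norm.mul_const C)
      (Eventually.of_forall fun x => ?_)
    rw [← sub_mul, norm_mul]
    exact mul_le_mul_of_nonneg_left (hC _) (norm_nonneg _)
  rw [integral_mul_const] at h1
  refine h1.trans_lt ?_
  calc (∫ x, ‖φ x - g x‖) * C ≤ ε / (C + 1) * C := by gcongr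
    _ < ε := by
      rw [div_mul_eq_mul_div, div_lt_iff₀ (by positivity)]; nlinarith

/-- Integrability on a product from a bound on the inner integrals. -/
lemma derivD_prod {α β : Type*} [MeasurableSpace α] [MeasurableSpace β] {μ : Measure α}
    {ν : Measure β} [SFinite μ] [SFinite ν] (F : α × β → ℝ) (hF : Measurable F) (g : α → ℝ)
    (hg : Integrable g μ)
    (h : ∀ᵐ a ∂μ, Integrable (fun b => F (a, b)) ν ∧ ∫ b, ‖F (a, b)‖ ∂ν ≤ g a) :
    Integrable F (μ.prod ν) := by
  rw [integrable_prod_iff hF.aestronglyMeasurable]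
  refine ⟨h.mono fun a ha => ha.1, hg.mono' ?_ (h.mono fun a ha => ?_)⟩
  · exact hF.aestronglyMeasurable.norm.integral_prod_right'
  · rw [Real.norm_eq_abs, abs_of_nonneg (integral_nonneg fun _ => norm_nonneg _)]
    exact ha.2

lemma derivD_norm_lt {x : E} (hx : ‖x‖ < 1) {r : ℝ} (hr : |r| ≤ 1 / 2) :
    ‖Real.exp r • x‖ < 2 := by
  rw [norm_smul, Real.norm_eq_abs, abs_of_pos (Real.exp_pos _)]
  have h1 : Real.exp r ≤ 2 := by
    have h2 : Real.exp r ≤ Real.exp (1 / 2) := Real.exp_le_exp.mpr (le_of_abs_le hr)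
    have h3 : Real.exp (1 / 2) * Real.exp (1 / 2) = Real.exp 1 := by
      rw [← Real.exp_add]; norm_num
    have h4 := Real.exp_one_lt_d9
    have h5 := Real.exp_pos (1 / 2)
    nlinarith
  have := Real.exp_pos r
  nlinarith [norm_nonneg x]

/-- The fundamental theorem of calculus under the `y`-integral. -/
lemma derivD_ftc {m : ℝ} (hm : 0 < m) (ν : Measure E) [SFinite ν] (k d : E → E → ℝ) (ψ : E → ℝ)
    (hd : Measurable (fun z : E × E => d z.1 z.2)) (hψ : Measurable ψ) {C : ℝ}
    (hdC : ∀ z, ‖z‖ < 2 → Integrable (fun y => d z y * ψ y) ν ∧ ∫ y, ‖d z y * ψ y‖ ∂ν ≤ C)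
    (hk : ∀ z, ‖z‖ < 2 → Integrable (fun y => k z y * ψ y) ν)
    {x : E} (hx : ‖x‖ < 1)
    (hder : ∀ᵐ y ∂ν, (∀ h : ℝ, HasDerivAt (fun h : ℝ => Real.exp (m * h) * k (Real.exp h • x) y)
        (Real.exp (m * h) * d (Real.exp h • x) y) h) ∧
        Continuous (fun h : ℝ => Real.exp (m * h) * d (Real.exp h • x) y))
    {h : ℝ} (hh : |h| ≤ 1 / 2) :
    Real.exp (m * h) * (∫ y, k (Real.exp h • x) y * ψ y ∂ν) - ∫ y, k x y * ψ y ∂ν =
      ∫ r in (0 : ℝ)..h, Real.exp (m * r) * ∫ y, d (Real.exp r • x) y * ψ y ∂ν := by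
  have hI : ∀ r ∈ uIoc (0 : ℝ) h, |r| ≤ 1 / 2 := by
    intro r hr
    have := abs_le.mp hh
    rcases mem_uIoc.mp hr with h1 | h1 <;> rw [abs_le] <;> constructor <;> linarith [h1.1, h1.2]
  have hint : Integrable (Function.uncurry fun (r : ℝ) (y : E) =>
      Real.exp (m * r) * (d (Real.exp r • x) y * ψ y)) ((volume.restrict (uIoc 0 h)).prod ν) := by
    refine derivD_prod _ ?_ (fun _ => Real.exp (m * (1 / 2)) * C) ?_ ?_
    · have h1 : Measurable (fun p : ℝ × E => d (Real.exp p.1 • x) p.2) :=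
        hd.comp (f := fun p : ℝ × E => (Real.exp p.1 • x, p.2)) (by fun_prop)
      exact Measurable.mul (by fun_prop) (h1.mul (hψ.comp measurable_snd))
    · exact integrableOn_const (by simp [Real.volume_uIoc])
    · rw [ae_restrict_iff' measurableSet_uIoc]
      refine Eventually.of_forall fun r hr => ?_
      have h1 := hdC _ (derivD_norm_lt hx (hI r hr))
      refine ⟨h1.1.const_mul (Real.exp (m * r)), ?_⟩
      simp only [Function.uncurry_apply_pair, norm_mul (Real.exp (m * r))]
      rw [integral_const_mul, Real.norm_eq_abs, abs_of_pos (Real.exp_pos _)]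
      refine mul_le_mul ?_ h1.2 (integral_nonneg fun _ => norm_nonneg _) (Real.exp_pos _).le
      exact Real.exp_le_exp.mpr (mul_le_mul_of_nonneg_left (le_of_abs_le (hI r hr)) hm.le)
  have hsw := intervalIntegral_integral_swap hint
  simp only [integral_const_mul] at hsw
  rw [hsw, ← integral_const_mul, ← integral_sub ((hk _ (derivD_norm_lt hx hh)).const_mul _)
    (hk x (by linarith))]
  refine integral_congr_ae (hder.mono fun y hy => ?_)
  have h1 := intervalIntegral.integral_eq_sub_of_hasDerivAt (a := 0) (b := h)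
    (fun r _ => hy.1 r) (hy.2.intervalIntegrable _ _)
  simp only [mul_zero, Real.exp_zero, one_smul, one_mul] at h1
  simp only [← mul_assoc]
  rw [intervalIntegral.integral_mul_const, h1]
  ring

/-- The final limit. -/
lemma derivD_limit {m : ℝ} (hm : 0 < m) (φ Ψ : E → ℝ) (hφm : Measurable φ) (hφ : Integrable φ)
    (hΨ : Measurable Ψ) {C : ℝ} (hC : ∀ x, |Ψ x| ≤ C) :
    Tendsto (fun h : ℝ => (∫ x, φ x * ∫ r in (0 : ℝ)..h, Real.exp (m * r) * Ψ (Real.exp r • x)) / h)
      (𝓝[≠] 0) (𝓝 (∫ x, φ x * Ψ x)) := by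
  set j : ℝ → ℝ := fun r => Real.exp (m * r) * ∫ x, φ x * Ψ (Real.exp r • x) with hj
  have hjc : Continuous j := Continuous.mul (by fun_prop) (derivD_cont φ Ψ hφ hΨ hC)
  have hder := intervalIntegral.integral_hasDerivAt_right (hjc.intervalIntegrable 0 0)
    (hjc.stronglyMeasurableAtFilter _ _) hjc.continuousAt
  have hs := hasDerivAt_iff_tendsto_slope.mp hder
  have hj0 : j 0 = ∫ x, φ x * Ψ x := by simp [hj]
  rw [hj0] at hs
  refine hs.congr fun h => ?_
  rw [slope_def_field, intervalIntegral.integral_same, sub_zero, sub_zero]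
  congr 1
  have hint : Integrable (Function.uncurry fun (r : ℝ) (x : E) =>
      Real.exp (m * r) * (φ x * Ψ (Real.exp r • x))) ((volume.restrict (uIoc 0 h)).prod volume) := by
    refine derivD_prod _ ?_ (fun _ => Real.exp (m * |h|) * ∫ x, ‖φ x‖ * C) ?_ ?_
    · have h1 : Measurable (fun p : ℝ × E => Ψ (Real.exp p.1 • p.2)) := hΨ.comp (by fun_prop)
      exact Measurable.mul (by fun_prop) ((hφm.comp measurable_snd).mul h1)
    · exact integrableOn_const (by simp [Real.volume_uIoc])
    · rw [ae_restrict_iff' measurableSet_uIoc]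
      refine Eventually.of_forall fun r hr => ?_
      have h1 := derivD_int_mul φ Ψ hφ hΨ hC r
      refine ⟨h1.const_mul (Real.exp (m * r)), ?_⟩
      simp only [Function.uncurry_apply_pair, norm_mul (Real.exp (m * r))]
      rw [integral_const_mul, Real.norm_eq_abs, abs_of_pos (Real.exp_pos _)]
      refine mul_le_mul ?_ ?_ (integral_nonneg fun _ => norm_nonneg _) (Real.exp_pos _).le
      · refine Real.exp_le_exp.mpr (mul_le_mul_of_nonneg_left ?_ hm.le)
        rcases mem_uIoc.mp hr with h2 | h2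
        · exact h2.2.trans (le_abs_self h)
        · exact h2.2.trans (abs_nonneg h)
      · refine integral_mono h1.norm (hφ.norm.mul_const C) fun x => ?_
        simp only [norm_mul]
        exact mul_le_mul_of_nonneg_left (hC _) (norm_nonneg _)
  have hsw := intervalIntegral_integral_swap hint
  simp only [integral_const_mul] at hsw
  rw [hsw]
  refine integral_congr_ae (Eventually.of_forall fun x => ?_)
  simp only
  rw [← intervalIntegral.integral_const_mul]
  congr 1
  ext r
  ring

/-- The scalar derivative. -/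
lemma derivD_scalar (m A B c : ℝ)
    (hN : ∀ h : ℝ, 0 < Real.exp h ^ 2 * A - 2 * (Real.exp h * c) + B) :
    (∀ h : ℝ, HasDerivAt
      (fun h : ℝ => Real.exp (m * h) * (Real.exp h ^ 2 * A - 2 * (Real.exp h * c) + B) ^ (-m))
      (Real.exp (m * h) * (m * (B - Real.exp h ^ 2 * A) *
        (Real.exp h ^ 2 * A - 2 * (Real.exp h * c) + B) ^ (-(m + 1)))) h) ∧
    Continuous (fun h : ℝ => Real.exp (m * h) * (m * (B - Real.exp h ^ 2 * A) *
        (Real.exp h ^ 2 * A - 2 * (Real.exp h * c) + B) ^ (-(m + 1)))) := by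
  constructor
  · intro h
    have h1 : HasDerivAt (fun h : ℝ => Real.exp (m * h)) (Real.exp (m * h) * m) h := by
      simpa using ((hasDerivAt_id h).const_mul m).exp
    have he := Real.hasDerivAt_exp h
    have h2 : HasDerivAt (fun h : ℝ => Real.exp h ^ 2 * A - 2 * (Real.exp h * c) + B)
        (2 * Real.exp h * Real.exp h * A - 2 * (Real.exp h * c)) h := by
      have := (((he.fun_pow 2).mul_const A).fun_sub ((he.mul_const c).const_mul 2)).add_const B
      simpa using this
    have h3 := h2.rpow_const (p := -m) (Or.inl (hN h).ne')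
    refine (h1.fun_mul h3).congr_deriv ?_
    set N := Real.exp h ^ 2 * A - 2 * (Real.exp h * c) + B with hNdef
    have e1 : N ^ (-m) = N ^ (-(m + 1)) * N := by
      rw [← Real.rpow_add_one (hN h).ne']; congr 1; ring
    have e2 : -m - 1 = -(m + 1) := by ring
    rw [e1, e2, hNdef]
    ring
  · refine Continuous.mul (by fun_prop) (Continuous.mul (by fun_prop) ?_)
    exact Continuous.rpow_const (by fun_prop) (fun h => Or.inl (hN h).ne')

/-- Uniform Schur bound for a pure power. -/
lemma derivD_schur {s : ℝ} (hs : s < Module.finrank ℝ E) (hd : 1 ≤ Module.finrank ℝ E) :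
    ∃ C : ℝ, ∀ w : E, ‖w‖ ≤ 2 → IntegrableOn (fun y => ‖w - y‖ ^ (-s)) (ball (0 : E) 1) ∧
      ∫ y in ball (0 : E) 1, ‖w - y‖ ^ (-s) ≤ C := by
  have h1 : IntegrableOn (fun y : E => ‖y‖ ^ (-s)) (ball (0 : E) 3) := by
    refine integrableOn_ball_of_norm_le_rpow hd (C := 1) hs (Eventually.of_forall fun y => ?_) ?_
    · rw [one_mul, Real.norm_eq_abs, abs_of_nonneg (by positivity)]
    · exact (measurable_norm.pow_const _).aestronglyMeasurable
  set f : E → ℝ := (ball (0 : E) 3).indicator (fun y => ‖y‖ ^ (-s)) with hf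
  have h2 : Integrable f := (integrable_indicator_iff measurableSet_ball).mpr h1
  refine ⟨∫ y, f y, fun w hw => ?_⟩
  have h3 : Integrable (fun y => f (w - y)) := h2.comp_sub_left w
  have h4 : ∀ y ∈ ball (0 : E) 1, ‖w - y‖ ^ (-s) = f (w - y) := by
    intro y hy
    rw [hf, indicator_of_mem]
    rw [mem_ball_zero_iff] at hy ⊢
    have := norm_sub_le w y
    linarith
  refine ⟨h3.integrableOn.congr_fun (fun y hy => (h4 y hy).symm) measurableSet_ball, ?_⟩
  rw [setIntegral_congr_fun measurableSet_ball h4, ← integral_sub_left_eq_self f volume w]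
  refine setIntegral_le_integral h3 (Eventually.of_forall fun y => ?_)
  exact indicator_nonneg (fun y _ => by positivity) _

lemma derivD_mixed {d s a b : ℝ} (hd : 0 < d) (hs : 0 < s) (ha : 0 ≤ a) (hb : 0 ≤ b) :
    d ^ (-a) * s ^ (-b) ≤ d ^ (-(a + b)) + s ^ (-(a + b)) := by
  rcases le_total d s with h | h
  · have h1 : s ^ (-b) ≤ d ^ (-b) := Real.rpow_le_rpow_of_nonpos hd h (by linarith)
    have h2 : d ^ (-a) * s ^ (-b) ≤ d ^ (-(a + b)) := by
      rw [neg_add, Real.rpow_add hd]; gcongr
    have : 0 ≤ s ^ (-(a + b)) := by positivity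
    linarith
  · have h1 : d ^ (-a) ≤ s ^ (-a) := Real.rpow_le_rpow_of_nonpos hs h (by linarith)
    have h2 : d ^ (-a) * s ^ (-b) ≤ s ^ (-(a + b)) := by
      rw [neg_add, Real.rpow_add hs]; gcongr
    have : 0 ≤ d ^ (-(a + b)) := by positivity
    linarith

end Crest.Agent.R077
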