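import Crest.Agent.R077.Green

/-! # Row 77: the planar case -/

set_option autoImplicit false

open MeasureTheory Metric Set Filter Topology
open scoped RealInnerProductSpace
open Laplacian InnerProductSpace

namespace Crest.Agent.R077

/-- Primitive of the smooth transition function. -/
noncomputable def dimTwo_S (t : ℝ) : ℝ := ∫ τ in (0 : ℝ)..t, Real.smoothTransition τ

theorem dimTwo_S_hasDerivAt (t : ℝ) : HasDerivAt dimTwo_S (Real.smoothTransition t) t :=
  (Real.smoothTransition.continuous.deriv_integral _ 0 t) ▸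
    (intervalIntegral.integral_hasDerivAt_right
      (Real.smoothTransition.continuous.intervalIntegrable _ _)
      (Real.smoothTransition.continuous.stronglyMeasurableAtFilter _ _)
      Real.smoothTransition.continuousAt).differentiableAt.hasDerivAt

theorem dimTwo_S_contDiff : ContDiff ℝ 2 dimTwo_S := by
  have : deriv dimTwo_S = Real.smoothTransition := funext fun t => (dimTwo_S_hasDerivAt t).deriv
  rw [show (2 : WithTop ℕ∞) = 1 + 1 from rfl, contDiff_succ_iff_deriv, this]
  exact ⟨fun t => (dimTwo_S_hasDerivAt t).differentiableAt, by simp,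
    Real.smoothTransition.contDiff⟩

theorem dimTwo_S_of_nonpos {t : ℝ} (ht : t ≤ 0) : dimTwo_S t = 0 := by
  unfold dimTwo_S
  rw [intervalIntegral.integral_congr (g := fun _ => (0 : ℝ))]
  · simp
  · intro τ hτ
    rw [uIcc_of_ge ht] at hτ
    exact Real.smoothTransition.zero_of_nonpos hτ.2

theorem dimTwo_S_sub (a b : ℝ) : dimTwo_S b - dimTwo_S a = ∫ τ in a..b, Real.smoothTransition τ :=
  intervalIntegral.integral_interval_sub_left
    (Real.smoothTransition.continuous.intervalIntegrable _ _)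
    (Real.smoothTransition.continuous.intervalIntegrable _ _)

theorem dimTwo_S_of_one_le {t : ℝ} (ht : 1 ≤ t) : dimTwo_S t = dimTwo_S 1 + (t - 1) := by
  have h := dimTwo_S_sub 1 t
  rw [intervalIntegral.integral_congr (g := fun _ => (1 : ℝ))] at h
  · simp only [intervalIntegral.integral_const, smul_eq_mul, mul_one] at h
    linarith
  · intro τ hτ
    rw [uIcc_of_le ht] at hτ
    exact Real.smoothTransition.one_of_one_le hτ.1

theorem dimTwo_S_one_nonneg : 0 ≤ dimTwo_S 1 :=
  intervalIntegral.integral_nonneg zero_le_one fun τ _ => Real.smoothTransition.nonneg τ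

/-- Second difference of the primitive. -/
noncomputable def dimTwo_psi (L t : ℝ) : ℝ := dimTwo_S (t + L) - 2 * dimTwo_S t + dimTwo_S (t - L)

theorem dimTwo_psi_nonneg {L : ℝ} (hL : 0 ≤ L) (t : ℝ) : 0 ≤ dimTwo_psi L t := by
  have h1 := dimTwo_S_sub t (t + L)
  have h2 := dimTwo_S_sub (t - L) t
  have h3 : ∫ τ in (t - L)..t, Real.smoothTransition (τ + L) =
      ∫ τ in t..(t + L), Real.smoothTransition τ := by
    rw [intervalIntegral.integral_comp_add_right]; simp
  have h4 : ∫ τ in (t - L)..t, Real.smoothTransition τ ≤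
      ∫ τ in (t - L)..t, Real.smoothTransition (τ + L) :=
    intervalIntegral.integral_mono_on (by linarith)
      (Real.smoothTransition.continuous.intervalIntegrable _ _)
      ((Real.smoothTransition.continuous.comp (continuous_add_const L)).intervalIntegrable _ _)
      fun τ _ => Real.smoothTransition.monotone (by linarith)
  unfold dimTwo_psi
  linarith

theorem dimTwo_psi_left {L t : ℝ} (hL : 0 ≤ L) (ht : t ≤ -L) : dimTwo_psi L t = 0 := by
  unfold dimTwo_psi
  rw [dimTwo_S_of_nonpos (by linarith), dimTwo_S_of_nonpos (by linarith),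
    dimTwo_S_of_nonpos (by linarith)]
  ring

theorem dimTwo_psi_right {L t : ℝ} (hL : 0 ≤ L) (ht : L + 1 ≤ t) : dimTwo_psi L t = 0 := by
  unfold dimTwo_psi
  rw [dimTwo_S_of_one_le (t := t + L) (by linarith), dimTwo_S_of_one_le (t := t) (by linarith),
    dimTwo_S_of_one_le (t := t - L) (by linarith)]
  ring

theorem dimTwo_psi_mid {L t : ℝ} (hL : 2 ≤ L) (ht : -1 ≤ t) (ht' : t ≤ 0) :
    L - 2 ≤ dimTwo_psi L t := by
  unfold dimTwo_psi
  rw [dimTwo_S_of_one_le (t := t + L) (by linarith), dimTwo_S_of_nonpos ht',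
    dimTwo_S_of_nonpos (t := t - L) (by linarith)]
  linarith [dimTwo_S_one_nonneg]

theorem dimTwo_psi_contDiff (L : ℝ) : ContDiff ℝ 2 (dimTwo_psi L) := by
  unfold dimTwo_psi
  have := dimTwo_S_contDiff
  fun_prop

theorem dimTwo_psi_hasDerivAt (L t : ℝ) : HasDerivAt (dimTwo_psi L)
    (Real.smoothTransition (t + L) - 2 * Real.smoothTransition t + Real.smoothTransition (t - L))
    t := by
  unfold dimTwo_psi
  exact (((dimTwo_S_hasDerivAt (t + L)).comp_add_const t L).sub
    ((dimTwo_S_hasDerivAt t).const_mul 2)).add ((dimTwo_S_hasDerivAt (t - L)).comp_sub_const t L)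

theorem dimTwo_sT_hasDerivAt (t : ℝ) :
    HasDerivAt Real.smoothTransition (deriv Real.smoothTransition t) t :=
  ((Real.smoothTransition.contDiff (n := 1)).differentiable (by norm_num) t).hasDerivAt

theorem dimTwo_dsT_nonneg (t : ℝ) : 0 ≤ deriv Real.smoothTransition t :=
  Real.smoothTransition.monotone.deriv_nonneg

theorem dimTwo_dsT_zero {t : ℝ} (ht : t < 0 ∨ 1 < t) : deriv Real.smoothTransition t = 0 := by
  rcases ht with ht | ht
  · have : Real.smoothTransition =ᶠ[𝓝 t] fun _ => 0 := by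
      filter_upwards [Iio_mem_nhds ht] with s hs using Real.smoothTransition.zero_of_nonpos hs.le
    rw [this.deriv_eq]; simp
  · have : Real.smoothTransition =ᶠ[𝓝 t] fun _ => 1 := by
      filter_upwards [Ioi_mem_nhds ht] with s hs using Real.smoothTransition.one_of_one_le hs.le
    rw [this.deriv_eq]; simp

/-- The radial profile of the test function. -/
noncomputable def dimTwo_g (L s : ℝ) : ℝ := if 0 < s then dimTwo_psi L (Real.log s) else 0

theorem dimTwo_g_ev {L s : ℝ} (hs : 0 < s) :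
    dimTwo_g L =ᶠ[𝓝 s] fun s => dimTwo_psi L (Real.log s) := by
  filter_upwards [Ioi_mem_nhds hs] with r hr
  exact if_pos hr

theorem dimTwo_g_small {L s : ℝ} (hL : 0 ≤ L) (hs : s ≤ Real.exp (-L)) : dimTwo_g L s = 0 := by
  unfold dimTwo_g
  split_ifs with h
  · exact dimTwo_psi_left hL ((Real.log_le_iff_le_exp h).2 hs)
  · rfl

theorem dimTwo_g_large {L s : ℝ} (hL : 0 ≤ L) (hs : Real.exp (L + 1) ≤ s) : dimTwo_g L s = 0 := by
  unfold dimTwo_g
  split_ifs with h
  · exact dimTwo_psi_right hL ((Real.le_log_iff_exp_le h).2 hs)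
  · rfl

theorem dimTwo_g_contDiff {L : ℝ} (hL : 0 ≤ L) : ContDiff ℝ 2 (dimTwo_g L) := by
  refine contDiff_iff_contDiffAt.2 fun s => ?_
  rcases lt_or_ge 0 s with hs | hs
  · refine ContDiffAt.congr_of_eventuallyEq ?_ (dimTwo_g_ev hs)
    exact (dimTwo_psi_contDiff L).contDiffAt.comp s (Real.contDiffAt_log.2 hs.ne')
  · refine ContDiffAt.congr_of_eventuallyEq (contDiffAt_const (c := (0 : ℝ))) ?_
    filter_upwards [Iio_mem_nhds (hs.trans_lt (Real.exp_pos (-L)))] with r hr
    exact dimTwo_g_small hL (le_of_lt hr)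

theorem dimTwo_g_lap {L s : ℝ} (hs : 0 < s) :
    -(8 * deriv Real.smoothTransition (Real.log s) / s) ≤
      4 * s * deriv (deriv (dimTwo_g L)) s + 2 * 2 * deriv (dimTwo_g L) s := by
  let p : ℝ → ℝ := fun t =>
    Real.smoothTransition (t + L) - 2 * Real.smoothTransition t + Real.smoothTransition (t - L)
  have h1 : ∀ r : ℝ, 0 < r → deriv (dimTwo_g L) r = p (Real.log r) * r⁻¹ := fun r hr => by
    rw [(dimTwo_g_ev hr).deriv_eq]
    exact ((dimTwo_psi_hasDerivAt L (Real.log r)).comp r (Real.hasDerivAt_log hr.ne')).deriv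
  have h2 : deriv (dimTwo_g L) =ᶠ[𝓝 s] fun r => p (Real.log r) * r⁻¹ := by
    filter_upwards [Ioi_mem_nhds hs] with r hr using h1 r hr
  set t := Real.log s with ht
  have hp : HasDerivAt p (deriv Real.smoothTransition (t + L) - 2 * deriv Real.smoothTransition t
      + deriv Real.smoothTransition (t - L)) t :=
    (((dimTwo_sT_hasDerivAt (t + L)).comp_add_const t L).sub
      ((dimTwo_sT_hasDerivAt t).const_mul 2)).add
      ((dimTwo_sT_hasDerivAt (t - L)).comp_sub_const t L)
  have h3 := ((hp.comp s (Real.hasDerivAt_log hs.ne')).mul (hasDerivAt_inv hs.ne')).deriv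
  have h4 : deriv (deriv (dimTwo_g L)) s = (deriv Real.smoothTransition (t + L) -
      2 * deriv Real.smoothTransition t + deriv Real.smoothTransition (t - L)) * s⁻¹ * s⁻¹ +
      p t * -(s ^ 2)⁻¹ := by
    rw [h2.deriv_eq]; exact h3
  rw [h4, h1 s hs, ← ht]
  have a1 := dimTwo_dsT_nonneg (t + L)
  have a2 := dimTwo_dsT_nonneg (t - L)
  have e : 4 * s * ((deriv Real.smoothTransition (t + L) -
      2 * deriv Real.smoothTransition t + deriv Real.smoothTransition (t - L)) * s⁻¹ * s⁻¹ +
      p t * -(s ^ 2)⁻¹) + 2 * 2 * (p t * s⁻¹) = -(8 * deriv Real.smoothTransition t / s) +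
      4 * (deriv Real.smoothTransition (t + L) + deriv Real.smoothTransition (t - L)) / s := by
    field_simp; ring
  rw [e]
  exact le_add_of_nonneg_right (by positivity)

variable {E : Type*} [NormedAddCommGroup E] [InnerProductSpace ℝ E]
  [FiniteDimensional ℝ E] [MeasurableSpace E] [BorelSpace E]

omit [MeasurableSpace E] [BorelSpace E] in
theorem dimTwo_annulus_compact (a b : ℝ) : IsCompact {y : E | a ≤ ‖y‖ ^ 2 ∧ ‖y‖ ^ 2 ≤ b} := by
  have hc : Continuous fun y : E => ‖y‖ ^ 2 := by fun_prop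
  refine (isCompact_closedBall (0 : E) (|b| + 1)).of_isClosed_subset
    ((isClosed_le continuous_const hc).inter (isClosed_le hc continuous_const)) ?_
  intro y hy
  rw [mem_closedBall_zero_iff]
  have h1 := hy.2.trans (le_abs_self b)
  nlinarith [norm_nonneg y, abs_nonneg b, sq_nonneg (‖y‖ - 1)]

/-- No nonnegative strictly superharmonic function on the punctured plane. -/
theorem dim_two (hn : Module.finrank ℝ E = 2) (u f : E → ℝ) (hu : Continuous u)
    (hu0 : ∀ x, 0 ≤ u x) (hu2 : ContDiffOn ℝ 2 u {0}ᶜ) (hL : ∀ x, x ≠ 0 → -(Δ u) x = f x)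
    (hf0 : ∀ x, x ≠ 0 → 0 < f x) (hfc : ContinuousOn f {0}ᶜ) : False := by
  have : Nontrivial E := Module.nontrivial_of_finrank_pos (R := ℝ) (by omega)
  have hae : ∀ᵐ y : E, y ≠ 0 := by simp [ae_iff]
  have hann : ∀ a b : ℝ, 0 < a → {y : E | a ≤ ‖y‖ ^ 2 ∧ ‖y‖ ^ 2 ≤ b} ⊆ {0}ᶜ := by
    intro a b ha y hy hy0
    rw [mem_singleton_iff.1 hy0] at hy
    have := hy.1
    simp only [norm_zero] at this
    linarith
  -- the fixed upper bound
  let w : E → ℝ := fun y =>
    u y * (8 * deriv Real.smoothTransition (Real.log (‖y‖ ^ 2)) / ‖y‖ ^ 2)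
  have Iw : Integrable w := by
    refine (integrableOn_iff_integrable_of_support_subset
      (s := {y : E | 1 ≤ ‖y‖ ^ 2 ∧ ‖y‖ ^ 2 ≤ Real.exp 1}) ?_).1
      (ContinuousOn.integrableOn_compact (dimTwo_annulus_compact _ _) ?_)
    · intro y hy
      have h1 := right_ne_zero_of_mul hy
      have h2 : ‖y‖ ^ 2 ≠ 0 := fun h => h1 (by rw [h, div_zero])
      have h3 : 0 < ‖y‖ ^ 2 := lt_of_le_of_ne (sq_nonneg _) h2.symm
      have h4 : ¬ (Real.log (‖y‖ ^ 2) < 0 ∨ 1 < Real.log (‖y‖ ^ 2)) := fun h =>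
        h1 (by rw [dimTwo_dsT_zero h]; simp)
      push Not at h4
      exact ⟨(Real.log_nonneg_iff h3).1 h4.1, (Real.log_le_iff_le_exp h3).1 h4.2⟩
    · have hd : Continuous (deriv Real.smoothTransition) :=
        (Real.smoothTransition.contDiff (n := 1)).continuous_deriv le_rfl
      have hne : ∀ y ∈ {y : E | 1 ≤ ‖y‖ ^ 2 ∧ ‖y‖ ^ 2 ≤ Real.exp 1}, ‖y‖ ^ 2 ≠ 0 :=
        fun y hy => (zero_lt_one.trans_le hy.1).ne'
      refine hu.continuousOn.mul (ContinuousOn.div (continuousOn_const.mul
        (hd.comp_continuousOn (ContinuousOn.log (by fun_prop) hne))) (by fun_prop) hne)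
  -- the fixed lower bound
  set A := {y : E | Real.exp (-1) ≤ ‖y‖ ^ 2 ∧ ‖y‖ ^ 2 ≤ 1} with hA
  have hAc : IsCompact A := dimTwo_annulus_compact _ _
  have hA0 : A ⊆ {0}ᶜ := hann _ _ (Real.exp_pos _)
  have IA : IntegrableOn f A := (hfc.mono hA0).integrableOn_compact hAc
  have hpos : 0 < ∫ y in A, f y := by
    rw [setIntegral_pos_iff_support_of_nonneg_ae
      (ae_restrict_of_ae (hae.mono fun y hy => (hf0 y hy).le)) IA]
    have hc : Continuous fun y : E => ‖y‖ ^ 2 := by fun_prop
    have hU : IsOpen {y : E | Real.exp (-1) < ‖y‖ ^ 2 ∧ ‖y‖ ^ 2 < 1} :=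
      (isOpen_lt continuous_const hc).inter (isOpen_lt hc continuous_const)
    obtain ⟨y, hy⟩ := exists_norm_eq E (Real.exp_pos (-1 / 4)).le
    have hy2 : ‖y‖ ^ 2 = Real.exp (-1 / 2) := by
      rw [hy, ← Real.exp_nat_mul]; norm_num
    refine (hU.measure_pos volume ⟨y, ?_, ?_⟩).trans_le (measure_mono fun z hz => ?_)
    · rw [hy2]; exact Real.exp_lt_exp.2 (by norm_num)
    · rw [hy2]; exact Real.exp_lt_one_iff.2 (by norm_num)
    · have hz' : z ∈ A := ⟨hz.1.le, hz.2.le⟩
      exact ⟨(hf0 z (hA0 hz')).ne', hz'⟩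
  have main : ∀ L : ℝ, 2 ≤ L → (L - 2) * ∫ y in A, f y ≤ ∫ y, w y := by
    intro L hL2
    have hL0 : 0 ≤ L := by linarith
    let φ : E → ℝ := fun z => dimTwo_g L (‖z - 0‖ ^ 2)
    have hφ : ContDiff ℝ 2 φ :=
      (dimTwo_g_contDiff hL0).comp ((contDiff_id.sub contDiff_const).norm_sq ℝ)
    have hsupp : tsupport φ ⊆ {y : E | Real.exp (-L) ≤ ‖y‖ ^ 2 ∧ ‖y‖ ^ 2 ≤ Real.exp (L + 1)} := by
      refine closure_minimal (fun y hy => ?_) (dimTwo_annulus_compact _ _).isClosed
      simp only [φ, sub_zero, Function.mem_support] at hy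
      exact ⟨not_lt.1 fun h => hy (dimTwo_g_small hL0 h.le),
        not_lt.1 fun h => hy (dimTwo_g_large hL0 h.le)⟩
    have hc : HasCompactSupport φ :=
      (dimTwo_annulus_compact _ _).of_isClosed_subset (isClosed_tsupport _) hsupp
    have h0 : tsupport φ ⊆ {0}ᶜ := hsupp.trans (hann _ _ (Real.exp_pos _))
    have hφ0 : ∀ y, 0 ≤ φ y := fun y => by
      simp only [φ, dimTwo_g]
      split_ifs
      · exact dimTwo_psi_nonneg hL0 _
      · exact le_rfl
    have g := green u φ hu2 hφ hc h0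
    have I1 : Integrable (fun y => u y * (Δ φ) y) :=
      green_integrable hc hu.continuousOn (green_continuous_lap hφ) (green_tsupport_lap _)
    have I2 : Integrable (fun y => f y * φ y) :=
      green_integrable hc (hfc.mono h0) hφ.continuous subset_rfl
    have e1 : ∫ y, φ y * (Δ u) y = -∫ y, f y * φ y := by
      rw [← integral_neg]
      refine integral_congr_ae (hae.mono fun y hy => ?_)
      simp only [← hL y hy]; ring
    have e2 : -∫ y, w y ≤ ∫ y, u y * (Δ φ) y := by
      rw [← integral_neg]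
      refine integral_mono_ae Iw.neg I1 (hae.mono fun y hy => ?_)
      have h1 := laplacian_radial (dimTwo_g L) 0 y (dimTwo_g_contDiff hL0).contDiffAt
      have h2 : 0 < ‖y‖ ^ 2 := by positivity
      have h3 := dimTwo_g_lap (L := L) h2
      rw [hn, sub_zero] at h1
      simp only [w, φ]
      rw [h1, ← mul_neg]
      exact mul_le_mul_of_nonneg_left (by exact_mod_cast h3) (hu0 y)
    have e3 : (L - 2) * ∫ y in A, f y ≤ ∫ y, f y * φ y := by
      refine le_trans ?_ (setIntegral_le_integral (s := A) I2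
        (hae.mono fun y hy => mul_nonneg (hf0 y hy).le (hφ0 y)))
      rw [← integral_const_mul]
      refine setIntegral_mono_on (IA.const_mul _) I2.integrableOn hAc.measurableSet
        fun y hy => ?_
      have h2 : 0 < ‖y‖ ^ 2 := (Real.exp_pos _).trans_le hy.1
      rw [mul_comm]
      refine mul_le_mul_of_nonneg_left ?_ (hf0 y (hA0 hy)).le
      simp only [φ, dimTwo_g, sub_zero, if_pos h2]
      exact dimTwo_psi_mid hL2 ((Real.le_log_iff_exp_le h2).2 hy.1) (Real.log_nonpos h2.le hy.2)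
    linarith
  have := main (2 + (|∫ y, w y| + 1) / ∫ y in A, f y) (le_add_of_nonneg_right (by positivity))
  rw [add_sub_cancel_left, div_mul_cancel₀ _ hpos.ne'] at this
  linarith [le_abs_self (∫ y, w y)]

end Crest.Agent.R077
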