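import Crest.Agent.R077.Defs

/-! # Row 77: one-variable profiles for the Riesz representation -/

set_option autoImplicit false

open MeasureTheory Metric Set Filter Topology

namespace Crest.Agent.R077

/-- A convex `C²` profile vanishing to the left of `a` and affine to the right of `b`. -/
structure ReprProf (a b d e : ℝ) (Ψ G ψ : ℝ → ℝ) : Prop where
  a_pos : 0 < a
  hΨ : ∀ t, HasDerivAt Ψ (G t) t
  hG : ∀ t, HasDerivAt G (ψ t) t
  cψ : Continuous ψ
  ψ_nonneg : ∀ t, 0 ≤ ψ t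
  ψ_lo : ∀ t, t ≤ a → ψ t = 0
  ψ_hi : ∀ t, b ≤ t → ψ t = 0
  Ψ_lo : ∀ t, t ≤ a → Ψ t = 0
  Ψ_hi : ∀ t, b ≤ t → Ψ t = d * t - e
  Ψ_nonneg : ∀ t, 0 ≤ Ψ t
  Ψ_le : ∀ t, 0 ≤ t → Ψ t ≤ d * t
  conv : ConvexOn ℝ univ Ψ

theorem repr_exists_prof {a b : ℝ} (ha : 0 < a) (hab : a ≤ b) (ψ : ℝ → ℝ) (hc : Continuous ψ)
    (h0 : ∀ t, 0 ≤ ψ t) (hlo : ∀ t, t ≤ a → ψ t = 0) (hhi : ∀ t, b ≤ t → ψ t = 0) :
    ∃ e Ψ G, ReprProf a b (∫ t in a..b, ψ t) e Ψ G ψ := by
  set d := ∫ t in a..b, ψ t with hd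
  let G : ℝ → ℝ := fun t => ∫ s in a..t, ψ s
  have hG : ∀ t, HasDerivAt G (ψ t) t := fun t =>
    intervalIntegral.integral_hasDerivAt_right (hc.intervalIntegrable _ _)
      (hc.stronglyMeasurableAtFilter _ _) hc.continuousAt
  have cG : Continuous G := continuous_iff_continuousAt.2 fun t => (hG t).continuousAt
  let Ψ : ℝ → ℝ := fun t => ∫ s in a..t, G s
  have hΨ : ∀ t, HasDerivAt Ψ (G t) t := fun t =>
    intervalIntegral.integral_hasDerivAt_right (cG.intervalIntegrable _ _)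
      (cG.stronglyMeasurableAtFilter _ _) cG.continuousAt
  have G_lo : ∀ t, t ≤ a → G t = 0 := fun t ht => by
    have : ∫ s in a..t, ψ s = ∫ s in a..t, (0 : ℝ) :=
      intervalIntegral.integral_congr fun s hs => hlo s (by
        rw [uIcc_of_ge ht] at hs; exact hs.2)
    simpa using this
  have G_hi : ∀ t, b ≤ t → G t = d := fun t ht => by
    have h1 := intervalIntegral.integral_add_adjacent_intervals (hc.intervalIntegrable a b)
      (hc.intervalIntegrable (μ := volume) b t)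
    have h2 : ∫ s in b..t, ψ s = ∫ s in b..t, (0 : ℝ) :=
      intervalIntegral.integral_congr fun s hs => hhi s (by
        rw [uIcc_of_le ht] at hs; exact hs.1)
    simp only [intervalIntegral.integral_zero] at h2
    simp only [G]
    linarith
  have G_mono : Monotone G := monotone_of_deriv_nonneg (fun t => (hG t).differentiableAt)
    fun t => by rw [(hG t).deriv]; exact h0 t
  have G_nonneg : ∀ t, 0 ≤ G t := fun t => by
    rw [← G_lo (min t a) (min_le_right _ _)]; exact G_mono (min_le_left _ _)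
  have G_le : ∀ t, G t ≤ d := fun t => by
    rw [← G_hi (max t b) (le_max_right _ _)]; exact G_mono (le_max_left _ _)
  have Ψ_lo : ∀ t, t ≤ a → Ψ t = 0 := fun t ht => by
    have : ∫ s in a..t, G s = ∫ s in a..t, (0 : ℝ) :=
      intervalIntegral.integral_congr fun s hs => G_lo s (by
        rw [uIcc_of_ge ht] at hs; exact hs.2)
    simpa using this
  have Ψ_mono : Monotone Ψ := monotone_of_deriv_nonneg (fun t => (hΨ t).differentiableAt)
    fun t => by rw [(hΨ t).deriv]; exact G_nonneg t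
  refine ⟨d * b - Ψ b, Ψ, G, ha, hΨ, hG, hc, h0, hlo, hhi, Ψ_lo, fun t ht => ?_, fun t => ?_,
    fun t ht => ?_, ?_⟩
  · have h1 := intervalIntegral.integral_add_adjacent_intervals (cG.intervalIntegrable a b)
      (cG.intervalIntegrable (μ := volume) b t)
    have h2 : ∫ s in b..t, G s = ∫ s in b..t, d :=
      intervalIntegral.integral_congr fun s hs => G_hi s (by
        rw [uIcc_of_le ht] at hs; exact hs.1)
    simp only [intervalIntegral.integral_const, smul_eq_mul] at h2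
    simp only [Ψ]
    linarith
  · rw [← Ψ_lo (min t a) (min_le_right _ _)]; exact Ψ_mono (min_le_left _ _)
  · have hd' : ∀ s, HasDerivAt (fun s => d * s - Ψ s) (d - G s) s := fun s => by
      have := ((hasDerivAt_id' s).const_mul d).fun_sub (hΨ s)
      rwa [mul_one] at this
    have := monotone_of_deriv_nonneg (fun s => (hd' s).differentiableAt)
      (fun s => by rw [(hd' s).deriv]; linarith [G_le s]) ht
    simp only [Ψ_lo 0 ha.le] at this
    linarith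
  · refine Monotone.convexOn_univ_of_deriv (fun t => (hΨ t).differentiableAt) ?_
    rwa [show deriv Ψ = G from funext fun t => (hΨ t).deriv]

namespace ReprProf

variable {a b d e : ℝ} {Ψ G ψ : ℝ → ℝ}

theorem contDiff (h : ReprProf a b d e Ψ G ψ) : ContDiff ℝ 2 Ψ := by
  rw [show (2 : WithTop ℕ∞) = 1 + 1 from rfl, contDiff_succ_iff_deriv,
    show deriv Ψ = G from funext fun t => (h.hΨ t).deriv, contDiff_one_iff_deriv,
    show deriv G = ψ from funext fun t => (h.hG t).deriv]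
  exact ⟨fun t => (h.hΨ t).differentiableAt, by simp, fun t => (h.hG t).differentiableAt, h.cψ⟩

theorem scale_mono (h : ReprProf a b d e Ψ G ψ) {l μ t : ℝ} (hl : 0 < l) (hlμ : l ≤ μ) :
    μ * Ψ (t / μ) ≤ l * Ψ (t / l) := by
  have hμ : 0 < μ := hl.trans_le hlμ
  have h1 := h.conv.2 (mem_univ (t / l)) (mem_univ 0) (show 0 ≤ l / μ by positivity)
    (show 0 ≤ 1 - l / μ by rw [sub_nonneg, div_le_one hμ]; exact hlμ) (by ring)
  rw [h.Ψ_lo 0 h.a_pos.le] at h1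
  simp only [smul_eq_mul, mul_zero, add_zero] at h1
  rw [show l / μ * (t / l) = t / μ by field_simp] at h1
  have := mul_le_mul_of_nonneg_left h1 hμ.le
  rwa [show μ * (l / μ * Ψ (t / l)) = l * Ψ (t / l) by field_simp] at this

theorem scale_le (h : ReprProf a b d e Ψ G ψ) {l t : ℝ} (hl : 0 < l) (ht : 0 ≤ t) :
    l * Ψ (t / l) ≤ d * t := by
  have := mul_le_mul_of_nonneg_left (h.Ψ_le (t / l) (by positivity)) hl.le
  rwa [show l * (d * (t / l)) = d * t by field_simp] at this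

end ReprProf

/-- radial test profile at level `l` -/
noncomputable def reprT (m : ℝ) (Ψ : ℝ → ℝ) (l s : ℝ) : ℝ := l * Ψ (s ^ (-m) / l)

/-- its first derivative -/
noncomputable def reprT1 (m : ℝ) (G : ℝ → ℝ) (l s : ℝ) : ℝ :=
  G (s ^ (-m) / l) * (-m * s ^ (-m - 1))

/-- radial density at level `l` -/
noncomputable def reprK (m : ℝ) (ψ : ℝ → ℝ) (l s : ℝ) : ℝ :=
  4 * m ^ 2 * s ^ (-(2 * m) - 1) * (ψ (s ^ (-m) / l) / l)

section

variable {a b d e m : ℝ} {Ψ G ψ : ℝ → ℝ}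

theorem repr_hasDerivAt_T (h : ReprProf a b d e Ψ G ψ) {l s : ℝ} (hl : 0 < l) (hs : 0 < s) :
    HasDerivAt (reprT m Ψ l) (reprT1 m G l s) s := by
  have h1 := (Real.hasDerivAt_rpow_const (x := s) (p := -m) (Or.inl hs.ne')).div_const l
  have h2 := ((h.hΨ _).comp s h1).const_mul l
  have e : l * (G (s ^ (-m) / l) * (-m * s ^ (-m - 1) / l)) = reprT1 m G l s := by
    simp only [reprT1]
    field_simp
  rw [← e]
  exact h2

theorem repr_hasDerivAt_T1 (h : ReprProf a b d e Ψ G ψ) {l s : ℝ} (hl : 0 < l) (hs : 0 < s) :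
    ∃ D, HasDerivAt (reprT1 m G l) D s ∧
      4 * s * D + 2 * (2 * m + 2) * reprT1 m G l s = reprK m ψ l s := by
  have h1 := (Real.hasDerivAt_rpow_const (x := s) (p := -m) (Or.inl hs.ne')).div_const l
  have h2 := (h.hG _).comp s h1
  have h3 := (Real.hasDerivAt_rpow_const (x := s) (p := -m - 1) (Or.inl hs.ne')).const_mul (-m)
  refine ⟨_, h2.mul h3, ?_⟩
  simp only [reprT1, reprK, Function.comp]
  have e1 : s ^ (-m - 1) = s ^ (-m) / s := Real.rpow_sub_one hs.ne' _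
  have e2 : s ^ (-m - 1 - 1) = s ^ (-m) / s / s := by rw [Real.rpow_sub_one hs.ne', e1]
  have e3 : s ^ (-(2 * m) - 1) = s ^ (-m) * s ^ (-m) / s := by
    rw [Real.rpow_sub_one hs.ne', ← Real.rpow_add hs]
    congr 2
    ring
  rw [e1, e2, e3]
  field_simp
  ring

theorem repr_contDiffAt_T (h : ReprProf a b d e Ψ G ψ) (l : ℝ) {s : ℝ} (hs : 0 < s) :
    ContDiffAt ℝ 2 (reprT m Ψ l) s :=
  contDiffAt_const.mul (h.contDiff.contDiffAt.comp s
    ((Real.contDiffAt_rpow_const_of_ne hs.ne').div_const l))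

theorem repr_eventually_large (hm : 0 < m) (T : ℝ) :
    ∀ᶠ s in 𝓝 (0 : ℝ), 0 < s → T ≤ s ^ (-m) :=
  eventually_nhdsWithin_iff.1
    ((tendsto_rpow_neg_nhdsGT_zero (neg_lt_zero.2 hm)).eventually_ge_atTop T)

theorem repr_eventually_small (hm : 0 < m) {T : ℝ} (hT : 0 < T) :
    ∃ S : ℝ, 0 < S ∧ ∀ s, S ≤ s → s ^ (-m) ≤ T := by
  obtain ⟨S, hS⟩ := eventually_atTop.1 ((tendsto_rpow_neg_atTop hm).eventually (ge_mem_nhds hT))
  exact ⟨max S 1, by positivity, fun s hs => hS s ((le_max_left _ _).trans hs)⟩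

/-- the full test profile -/
noncomputable def reprG (m e : ℝ) (Ψ : ℝ → ℝ) (l μ s : ℝ) : ℝ :=
  if 0 < s then reprT m Ψ l s - reprT m Ψ μ s else e * (μ - l)

theorem repr_G_pos (l μ : ℝ) {s : ℝ} (hs : 0 < s) :
    reprG m e Ψ l μ =ᶠ[𝓝 s] fun s => reprT m Ψ l s - reprT m Ψ μ s := by
  filter_upwards [lt_mem_nhds hs] with s' hs'
  simp [reprG, hs']

theorem repr_G_zero (h : ReprProf a b d e Ψ G ψ) (hm : 0 < m) {l μ : ℝ} (hl : 0 < l)
    (hμ : 0 < μ) : reprG m e Ψ l μ =ᶠ[𝓝 0] fun _ => e * (μ - l) := by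
  filter_upwards [repr_eventually_large hm (b * l), repr_eventually_large hm (b * μ)] with s h1 h2
  simp only [reprG]
  split_ifs with hs
  · simp only [reprT]
    rw [h.Ψ_hi _ ((le_div_iff₀ hl).2 (h1 hs)), h.Ψ_hi _ ((le_div_iff₀ hμ).2 (h2 hs))]
    field_simp
    ring
  · rfl

theorem repr_G_contDiffAt (h : ReprProf a b d e Ψ G ψ) (hm : 0 < m) {l μ : ℝ} (hl : 0 < l)
    (hμ : 0 < μ) {s : ℝ} (hs : 0 ≤ s) : ContDiffAt ℝ 2 (reprG m e Ψ l μ) s := by
  rcases hs.eq_or_lt with rfl | hs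
  · exact contDiffAt_const.congr_of_eventuallyEq (repr_G_zero h hm hl hμ)
  · exact ((repr_contDiffAt_T h l hs).sub (repr_contDiffAt_T h μ hs)).congr_of_eventuallyEq
      (repr_G_pos l μ hs)

theorem repr_G_lap (h : ReprProf a b d e Ψ G ψ) (hm : 0 < m) {l μ : ℝ} (hl : 0 < l)
    (hμ : 0 < μ) {s : ℝ} (hs : 0 ≤ s) :
    4 * s * deriv (deriv (reprG m e Ψ l μ)) s + 2 * (2 * m + 2) * deriv (reprG m e Ψ l μ) s =
      reprK m ψ l s - reprK m ψ μ s := by
  rcases hs.eq_or_lt with rfl | hs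
  · rw [(repr_G_zero h hm hl hμ).deriv_eq]
    have : (0 : ℝ) ^ (-(2 * m) - 1) = 0 := Real.zero_rpow (by linarith)
    simp [reprK, this]
  · have h1 : deriv (reprG m e Ψ l μ) =ᶠ[𝓝 s] fun s => reprT1 m G l s - reprT1 m G μ s := by
      filter_upwards [lt_mem_nhds hs] with s' hs'
      rw [(repr_G_pos l μ hs').deriv_eq]
      exact ((repr_hasDerivAt_T h hl hs').sub (repr_hasDerivAt_T h hμ hs')).deriv
    obtain ⟨D1, hD1, e1⟩ := repr_hasDerivAt_T1 (m := m) h hl hs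
    obtain ⟨D2, hD2, e2⟩ := repr_hasDerivAt_T1 (m := m) h hμ hs
    rw [h1.deriv_eq, h1.eq_of_nhds]
    have : deriv (fun s => reprT1 m G l s - reprT1 m G μ s) s = D1 - D2 := (hD1.sub hD2).deriv
    rw [this]
    linarith

theorem repr_G_far (h : ReprProf a b d e Ψ G ψ) (hm : 0 < m) {l μ : ℝ} (hl : 0 < l)
    (hμ : 0 < μ) : ∃ S : ℝ, 0 < S ∧ ∀ s, S ≤ s → reprG m e Ψ l μ s = 0 := by
  obtain ⟨S, hS, h1⟩ := repr_eventually_small hm (lt_min (mul_pos h.a_pos hl) (mul_pos h.a_pos hμ))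
  refine ⟨S, hS, fun s hs => ?_⟩
  have := h1 s hs
  simp only [reprG, if_pos (hS.trans_le hs), reprT]
  rw [h.Ψ_lo _ ((div_le_iff₀ hl).2 (this.trans (min_le_left _ _))),
    h.Ψ_lo _ ((div_le_iff₀ hμ).2 (this.trans (min_le_right _ _)))]
  ring

theorem repr_K_nonneg (h : ReprProf a b d e Ψ G ψ) {l s : ℝ} (hl : 0 < l) (hs : 0 ≤ s) :
    0 ≤ reprK m ψ l s := by
  have := h.ψ_nonneg (s ^ (-m) / l)
  unfold reprK
  positivity

theorem repr_K_far (h : ReprProf a b d e Ψ G ψ) (hm : 0 < m) :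
    ∃ S : ℝ, 0 < S ∧ ∀ s, S ≤ s → reprK m ψ 1 s = 0 := by
  obtain ⟨S, hS, h1⟩ := repr_eventually_small hm h.a_pos
  refine ⟨S, hS, fun s hs => ?_⟩
  simp only [reprK, div_one]
  rw [h.ψ_lo _ (h1 s hs), mul_zero]

theorem repr_K_continuousWithinAt (h : ReprProf a b d e Ψ G ψ) (hm : 0 < m) {s : ℝ}
    (hs : 0 ≤ s) : ContinuousWithinAt (reprK m ψ 1) (Ici 0) s := by
  rcases hs.eq_or_lt with rfl | hs
  · have h0 : (0 : ℝ) ^ (-(2 * m) - 1) = 0 := Real.zero_rpow (by linarith)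
    refine (continuousWithinAt_const (b := (0 : ℝ))).congr_of_eventuallyEq ?_ (by simp [reprK, h0])
    filter_upwards [self_mem_nhdsWithin, nhdsWithin_le_nhds (repr_eventually_large hm b)]
      with s hs h1
    rcases (show 0 ≤ s from hs).eq_or_lt with rfl | hs'
    · simp [reprK, h0]
    · simp only [reprK, div_one]
      rw [h.ψ_hi _ (h1 hs'), mul_zero]
  · refine ContinuousAt.continuousWithinAt ?_
    unfold reprK
    exact (continuousAt_const.mul (Real.continuousAt_rpow_const _ _ (Or.inl hs.ne'))).mul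
      ((h.cψ.continuousAt.comp
        ((Real.continuousAt_rpow_const _ _ (Or.inl hs.ne')).div_const 1)).div_const 1)

theorem repr_K_scale {r s : ℝ} (hr : 0 < r) (hs : 0 ≤ s) :
    reprK m ψ ((r ^ 2) ^ (-m)) s = (r ^ (2 * m + 2))⁻¹ * reprK m ψ 1 (s / r ^ 2) := by
  have hr2 : 0 < r ^ 2 := by positivity
  simp only [reprK, div_one]
  rw [Real.div_rpow hs hr2.le, Real.div_rpow hs hr2.le]
  have e1 : r ^ (2 * m + 2) = (r ^ 2) ^ (m + 1) := by
    rw [← Real.rpow_natCast r 2, ← Real.rpow_mul hr.le]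
    congr 1
    push_cast
    ring
  have e2 : (r ^ 2) ^ (-(2 * m) - 1) = (r ^ 2) ^ (-m) / (r ^ 2) ^ (m + 1) := by
    rw [← Real.rpow_sub hr2]
    congr 1
    ring
  rw [e1, e2]
  have p1 : 0 < (r ^ 2) ^ (-m) := Real.rpow_pos_of_pos hr2 _
  have p2 : 0 < (r ^ 2) ^ (m + 1) := Real.rpow_pos_of_pos hr2 _
  field_simp

end

/-- the tent function on `[a, b]` -/
noncomputable def reprTent (a b t : ℝ) : ℝ := max 0 (min (t - a) (b - t))

theorem repr_tent_prof {a b : ℝ} (ha : 0 < a) (hab : a < b) :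
    ∃ d e Ψ G, 0 < d ∧ ReprProf a b d e Ψ G (reprTent a b) := by
  have hc : Continuous (reprTent a b) := by unfold reprTent; fun_prop
  obtain ⟨e, Ψ, G, h⟩ := repr_exists_prof ha hab.le (reprTent a b) hc (fun t => le_max_left _ _)
    (fun t ht => max_eq_left ((min_le_left _ _).trans (by linarith)))
    (fun t ht => max_eq_left ((min_le_right _ _).trans (by linarith)))
  refine ⟨_, e, Ψ, G, intervalIntegral.intervalIntegral_pos_of_pos_on (hc.intervalIntegrable _ _)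
    (fun t ht => lt_max_of_lt_right (lt_min (by linarith [ht.1]) (by linarith [ht.2]))) hab, h⟩

theorem repr_K_compare {m : ℝ} (hm : 1 / 2 ≤ m) :
    ∃ a' b' C : ℝ, 0 < a' ∧ a' < b' ∧ 0 ≤ C ∧ ∀ ρ ρ' : ℝ, 0 ≤ ρ → 0 ≤ ρ' → |ρ - ρ'| ≤ 1 / 4 →
      reprK m (reprTent 1 2) 1 (ρ ^ 2) ≤ C * reprK m (reprTent a' b') 1 (ρ' ^ 2) := by
  have hm0 : 0 < m := by linarith
  set a' := (4 : ℝ) ^ (-m) / 2 with ha'
  set b' := (1 / 16 : ℝ) ^ (-m) + 1 with hb'
  have p4 : 0 < (4 : ℝ) ^ (-m) := Real.rpow_pos_of_pos (by norm_num) _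
  have ha'pos : 0 < a' := by positivity
  have hle : (4 : ℝ) ^ (-m) ≤ (1 / 16 : ℝ) ^ (-m) :=
    Real.rpow_le_rpow_of_nonpos (by norm_num) (by norm_num) (by linarith)
  set lo := (4 : ℝ) ^ (-(2 * m) - 1) * min a' 1 with hlo
  have hlopos : 0 < lo := mul_pos (Real.rpow_pos_of_pos (by norm_num) _) (lt_min ha'pos one_pos)
  set hi := (1 / 4 : ℝ) ^ (-(2 * m) - 1) with hhi
  have hhipos : 0 < hi := Real.rpow_pos_of_pos (by norm_num) _
  refine ⟨a', b', hi / lo, ha'pos, by linarith, by positivity, fun ρ ρ' hρ hρ' hd => ?_⟩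
  have hnn : 0 ≤ reprK m (reprTent a' b') 1 (ρ' ^ 2) := by
    have : 0 ≤ reprTent a' b' ((ρ' ^ 2) ^ (-m) / 1) := le_max_left _ _
    unfold reprK
    positivity
  by_cases h0 : reprTent 1 2 ((ρ ^ 2) ^ (-m)) = 0
  · simp only [reprK, div_one, h0, mul_zero] at hnn ⊢
    positivity
  have h1 : 1 < (ρ ^ 2) ^ (-m) := by
    by_contra hc
    exact h0 (max_eq_left ((min_le_left _ _).trans (by linarith)))
  have h2 : (ρ ^ 2) ^ (-m) < 2 := by
    by_contra hc
    exact h0 (max_eq_left ((min_le_right _ _).trans (by linarith)))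
  have hρ0 : 0 < ρ := by
    rcases hρ.eq_or_lt with rfl | h
    · rw [zero_pow two_ne_zero, Real.zero_rpow (by linarith)] at h1
      linarith
    · exact h
  have hρ1 : ρ ≤ 1 := by
    by_contra hc
    have : (ρ ^ 2) ^ (-m) ≤ 1 := Real.rpow_le_one_of_one_le_of_nonpos (by nlinarith) (by linarith)
    linarith
  have hρ2 : 1 / 2 ≤ ρ := by
    by_contra hc
    have e1 : (1 / 4 : ℝ) ^ (-m) ≤ (ρ ^ 2) ^ (-m) :=
      Real.rpow_le_rpow_of_nonpos (by positivity) (by nlinarith) (by linarith)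
    have e2 : (1 / 4 : ℝ) ^ (-(1 / 2 : ℝ)) ≤ (1 / 4 : ℝ) ^ (-m) :=
      Real.rpow_le_rpow_of_exponent_ge (by norm_num) (by norm_num) (by linarith)
    have e3 : (1 / 4 : ℝ) ^ (-(1 / 2 : ℝ)) = 2 := by
      rw [Real.rpow_neg (by norm_num), ← Real.sqrt_eq_rpow,
        show (1 / 4 : ℝ) = (1 / 2) ^ 2 by norm_num, Real.sqrt_sq (by norm_num)]
      norm_num
    linarith
  rw [abs_le] at hd
  have hρ'1 : 1 / 16 ≤ ρ' ^ 2 := by nlinarith
  have hρ'2 : ρ' ^ 2 ≤ 4 := by nlinarith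
  have u1 : (ρ ^ 2) ^ (-(2 * m) - 1) ≤ hi :=
    Real.rpow_le_rpow_of_nonpos (by norm_num) (by nlinarith) (by linarith)
  have u2 : reprTent 1 2 ((ρ ^ 2) ^ (-m)) ≤ 1 :=
    max_le zero_le_one ((min_le_left _ _).trans (by linarith))
  have l1 : (4 : ℝ) ^ (-(2 * m) - 1) ≤ (ρ' ^ 2) ^ (-(2 * m) - 1) :=
    Real.rpow_le_rpow_of_nonpos (by linarith) hρ'2 (by linarith)
  have l2 : (4 : ℝ) ^ (-m) ≤ (ρ' ^ 2) ^ (-m) :=
    Real.rpow_le_rpow_of_nonpos (by linarith) hρ'2 (by linarith)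
  have l3 : (ρ' ^ 2) ^ (-m) ≤ (1 / 16 : ℝ) ^ (-m) :=
    Real.rpow_le_rpow_of_nonpos (by norm_num) hρ'1 (by linarith)
  have l4 : min a' 1 ≤ reprTent a' b' ((ρ' ^ 2) ^ (-m)) :=
    le_max_of_le_right (min_le_min (by linarith) (by linarith))
  have l5 : lo ≤ (ρ' ^ 2) ^ (-(2 * m) - 1) * reprTent a' b' ((ρ' ^ 2) ^ (-m)) :=
    mul_le_mul l1 l4 (lt_min ha'pos one_pos).le (by positivity)
  have u3 : (ρ ^ 2) ^ (-(2 * m) - 1) * reprTent 1 2 ((ρ ^ 2) ^ (-m)) ≤ hi * 1 :=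
    mul_le_mul u1 u2 (le_max_left _ _) hhipos.le
  simp only [reprK, div_one]
  have hm2 : 0 ≤ 4 * m ^ 2 := by positivity
  calc 4 * m ^ 2 * (ρ ^ 2) ^ (-(2 * m) - 1) * reprTent 1 2 ((ρ ^ 2) ^ (-m))
      ≤ 4 * m ^ 2 * (hi * 1) := by rw [mul_assoc]; exact mul_le_mul_of_nonneg_left u3 hm2
    _ = hi / lo * (4 * m ^ 2 * lo) := by field_simp
    _ ≤ _ := by
      rw [mul_assoc (4 * m ^ 2)]
      exact mul_le_mul_of_nonneg_left (mul_le_mul_of_nonneg_left l5 hm2) (by positivity)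

end Crest.Agent.R077
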