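import Crest.Agent.R077.Green
import Crest.Agent.R077.ReprAux

/-! # Row 77: Riesz representation of nonnegative superharmonic functions -/

set_option autoImplicit false

open MeasureTheory Metric Set Filter Topology
open scoped RealInnerProductSpace
open Laplacian InnerProductSpace

namespace Crest.Agent.R077

variable {E : Type*} [NormedAddCommGroup E] [InnerProductSpace ℝ E]
  [FiniteDimensional ℝ E] [MeasurableSpace E] [BorelSpace E]

/-- the spatial density -/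
noncomputable def reprKE (m : ℝ) (ψ : ℝ → ℝ) (z : E) : ℝ := reprK m ψ 1 (‖z‖ ^ 2)

/-- weighted averages at scale `r` -/
noncomputable def reprA (m : ℝ) (ψ : ℝ → ℝ) (u : E → ℝ) (x : E) (r : ℝ) : ℝ :=
  ∫ z, reprKE m ψ z * u (x + r • z)

section

variable {a b d e m : ℝ} {Ψ G ψ : ℝ → ℝ}

omit [InnerProductSpace ℝ E] [FiniteDimensional ℝ E] [MeasurableSpace E] [BorelSpace E] in
theorem repr_KE_continuous (h : ReprProf a b d e Ψ G ψ) (hm : 0 < m) :
    Continuous (reprKE m ψ : E → ℝ) :=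
  ContinuousOn.comp_continuous (s := Ici 0) (fun _ hs => repr_K_continuousWithinAt h hm hs)
    (by fun_prop) (fun z => sq_nonneg ‖z‖)

omit [InnerProductSpace ℝ E] [FiniteDimensional ℝ E] [MeasurableSpace E] [BorelSpace E] in
theorem repr_far_of_norm {S : ℝ} (hS : 0 < S) {z : E} (hz : Real.sqrt S < ‖z‖) : S ≤ ‖z‖ ^ 2 := by
  have := pow_le_pow_left₀ (Real.sqrt_nonneg S) hz.le 2
  rwa [Real.sq_sqrt hS.le] at this

omit [MeasurableSpace E] [BorelSpace E] in
theorem repr_KE_compact (h : ReprProf a b d e Ψ G ψ) (hm : 0 < m) :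
    HasCompactSupport (reprKE m ψ : E → ℝ) := by
  obtain ⟨S, hS, h1⟩ := repr_K_far h hm
  refine HasCompactSupport.intro (isCompact_closedBall (0 : E) (Real.sqrt S)) fun z hz => ?_
  exact h1 _ (repr_far_of_norm hS (by simpa using hz))

omit [InnerProductSpace ℝ E] [FiniteDimensional ℝ E] [MeasurableSpace E] [BorelSpace E] in
theorem repr_KE_nonneg (h : ReprProf a b d e Ψ G ψ) (z : E) : 0 ≤ reprKE m ψ z :=
  repr_K_nonneg h one_pos (sq_nonneg _)

omit [FiniteDimensional ℝ E] [MeasurableSpace E] [BorelSpace E] in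
theorem repr_K_eq {r : ℝ} (hr : 0 < r) (w : E) :
    reprK m ψ ((r ^ 2) ^ (-m)) (‖w‖ ^ 2) = (r ^ (2 * m + 2))⁻¹ * reprKE m ψ (r⁻¹ • w) := by
  rw [repr_K_scale hr (sq_nonneg _), reprKE, norm_smul, norm_inv, Real.norm_of_nonneg hr.le]
  congr 2
  field_simp

theorem repr_integrable_scaled (h : ReprProf a b d e Ψ G ψ) (hm : 0 < m) {u : E → ℝ}
    (hu : Continuous u) (x : E) {r : ℝ} (hr : 0 < r) :
    Integrable (fun y => u y * reprKE m ψ (r⁻¹ • (y - x))) := by
  refine (hu.mul ((repr_KE_continuous h hm).comp (by fun_prop))).integrable_of_hasCompactSupport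
    (HasCompactSupport.mul_left ?_)
  exact (repr_KE_compact h hm).comp_isClosedEmbedding
    ((Homeomorph.subRight x).trans (Homeomorph.smulOfNeZero r⁻¹ (inv_ne_zero hr.ne'))).isClosedEmbedding

theorem repr_integral_scaled (hn : (Module.finrank ℝ E : ℝ) = 2 * m + 2) (u : E → ℝ) (x : E)
    {r : ℝ} (hr : 0 < r) :
    ∫ y, u y * reprKE m ψ (r⁻¹ • (y - x)) = r ^ (2 * m + 2) * reprA m ψ u x r := by
  have h1 := integral_sub_right_eq_self (μ := (volume : Measure E))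
    (fun w => u (x + w) * reprKE m ψ (r⁻¹ • w)) x
  simp only [add_sub_cancel] at h1
  have h2 := Measure.integral_comp_smul (volume : Measure E)
    (fun w => u (x + w) * reprKE m ψ (r⁻¹ • w)) r
  simp only [smul_smul, inv_mul_cancel₀ hr.ne', one_smul, smul_eq_mul] at h2
  rw [h1, ← hn, Real.rpow_natCast, reprA]
  simp_rw [mul_comm (reprKE m ψ _)]
  rw [h2, abs_of_pos (by positivity)]
  field_simp

theorem repr_A_continuous (h : ReprProf a b d e Ψ G ψ) (hm : 0 < m) {u : E → ℝ}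
    (hu : Continuous u) (x : E) : Continuous (reprA m ψ u x) := by
  have hk := repr_KE_continuous (E := E) h hm
  have h1 := continuous_parametric_integral_of_continuous (μ := (volume : Measure E))
    (f := fun (r : ℝ) (z : E) => reprKE m ψ z * u (x + r • z)) (by fun_prop)
    (repr_KE_compact (E := E) h hm)
  refine h1.congr fun r => ?_
  refine setIntegral_eq_integral_of_forall_compl_eq_zero fun z hz => ?_
  rw [image_eq_zero_of_notMem_tsupport hz, zero_mul]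

theorem repr_A_zero (u : E → ℝ) (x : E) : reprA m ψ u x 0 = (∫ z : E, reprKE m ψ z) * u x := by
  simp [reprA, integral_mul_const]

theorem repr_A_nonneg (h : ReprProf a b d e Ψ G ψ) {u : E → ℝ} (hu : ∀ x, 0 ≤ u x) (x : E)
    (r : ℝ) : 0 ≤ reprA m ψ u x r :=
  integral_nonneg fun z => mul_nonneg (repr_KE_nonneg h z) (hu _)

omit [FiniteDimensional ℝ E] [MeasurableSpace E] [BorelSpace E] in
theorem repr_three_le (hn : (Module.finrank ℝ E : ℝ) = 2 * m + 2) (hm : 1 / 2 ≤ m) :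
    3 ≤ Module.finrank ℝ E := by
  have : (3 : ℝ) ≤ Module.finrank ℝ E := by linarith
  exact_mod_cast this

theorem repr_identity (h : ReprProf a b d e Ψ G ψ) (hn : (Module.finrank ℝ E : ℝ) = 2 * m + 2)
    (hm : 1 / 2 ≤ m) {u f : E → ℝ} (hu : Continuous u) (hu2 : ContDiffOn ℝ 2 u {0}ᶜ)
    (hL : ∀ x, x ≠ 0 → -(Δ u) x = f x) (hf0 : ∀ x, x ≠ 0 → 0 ≤ f x) (hfc : ContinuousOn f {0}ᶜ)
    (x : E) {ε R : ℝ} (hε : 0 < ε) (hR : 0 < R) :
    Integrable (fun y => reprG m e Ψ ((R ^ 2) ^ (-m)) ((ε ^ 2) ^ (-m)) (‖y - x‖ ^ 2) * f y) ∧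
      ∫ y, reprG m e Ψ ((R ^ 2) ^ (-m)) ((ε ^ 2) ^ (-m)) (‖y - x‖ ^ 2) * f y =
        reprA m ψ u x ε - reprA m ψ u x R := by
  have hm0 : 0 < m := by linarith
  have hl : 0 < (R ^ 2) ^ (-m) := Real.rpow_pos_of_pos (by positivity) _
  have hμ : 0 < (ε ^ 2) ^ (-m) := Real.rpow_pos_of_pos (by positivity) _
  have hsm : ContDiff ℝ 2 (fun y : E => ‖y - x‖ ^ 2) :=
    (contDiff_id.sub contDiff_const).norm_sq ℝ
  have hφ : ContDiff ℝ 2
      (fun y : E => reprG m e Ψ ((R ^ 2) ^ (-m)) ((ε ^ 2) ^ (-m)) (‖y - x‖ ^ 2)) :=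
    contDiff_iff_contDiffAt.2 fun y =>
      ContDiffAt.comp (f := fun y : E => ‖y - x‖ ^ 2) y
        (repr_G_contDiffAt h hm0 hl hμ (sq_nonneg ‖y - x‖)) hsm.contDiffAt
  have hc : HasCompactSupport
      (fun y : E => reprG m e Ψ ((R ^ 2) ^ (-m)) ((ε ^ 2) ^ (-m)) (‖y - x‖ ^ 2)) := by
    obtain ⟨S, hS, h1⟩ := repr_G_far h hm0 hl hμ
    refine HasCompactSupport.intro (isCompact_closedBall x (Real.sqrt S)) fun y hy => ?_
    exact h1 _ (repr_far_of_norm hS (by simpa [dist_eq_norm] using hy))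
  obtain ⟨h1, h2⟩ := weak_form (repr_three_le hn hm) u f hu hu2 hL hf0 hfc _ hφ hc
  refine ⟨h1, ?_⟩
  rw [h2]
  have h3 : ∀ y, u y * (Δ (fun y : E =>
      reprG m e Ψ ((R ^ 2) ^ (-m)) ((ε ^ 2) ^ (-m)) (‖y - x‖ ^ 2))) y =
      (R ^ (2 * m + 2))⁻¹ * (u y * reprKE m ψ (R⁻¹ • (y - x))) -
        (ε ^ (2 * m + 2))⁻¹ * (u y * reprKE m ψ (ε⁻¹ • (y - x))) := by
    intro y
    rw [laplacian_radial _ x y (repr_G_contDiffAt h hm0 hl hμ (sq_nonneg _)), hn,
      repr_G_lap h hm0 hl hμ (sq_nonneg _), repr_K_eq hR, repr_K_eq hε]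
    ring
  simp_rw [h3]
  rw [integral_sub ((repr_integrable_scaled h hm0 hu x hR).const_mul _)
    ((repr_integrable_scaled h hm0 hu x hε).const_mul _), integral_const_mul, integral_const_mul,
    repr_integral_scaled hn u x hR, repr_integral_scaled hn u x hε]
  have p1 : 0 < R ^ (2 * m + 2) := Real.rpow_pos_of_pos hR _
  have p2 : 0 < ε ^ (2 * m + 2) := Real.rpow_pos_of_pos hε _
  field_simp
  ring

omit [InnerProductSpace ℝ E] [FiniteDimensional ℝ E] [MeasurableSpace E] [BorelSpace E] in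
theorem repr_G_eq {x y : E} (hy : y ≠ x) (l μ : ℝ) :
    reprG m e Ψ l μ (‖y - x‖ ^ 2) = l * Ψ (K m x y / l) - μ * Ψ (K m x y / μ) := by
  have : 0 < ‖y - x‖ ^ 2 := pow_pos (norm_pos_iff.2 (sub_ne_zero.2 hy)) 2
  simp only [reprG, if_pos this, reprT, K, norm_sub_rev x y]

omit [InnerProductSpace ℝ E] [FiniteDimensional ℝ E] [MeasurableSpace E] [BorelSpace E] in
theorem repr_G_bounds (h : ReprProf a b d e Ψ G ψ) (hm : 0 < m) {x y : E} (hy : y ≠ x)
    {ε R : ℝ} (hε : 0 < ε) (hεR : ε ≤ R) :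
    0 ≤ reprG m e Ψ ((R ^ 2) ^ (-m)) ((ε ^ 2) ^ (-m)) (‖y - x‖ ^ 2) ∧
      reprG m e Ψ ((R ^ 2) ^ (-m)) ((ε ^ 2) ^ (-m)) (‖y - x‖ ^ 2) ≤ d * K m x y := by
  have hR : 0 < R := hε.trans_le hεR
  have hl : 0 < (R ^ 2) ^ (-m) := Real.rpow_pos_of_pos (by positivity) _
  have hμ : 0 < (ε ^ 2) ^ (-m) := Real.rpow_pos_of_pos (by positivity) _
  have hlμ : (R ^ 2) ^ (-m) ≤ (ε ^ 2) ^ (-m) :=
    Real.rpow_le_rpow_of_nonpos (by positivity) (by gcongr) (by linarith)
  have hK : 0 ≤ K m x y := Real.rpow_nonneg (sq_nonneg _) _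
  rw [repr_G_eq hy]
  have h1 := h.scale_mono (t := K m x y) hl hlμ
  have h2 := h.scale_le hl hK
  have h3 := mul_nonneg hμ.le (h.Ψ_nonneg (K m x y / (ε ^ 2) ^ (-m)))
  constructor <;> linarith

theorem repr_ae_ne (hn : (Module.finrank ℝ E : ℝ) = 2 * m + 2) (hm : 1 / 2 ≤ m) (x : E) :
    ∀ᵐ y : E, y ≠ x := by
  have : Nontrivial E := Module.nontrivial_of_finrank_pos (R := ℝ)
    (by have := repr_three_le hn hm; omega)
  exact Measure.ae_ne _ x

theorem repr_A_le (h : ReprProf a b d e Ψ G ψ) (hn : (Module.finrank ℝ E : ℝ) = 2 * m + 2)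
    (hm : 1 / 2 ≤ m) {u f : E → ℝ} (hu : Continuous u) (hu2 : ContDiffOn ℝ 2 u {0}ᶜ)
    (hL : ∀ x, x ≠ 0 → -(Δ u) x = f x) (hf0 : ∀ x, x ≠ 0 → 0 ≤ f x) (hfc : ContinuousOn f {0}ᶜ)
    (x : E) {R : ℝ} (hR : 0 < R) : reprA m ψ u x R ≤ (∫ z : E, reprKE m ψ z) * u x := by
  have hm0 : 0 < m := by linarith
  rw [← repr_A_zero]
  have hc : Tendsto (reprA m ψ u x) (𝓝[>] 0) (𝓝 (reprA m ψ u x 0)) :=
    (repr_A_continuous h hm0 hu x).continuousWithinAt
  refine ge_of_tendsto hc ?_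
  filter_upwards [Ioc_mem_nhdsGT hR] with ε hε
  have h1 := (repr_identity h hn hm hu hu2 hL hf0 hfc x hε.1 hR).2
  have h2 : 0 ≤ ∫ y, reprG m e Ψ ((R ^ 2) ^ (-m)) ((ε ^ 2) ^ (-m)) (‖y - x‖ ^ 2) * f y := by
    refine integral_nonneg_of_ae ?_
    filter_upwards [repr_ae_ne hn hm x, repr_ae_ne hn hm 0] with y h1 h2
    exact mul_nonneg (repr_G_bounds h hm0 h1 hε.1 hε.2).1 (hf0 y h2)
  linarith

omit [InnerProductSpace ℝ E] [FiniteDimensional ℝ E] [MeasurableSpace E] [BorelSpace E] in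
theorem repr_G_tendsto (h : ReprProf a b d e Ψ G ψ) (hm : 0 < m) {x y : E} (hy : y ≠ x) :
    Tendsto (fun j : ℕ => reprG m e Ψ ((((j : ℝ) + 1) ^ 2) ^ (-m)) (((((j : ℝ) + 1)⁻¹) ^ 2) ^ (-m))
      (‖y - x‖ ^ 2)) atTop (𝓝 (d * K m x y)) := by
  have hK : 0 < K m x y :=
    Real.rpow_pos_of_pos (pow_pos (norm_pos_iff.2 (sub_ne_zero.2 hy.symm)) 2) _
  have t0 : Tendsto (fun j : ℕ => (j : ℝ) + 1) atTop atTop :=
    tendsto_atTop_add_const_right _ _ tendsto_natCast_atTop_atTop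
  have t1 : Tendsto (fun j : ℕ => ((j : ℝ) + 1) ^ 2) atTop atTop :=
    (tendsto_pow_atTop two_ne_zero).comp t0
  have tl : Tendsto (fun j : ℕ => (((j : ℝ) + 1) ^ 2) ^ (-m)) atTop (𝓝 0) :=
    (tendsto_rpow_neg_atTop hm).comp t1
  have tμ : Tendsto (fun j : ℕ => ((((j : ℝ) + 1)⁻¹) ^ 2) ^ (-m)) atTop atTop := by
    refine ((tendsto_rpow_atTop hm).comp t1).congr fun j => ?_
    simp only [Function.comp]
    rw [inv_pow, Real.inv_rpow (by positivity), Real.rpow_neg (by positivity), inv_inv]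
  have tb : Tendsto (fun j : ℕ => b * (((j : ℝ) + 1) ^ 2) ^ (-m)) atTop (𝓝 0) := by
    simpa using tl.const_mul b
  have lim : Tendsto (fun j : ℕ => d * K m x y - e * (((j : ℝ) + 1) ^ 2) ^ (-m)) atTop
      (𝓝 (d * K m x y)) := by
    simpa using (tendsto_const_nhds (x := d * K m x y)).sub (tl.const_mul e)
  refine lim.congr' ?_
  filter_upwards [tb.eventually (ge_mem_nhds hK), tμ.eventually_ge_atTop (K m x y / a)]
    with j h1 h2
  have hl : 0 < (((j : ℝ) + 1) ^ 2) ^ (-m) := Real.rpow_pos_of_pos (by positivity) _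
  have hμ : 0 < ((((j : ℝ) + 1)⁻¹) ^ 2) ^ (-m) := Real.rpow_pos_of_pos (by positivity) _
  rw [repr_G_eq hy, h.Ψ_hi _ ((le_div_iff₀ hl).2 h1), h.Ψ_lo _ ((div_le_iff₀ hμ).2 (by
    rw [div_le_iff₀ h.a_pos] at h2; linarith))]
  field_simp
  ring

theorem repr_limit (h : ReprProf a b d e Ψ G ψ) (hd : 0 < d)
    (hn : (Module.finrank ℝ E : ℝ) = 2 * m + 2)
    (hm : 1 / 2 ≤ m) {u f : E → ℝ} (hu : Continuous u) (hu0 : ∀ x, 0 ≤ u x)
    (hu2 : ContDiffOn ℝ 2 u {0}ᶜ)
    (hL : ∀ x, x ≠ 0 → -(Δ u) x = f x) (hf0 : ∀ x, x ≠ 0 → 0 ≤ f x) (hfc : ContinuousOn f {0}ᶜ)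
    (x : E) : Integrable (fun y => K m x y * f y) ∧
      Tendsto (fun j : ℕ => reprA m ψ u x ((j : ℝ) + 1)) atTop
        (𝓝 ((∫ z : E, reprKE m ψ z) * u x - d * ∫ y, K m x y * f y)) := by
  have hm0 : 0 < m := by linarith
  let F : ℕ → E → ℝ := fun j y => reprG m e Ψ ((((j : ℝ) + 1) ^ 2) ^ (-m))
    (((((j : ℝ) + 1)⁻¹) ^ 2) ^ (-m)) (‖y - x‖ ^ 2) * f y
  have hp : ∀ j : ℕ, (0 : ℝ) < (j : ℝ) + 1 := fun j => by positivity
  have hle : ∀ j : ℕ, ((j : ℝ) + 1)⁻¹ ≤ (j : ℝ) + 1 := fun j => by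
    have : (1 : ℝ) ≤ (j : ℝ) + 1 := by linarith [(Nat.cast_nonneg j : (0 : ℝ) ≤ j)]
    exact (inv_le_one_of_one_le₀ this).trans this
  have hF : ∀ j, Integrable (F j) ∧
      ∫ y, F j y = reprA m ψ u x ((j : ℝ) + 1)⁻¹ - reprA m ψ u x ((j : ℝ) + 1) :=
    fun j => repr_identity h hn hm hu hu2 hL hf0 hfc x (inv_pos.2 (hp j)) (hp j)
  have hb : ∀ j, ∀ᵐ y, 0 ≤ F j y ∧ F j y ≤ d * (K m x y * f y) := fun j => by
    filter_upwards [repr_ae_ne hn hm x, repr_ae_ne hn hm 0] with y h1 h2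
    have := repr_G_bounds h hm0 h1 (inv_pos.2 (hp j)) (hle j)
    refine ⟨mul_nonneg this.1 (hf0 y h2), ?_⟩
    rw [← mul_assoc]
    exact mul_le_mul_of_nonneg_right this.2 (hf0 y h2)
  have hlim : ∀ᵐ y, Tendsto (fun j => F j y) atTop (𝓝 (d * (K m x y * f y))) := by
    filter_upwards [repr_ae_ne hn hm x] with y h1
    rw [← mul_assoc]
    exact (repr_G_tendsto h hm0 h1).mul_const _
  set κ := (∫ z : E, reprKE m ψ z) * u x with hκ
  have hFle : ∀ j, ∫ y, F j y ≤ κ := fun j => by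
    rw [(hF j).2]
    have h1 := repr_A_le h hn hm hu hu2 hL hf0 hfc x (inv_pos.2 (hp j))
    have h2 := repr_A_nonneg (m := m) h hu0 x ((j : ℝ) + 1)
    linarith
  have hmeas : AEStronglyMeasurable (fun y => d * (K m x y * f y)) volume :=
    aestronglyMeasurable_of_tendsto_ae atTop (fun j => (hF j).1.aestronglyMeasurable) hlim
  have hint : Integrable (fun y => d * (K m x y * f y)) := by
    refine ⟨hmeas, ?_⟩
    have h1 := lintegral_liminf_le' (μ := (volume : Measure E)) (u := atTop)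
      (f := fun j y => ‖F j y‖ₑ) (fun j => (hF j).1.aestronglyMeasurable.enorm)
    have h2 : ∫⁻ y, ‖d * (K m x y * f y)‖ₑ = ∫⁻ y, liminf (fun j => ‖F j y‖ₑ) atTop := by
      refine lintegral_congr_ae ?_
      filter_upwards [hlim] with y hy
      exact hy.enorm.liminf_eq.symm
    have h3 : liminf (fun j => ∫⁻ y, ‖F j y‖ₑ) atTop ≤ ENNReal.ofReal κ := by
      refine liminf_le_of_frequently_le' (Frequently.of_forall fun j => ?_)
      rw [← ofReal_integral_norm_eq_lintegral_enorm (hF j).1]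
      refine ENNReal.ofReal_le_ofReal (le_trans (le_of_eq ?_) (hFle j))
      refine integral_congr_ae ?_
      filter_upwards [hb j] with y hy
      exact Real.norm_of_nonneg hy.1
    exact (h2.le.trans (h1.trans h3)).trans_lt ENNReal.ofReal_lt_top
  have hint' : Integrable (fun y => K m x y * f y) := by
    have := hint.const_mul d⁻¹
    simpa [← mul_assoc, inv_mul_cancel₀ hd.ne'] using this
  refine ⟨hint', ?_⟩
  have t1 : Tendsto (fun j => ∫ y, F j y) atTop (𝓝 (∫ y, d * (K m x y * f y))) :=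
    tendsto_integral_of_dominated_convergence _ (fun j => (hF j).1.aestronglyMeasurable) hint
      (fun j => by
        filter_upwards [hb j] with y hy
        rw [Real.norm_of_nonneg hy.1]
        exact hy.2) hlim
  rw [integral_const_mul] at t1
  have t2 : Tendsto (fun j : ℕ => reprA m ψ u x ((j : ℝ) + 1)⁻¹) atTop (𝓝 κ) := by
    rw [hκ, ← repr_A_zero]
    exact ((repr_A_continuous h hm0 hu x).tendsto 0).comp (tendsto_inv_atTop_zero.comp
      (tendsto_atTop_add_const_right _ _ tendsto_natCast_atTop_atTop))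
  refine (t2.sub t1).congr fun j => ?_
  rw [(hF j).2]
  ring

end

/-- `u ≥ c K f`, and the remainder `u - c K f` is bounded by `C` times any value of `u`. -/
theorem riesz_repr {m : ℝ} (hn : (Module.finrank ℝ E : ℝ) = 2 * m + 2) (hm : 1 / 2 ≤ m) :
    ∃ c C : ℝ, 0 < c ∧ ∀ u f : E → ℝ, Continuous u → (∀ x, 0 ≤ u x) →
      ContDiffOn ℝ 2 u {0}ᶜ → (∀ x, x ≠ 0 → -(Δ u) x = f x) → (∀ x, x ≠ 0 → 0 ≤ f x) →
      ContinuousOn f {0}ᶜ →
      ∀ x, x ≠ 0 → Integrable (fun y => K m x y * f y) ∧ c * ∫ y, K m x y * f y ≤ u x ∧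
        ∀ x', x' ≠ 0 → u x - c * ∫ y, K m x y * f y ≤ C * u x' := by
  have hm0 : 0 < m := by linarith
  obtain ⟨a', b', C, ha', hab', hC, hcmp⟩ := repr_K_compare hm
  obtain ⟨d, e, Ψ, G, hd, h⟩ := repr_tent_prof (a := 1) (b := 2) one_pos (by norm_num)
  obtain ⟨d', e', Ψ', G', -, h'⟩ := repr_tent_prof ha' hab'
  set κ := ∫ z : E, reprKE m (reprTent 1 2) z with hκ
  set κ' := ∫ z : E, reprKE m (reprTent a' b') z with hκ'
  have hκpos : 0 < κ := by
    have : Nontrivial E := Module.nontrivial_of_finrank_pos (R := ℝ)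
      (by have := repr_three_le hn hm; omega)
    have p : 0 < (3 / 2 : ℝ) ^ (-m)⁻¹ := Real.rpow_pos_of_pos (by norm_num) _
    obtain ⟨z, hz⟩ := exists_norm_eq E (Real.sqrt_nonneg ((3 / 2 : ℝ) ^ (-m)⁻¹))
    refine (repr_KE_continuous h hm0).integral_pos_of_hasCompactSupport_nonneg_nonzero
      (repr_KE_compact h hm0) (repr_KE_nonneg h) (x := z) ?_
    simp only [reprKE, reprK, div_one]
    rw [hz, Real.sq_sqrt p.le, Real.rpow_inv_rpow (by norm_num) (by linarith)]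
    have : reprTent 1 2 (3 / 2) = 1 / 2 := by norm_num [reprTent]
    rw [this]
    have := Real.rpow_pos_of_pos p (-(2 * m) - 1)
    positivity
  refine ⟨d / κ, C * κ' / κ, by positivity, fun u f hu hu0 hu2 hL hf0 hfc x _ => ?_⟩
  obtain ⟨hint, hlim⟩ := repr_limit h hd hn hm hu hu0 hu2 hL hf0 hfc x
  have e1 : u x - d / κ * ∫ y, K m x y * f y = (κ * u x - d * ∫ y, K m x y * f y) / κ := by
    field_simp
  refine ⟨hint, ?_, fun x' _ => ?_⟩
  · have := ge_of_tendsto' hlim fun j => repr_A_nonneg (m := m) h hu0 x _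
    rw [← sub_nonneg, e1]
    positivity
  · have key : κ * u x - d * ∫ y, K m x y * f y ≤ C * (κ' * u x') := by
      refine le_of_tendsto hlim ?_
      filter_upwards [(tendsto_atTop_add_const_right _ (1 : ℝ)
        tendsto_natCast_atTop_atTop).eventually_ge_atTop (4 * ‖x - x'‖)] with j hj
      have hR : (0 : ℝ) < (j : ℝ) + 1 := by positivity
      set R := (j : ℝ) + 1 with hRdef
      have p1 : 0 < R ^ (2 * m + 2) := Real.rpow_pos_of_pos hR _
      have h1 : R ^ (2 * m + 2) * reprA m (reprTent 1 2) u x R ≤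
          C * (R ^ (2 * m + 2) * reprA m (reprTent a' b') u x' R) := by
        rw [← repr_integral_scaled hn u x hR, ← repr_integral_scaled hn u x' hR,
          ← integral_const_mul]
        refine integral_mono (repr_integrable_scaled h hm0 hu x hR)
          ((repr_integrable_scaled h' hm0 hu x' hR).const_mul _) fun y => ?_
        have h2 := hcmp ‖R⁻¹ • (y - x)‖ ‖R⁻¹ • (y - x')‖ (norm_nonneg _) (norm_nonneg _) (by
          refine (abs_norm_sub_norm_le _ _).trans ?_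
          rw [← smul_sub, show y - x - (y - x') = -(x - x') by abel, norm_smul, norm_neg,
            norm_inv, Real.norm_of_nonneg hR.le, inv_mul_le_iff₀ hR]
          linarith)
        have h3 := mul_le_mul_of_nonneg_left h2 (hu0 y)
        simp only [reprKE]
        linarith
      have h2 := repr_A_le h' hn hm hu hu2 hL hf0 hfc x' hR
      have h3 : reprA m (reprTent 1 2) u x R ≤ C * reprA m (reprTent a' b') u x' R := by
        refine le_of_mul_le_mul_left ?_ p1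
        linarith
      exact h3.trans (mul_le_mul_of_nonneg_left h2 hC)
    rw [e1, div_le_iff₀ hκpos]
    refine key.trans (le_of_eq ?_)
    field_simp

end Crest.Agent.R077
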