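import Crest.Agent.R077.Main
import Crest.Agent.R077.Bounds
import Crest.Agent.R077.Repr
import Crest.Agent.R077.DimTwo

/-! # Row 77: conclusion -/

set_option autoImplicit false
set_option linter.unusedSectionVars false

open MeasureTheory Metric Set Filter Topology
open scoped RealInnerProductSpace Pointwise
open Laplacian InnerProductSpace

namespace Crest.Agent.R077

variable {E : Type*} [NormedAddCommGroup E] [InnerProductSpace ℝ E]
  [FiniteDimensional ℝ E] [MeasurableSpace E] [BorelSpace E]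

theorem IntSol.false {m c₁ c₂ A B p q : ℝ} {u v : E → ℝ}
    (hn : (Module.finrank ℝ E : ℝ) = 2 * m + 2) (hm : 0 < m) (hc₁ : 0 < c₁) (hc₂ : 0 < c₂)
    (hp : 0 < p) (hq : 0 < q)
    (hsub : 2 * m < (2 * m + 2 + A) / (p + 1) + (2 * m + 2 + B) / (q + 1))
    (S : IntSol m c₁ c₂ A B p q u v) : False := by
  obtain ⟨hA, hB, hpq, -, -, hint, C, hC⟩ := S.toSuperSol.bounds hn hm hc₁ hc₂ hp hq
  obtain ⟨C₀, hC₀, hmain⟩ := main_ineq (E := E) hn hm hA hB hp hq hpq
  set ε := (2 * m + 2 + A) / (p + 1) + (2 * m + 2 + B) / (q + 1) - 2 * m with hε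
  have hε0 : 0 < ε := by rw [hε]; linarith
  set s := ((p + 1) * (B + 2) + (q + 1) * (A + 2)) / (p * q - 1) with hs
  have hγ : 0 < s - 2 * m := by
    have h1 : 0 < p * q - 1 := by linarith
    have e : (s - 2 * m) * (p * q - 1) = ε * ((p + 1) * (q + 1)) := by
      rw [hs, hε]; field_simp; ring
    have : 0 < (s - 2 * m) * (p * q - 1) := by rw [e]; positivity
    exact (mul_pos_iff_of_pos_right h1).1 this
  set En := energy c₁ c₂ A B p q u v with hEn
  have hmono : ∀ r R, r ≤ R → En r ≤ En R := fun r R h =>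
    add_le_add (energy_part_mono hn hm hc₂.le hB hq.le S.cu (fun x => (S.pu x).le) h)
      (energy_part_mono hn hm hc₁.le hA hp.le S.cv (fun x => (S.pv x).le) h)
  have hpos : ∀ R, 0 < R → 0 < En R := fun R hR =>
    add_pos (energy_part_pos hn hm hc₂ hB hq.le S.cu S.pu hR)
      (energy_part_pos hn hm hc₁ hA hp.le S.cv S.pv hR)
  set C' := max C 0 with hC'
  have hC'0 : 0 ≤ C' := le_max_right _ _
  -- the scaled inequality
  have hR : ∀ R δ : ℝ, 0 < R → 0 < δ → δ < 1 →
      ε * En R ≤ C₀ * (En R - En (R * (1 - δ))) +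
        C₀ * δ ^ (-(2 * m)) * (C' * R ^ (-(s - 2 * m))) := by
    intro R δ hR hδ hδ1
    have h := hmain _ _ _ _ (mul_pos hc₁ (Real.rpow_pos_of_pos hR _))
      (mul_pos hc₂ (Real.rpow_pos_of_pos hR _)) (S.scale hn hR)
      (mass_integrable_scale v hR (hint R hR).1) (mass_integrable_scale u hR (hint R hR).2)
      δ hδ hδ1
    rw [energy_scale hn u v hR, energy_scale hn u v hR, mass_scale hn v hR, mass_scale hn u hR,
      mul_one, ← hEn] at h
    have h2 : mass m (src c₁ A p v) R * mass m (src c₂ B q u) R ≤ C' * R ^ (-s) :=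
      (hC R hR).trans (mul_le_mul_of_nonneg_right (le_max_left _ _) (Real.rpow_nonneg hR.le _))
    have h3 := mul_le_mul_of_nonneg_left h2
      (mul_nonneg hC₀.le (Real.rpow_nonneg hδ.le (-(2 * m))))
    have h4 : 0 < R ^ (2 * m) := Real.rpow_pos_of_pos hR _
    have e1 : R ^ (-(s - 2 * m)) = R ^ (2 * m) * R ^ (-s) := by
      rw [← Real.rpow_add hR]; congr 1; ring
    have e2 : R ^ (2 * m) * R ^ (-(2 * m)) = 1 := by
      rw [← Real.rpow_add hR]; simp
    have h5 := mul_le_mul_of_nonneg_left (h.trans (add_le_add le_rfl h3)) h4.le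
    rw [e1]
    calc ε * En R = R ^ (2 * m) * (ε * (R ^ (-(2 * m)) * En R)) := by
          rw [mul_left_comm, ← mul_assoc (R ^ (2 * m)), e2, one_mul]
      _ ≤ _ := h5
      _ = (R ^ (2 * m) * R ^ (-(2 * m))) * (C₀ * (En R - En (R * (1 - δ)))) +
          C₀ * δ ^ (-(2 * m)) * (C' * (R ^ (2 * m) * R ^ (-s))) := by ring
      _ = _ := by rw [e2, one_mul]
  set θ := max (1 - ε / C₀) 0 with hθ
  obtain ⟨C₁, hC₁⟩ := hole_filling (θ := θ) (κ := 2 * m) (le_max_right _ _)
    (max_lt (by have := div_pos hε0 hC₀; linarith) one_pos) (by linarith)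
  have hΛ : ∀ Λ : ℝ, 1 ≤ Λ →
      En 1 ≤ C₁ * (2 ^ (2 * m) * C' * Λ ^ (-(s - 2 * m))) := by
    intro Λ hΛ
    have hΛ0 : 0 < Λ := by linarith
    have h := hC₁ (fun t => En (Λ * (1 + t))) (2 ^ (2 * m) * C' * Λ ^ (-(s - 2 * m))) (En (Λ * 2))
      (by positivity) (fun t ht => hmono _ _ (by nlinarith [ht.2])) ?_
    · refine le_trans (hmono _ _ (by linarith)) h
    intro t r ht htr hr
    have hδ : 0 < (r - t) / (1 + r) := div_pos (by linarith) (by linarith)
    have hδ1 : (r - t) / (1 + r) < 1 := (div_lt_one (by linarith)).2 (by linarith)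
    have hR0 : 0 < Λ * (1 + r) := mul_pos hΛ0 (by linarith)
    have h1 := hR (Λ * (1 + r)) _ hR0 hδ hδ1
    have e : Λ * (1 + r) * (1 - (r - t) / (1 + r)) = Λ * (1 + t) := by
      have : 1 + r ≠ 0 := by linarith
      field_simp; ring
    rw [e] at h1
    have h2 : ((r - t) / (1 + r)) ^ (-(2 * m)) ≤ 2 ^ (2 * m) * (r - t) ^ (-(2 * m)) := by
      calc ((r - t) / (1 + r)) ^ (-(2 * m)) ≤ ((r - t) / 2) ^ (-(2 * m)) := by
            apply Real.rpow_le_rpow_of_nonpos (by linarith) _ (by linarith)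
            apply div_le_div_of_nonneg_left <;> linarith
        _ = _ := by
            rw [Real.div_rpow (by linarith) (by norm_num), Real.rpow_neg (by norm_num : (0:ℝ) ≤ 2)]
            field_simp
    have h3 : (Λ * (1 + r)) ^ (-(s - 2 * m)) ≤ Λ ^ (-(s - 2 * m)) :=
      Real.rpow_le_rpow_of_nonpos hΛ0 (by nlinarith) (by linarith)
    have h4 : ((r - t) / (1 + r)) ^ (-(2 * m)) * (C' * (Λ * (1 + r)) ^ (-(s - 2 * m))) ≤
        2 ^ (2 * m) * (r - t) ^ (-(2 * m)) * (C' * Λ ^ (-(s - 2 * m))) :=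
      mul_le_mul h2 (mul_le_mul_of_nonneg_left h3 hC'0) (by positivity)
        (mul_nonneg (by positivity) (Real.rpow_nonneg (by linarith) _))
    have h5 : (1 - ε / C₀) * En (Λ * (1 + r)) ≤ θ * En (Λ * (1 + r)) :=
      mul_le_mul_of_nonneg_right (le_max_left _ _) (hpos _ hR0).le
    have h6 : En (Λ * (1 + t)) ≤ (1 - ε / C₀) * En (Λ * (1 + r)) +
        ((r - t) / (1 + r)) ^ (-(2 * m)) * (C' * (Λ * (1 + r)) ^ (-(s - 2 * m))) := by
      apply le_of_mul_le_mul_left _ hC₀
      have e3 : C₀ * ((1 - ε / C₀) * En (Λ * (1 + r)) +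
          ((r - t) / (1 + r)) ^ (-(2 * m)) * (C' * (Λ * (1 + r)) ^ (-(s - 2 * m)))) =
          C₀ * En (Λ * (1 + r)) - ε * En (Λ * (1 + r)) +
          C₀ * ((r - t) / (1 + r)) ^ (-(2 * m)) * (C' * (Λ * (1 + r)) ^ (-(s - 2 * m))) := by
        field_simp
      rw [e3]; linarith
    calc En (Λ * (1 + t)) ≤ _ := h6
      _ ≤ θ * En (Λ * (1 + r)) +
        2 ^ (2 * m) * (r - t) ^ (-(2 * m)) * (C' * Λ ^ (-(s - 2 * m))) := add_le_add h5 h4
      _ = _ := by ring
  have hlim : Tendsto (fun Λ : ℝ => C₁ * (2 ^ (2 * m) * C' * Λ ^ (-(s - 2 * m)))) atTop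
      (𝓝 (C₁ * (2 ^ (2 * m) * C' * 0))) :=
    ((tendsto_rpow_neg_atTop hγ).const_mul _).const_mul _
  have := ge_of_tendsto hlim ((eventually_ge_atTop 1).mono hΛ)
  have h1 := hpos 1 one_pos
  simp at this
  linarith

theorem nonexistence (hn : 2 ≤ Module.finrank ℝ E) (p q A B : ℝ) (hp : 0 < p) (hq : 0 < q)
    (hsub : (Module.finrank ℝ E : ℝ) - 2 <
      ((Module.finrank ℝ E : ℝ) + A) / (p + 1) + ((Module.finrank ℝ E : ℝ) + B) / (q + 1))
    (u v : E → ℝ) (hu : Continuous u) (hv : Continuous v) (hu2 : ContDiffOn ℝ 2 u {0}ᶜ)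
    (hv2 : ContDiffOn ℝ 2 v {0}ᶜ) (hu0 : ∀ x, 0 < u x) (hv0 : ∀ x, 0 < v x)
    (hL : ∀ x, x ≠ 0 → -(Δ u) x = ‖x‖ ^ A * v x ^ p ∧ -(Δ v) x = ‖x‖ ^ B * u x ^ q) : False := by
  have hLu : ∀ x, x ≠ 0 → -(Δ u) x = src 1 A p v x := fun x hx => by
    simp only [src, one_mul]; exact (hL x hx).1
  have hLv : ∀ x, x ≠ 0 → -(Δ v) x = src 1 B q u x := fun x hx => by
    simp only [src, one_mul]; exact (hL x hx).2
  rcases hn.eq_or_lt with h2 | h3
  · exact dim_two h2.symm u _ hu (fun x => (hu0 x).le) hu2 hLu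
      (fun x hx => src_pos one_pos hx (hv0 x)) (continuousOn_src hv hp.le)
  set m : ℝ := ((Module.finrank ℝ E : ℝ) - 2) / 2 with hmdef
  have hn' : (Module.finrank ℝ E : ℝ) = 2 * m + 2 := by rw [hmdef]; ring
  have h3' : (3 : ℝ) ≤ Module.finrank ℝ E := by exact_mod_cast h3
  have hm : 1 / 2 ≤ m := by rw [hmdef]; linarith
  obtain ⟨c, C, hc, hrep⟩ := riesz_repr (E := E) hn' hm
  have h1 := hrep u _ hu (fun x => (hu0 x).le) hu2 hLu
    (fun x _ => src_nonneg zero_le_one (hv0 x).le) (continuousOn_src hv hp.le)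
  have h2 := hrep v _ hv (fun x => (hv0 x).le) hv2 hLv
    (fun x _ => src_nonneg zero_le_one (hu0 x).le) (continuousOn_src hu hq.le)
  have e : ∀ (A p : ℝ) (v : E → ℝ) (x y : E),
      K m x y * src c A p v y = c * (K m x y * src 1 A p v y) := by
    intro A p v x y; simp only [src]; ring
  have S : SuperSol m c c A B p q u v :=
    { cu := hu, cv := hv, pu := hu0, pv := hv0
      iu := fun x hx => by simp only [e]; exact (h1 x hx).1.const_mul _
      iv := fun x hx => by simp only [e]; exact (h2 x hx).1.const_mul _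
      lu := fun x hx => by simp only [e]; rw [integral_const_mul]; exact (h1 x hx).2.1
      lv := fun x hx => by simp only [e]; rw [integral_const_mul]; exact (h2 x hx).2.1 }
  obtain ⟨-, -, -, hiu, hiv, -⟩ := S.bounds hn' (by linarith) hc hc hp hq
  have key : ∀ (w : E → ℝ) (a : ℝ), (∀ x, 0 < w x) → (∀ μ : ℝ, 0 < μ → ∃ x, x ≠ 0 ∧ w x < μ) →
      (∀ x', x' ≠ 0 → a ≤ C * w x') → a ≤ 0 := by
    intro w a hw h h'
    by_contra ha
    push Not at ha
    obtain ⟨x, hx, hx'⟩ := h (a / (|C| + 1)) (by positivity)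
    have h3 := h' x hx
    have h4 : C * w x ≤ |C| * w x := mul_le_mul_of_nonneg_right (le_abs_self C) (hw x).le
    rw [lt_div_iff₀ (by positivity)] at hx'
    have := hw x
    nlinarith
  have S' : IntSol m c c A B p q u v :=
    { S with
      eu := fun x hx => by
        refine le_antisymm ?_ (S.lu x hx)
        simp only [e]; rw [integral_const_mul]
        have := key u _ hu0 hiu (h1 x hx).2.2
        linarith
      ev := fun x hx => by
        refine le_antisymm ?_ (S.lv x hx)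
        simp only [e]; rw [integral_const_mul]
        have := key v _ hv0 hiv (h2 x hx).2.2
        linarith }
  refine S'.false hn' (by linarith) hc hc hp hq ?_
  rw [← hn']
  have : 2 * m = (Module.finrank ℝ E : ℝ) - 2 := by rw [hn']; ring
  rw [this]; exact hsub

end Crest.Agent.R077
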