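import Crest.Agent.R077.Defs

/-! # Row 77: Green identity, radial Laplacian, removal of the origin -/

set_option autoImplicit false

open MeasureTheory Metric Set Filter Topology
open scoped RealInnerProductSpace
open Laplacian InnerProductSpace

namespace Crest.Agent.R077

variable {E : Type*} [NormedAddCommGroup E] [InnerProductSpace ℝ E]
  [FiniteDimensional ℝ E] [MeasurableSpace E] [BorelSpace E]

omit [MeasurableSpace E] [BorelSpace E] in
theorem green_lap_eq {f : E → ℝ} {x : E} (hf : ContDiffAt ℝ 2 f x) :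
    (Δ f) x = ∑ i, fderiv ℝ (fun z => fderiv ℝ f z (stdOrthonormalBasis ℝ E i)) x
      (stdOrthonormalBasis ℝ E i) := by
  rw [laplacian_eq_iteratedFDeriv_stdOrthonormalBasis]
  refine Finset.sum_congr rfl fun i _ => ?_
  have hd : DifferentiableAt ℝ (fderiv ℝ f) x :=
    (hf.fderiv_right (m := 1) (by norm_num)).differentiableAt (by norm_num)
  rw [iteratedFDeriv_two_apply, fderiv_clm_apply hd (differentiableAt_const _)]
  simp

omit [FiniteDimensional ℝ E] [MeasurableSpace E] [BorelSpace E] in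
theorem green_contDiffAt_pd {f : E → ℝ} {x : E} (hf : ContDiffAt ℝ 2 f x) (v : E) :
    ContDiffAt ℝ 1 (fun z => fderiv ℝ f z v) x :=
  (hf.fderiv_right (m := 1) (by norm_num)).clm_apply contDiffAt_const

omit [FiniteDimensional ℝ E] [MeasurableSpace E] [BorelSpace E] in
theorem green_continuousAt_pd {f : E → ℝ} {x : E} (hf : ContDiffAt ℝ 1 f x) (v : E) :
    ContinuousAt (fun z => fderiv ℝ f z v) x :=
  ((hf.fderiv_right (m := 0) (by norm_num)).clm_apply contDiffAt_const).continuousAt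

theorem green_integrable {a b : E → ℝ} {S : Set E} (hS : IsCompact S)
    (ha : ContinuousOn a S) (hb : Continuous b) (hbS : tsupport b ⊆ S) :
    Integrable (fun y => a y * b y) := by
  refine (integrableOn_iff_integrable_of_support_subset (s := S) ?_).1
    ((ha.mul hb.continuousOn).integrableOn_compact hS)
  intro y hy
  exact hbS (subset_tsupport _ (right_ne_zero_of_mul hy))

theorem green_dir (u φ : E → ℝ) (hu : ContDiffOn ℝ 2 u {0}ᶜ) (hφ : ContDiff ℝ 2 φ)
    (hc : HasCompactSupport φ) (h0 : tsupport φ ⊆ {0}ᶜ) (v : E) :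
    Integrable (fun y => u y * fderiv ℝ (fun z => fderiv ℝ φ z v) y v) ∧
    Integrable (fun y => fderiv ℝ (fun z => fderiv ℝ u z v) y v * φ y) ∧
    ∫ y, u y * fderiv ℝ (fun z => fderiv ℝ φ z v) y v =
      ∫ y, fderiv ℝ (fun z => fderiv ℝ u z v) y v * φ y := by
  have hua : ∀ x ∈ tsupport φ, ContDiffAt ℝ 2 u x := fun x hx =>
    hu.contDiffAt (isOpen_compl_singleton.mem_nhds (h0 hx))
  have c1 : ContDiff ℝ 1 (fun z => fderiv ℝ φ z v) :=
    contDiff_iff_contDiffAt.2 fun x => green_contDiffAt_pd hφ.contDiffAt v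
  have c2 : Continuous (fun y => fderiv ℝ (fun z => fderiv ℝ φ z v) y v) :=
    continuous_iff_continuousAt.2 fun x => green_continuousAt_pd c1.contDiffAt v
  have s1 : tsupport (fun z => fderiv ℝ φ z v) ⊆ tsupport φ := tsupport_fderiv_apply_subset ℝ v
  have s2 : tsupport (fun y => fderiv ℝ (fun z => fderiv ℝ φ z v) y v) ⊆ tsupport φ :=
    (tsupport_fderiv_apply_subset ℝ v).trans s1
  have u0 : ContinuousOn u (tsupport φ) := fun x hx => (hua x hx).continuousAt.continuousWithinAt
  have u1 : ContinuousOn (fun z => fderiv ℝ u z v) (tsupport φ) := fun x hx =>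
    (green_contDiffAt_pd (hua x hx) v).continuousAt.continuousWithinAt
  have u2 : ContinuousOn (fun y => fderiv ℝ (fun z => fderiv ℝ u z v) y v) (tsupport φ) :=
    fun x hx => (green_continuousAt_pd (green_contDiffAt_pd (hua x hx) v) v).continuousWithinAt
  have I1 := green_integrable hc u0 c2 s2
  have I2 := green_integrable hc u1 c1.continuous s1
  have I3 := green_integrable hc u2 hφ.continuous subset_rfl
  refine ⟨I1, I3, ?_⟩
  have e1 := integral_mul_fderiv_eq_neg_fderiv_mul_of_integrable (μ := volume) (f := u)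
    (g := fun z => fderiv ℝ φ z v) (v := v) I2 I1 (green_integrable hc u0 c1.continuous s1)
    (fun x hx => (hua x (s1 hx)).differentiableAt (by norm_num))
    (fun x _ => c1.differentiable (by norm_num) x)
  have e2 := integral_mul_fderiv_eq_neg_fderiv_mul_of_integrable (μ := volume)
    (f := fun z => fderiv ℝ u z v) (g := φ) (v := v) I3 I2
    (green_integrable hc u1 hφ.continuous subset_rfl)
    (fun x hx => (green_contDiffAt_pd (hua x hx) v).differentiableAt (by norm_num))
    (fun x _ => hφ.differentiable (by norm_num) x)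
  rw [e1, e2, neg_neg]

/-- G1. Green's second identity against a test function supported away from the origin. -/
theorem green (u φ : E → ℝ) (hu : ContDiffOn ℝ 2 u {0}ᶜ) (hφ : ContDiff ℝ 2 φ)
    (hc : HasCompactSupport φ) (h0 : tsupport φ ⊆ {0}ᶜ) :
    ∫ y, u y * (Δ φ) y = ∫ y, φ y * (Δ u) y := by
  have e1 : ∀ y, u y * (Δ φ) y = ∑ i, u y * fderiv ℝ (fun z => fderiv ℝ φ z
      (stdOrthonormalBasis ℝ E i)) y (stdOrthonormalBasis ℝ E i) := fun y => by
    rw [green_lap_eq hφ.contDiffAt, Finset.mul_sum]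
  have e2 : ∀ y, φ y * (Δ u) y = ∑ i, fderiv ℝ (fun z => fderiv ℝ u z
      (stdOrthonormalBasis ℝ E i)) y (stdOrthonormalBasis ℝ E i) * φ y := fun y => by
    by_cases hy : y ∈ tsupport φ
    · rw [green_lap_eq (hu.contDiffAt (isOpen_compl_singleton.mem_nhds (h0 hy))), mul_comm,
        Finset.sum_mul]
    · simp [image_eq_zero_of_notMem_tsupport hy]
  simp_rw [e1, e2]
  rw [integral_finsetSum _ fun i _ => (green_dir u φ hu hφ hc h0 _).1,
    integral_finsetSum _ fun i _ => (green_dir u φ hu hφ hc h0 _).2.1]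
  exact Finset.sum_congr rfl fun i _ => (green_dir u φ hu hφ hc h0 _).2.2

omit [MeasurableSpace E] [BorelSpace E] in
/-- G2. Laplacian of a radial function. -/
theorem laplacian_radial (φ : ℝ → ℝ) (x y : E) (hφ : ContDiffAt ℝ 2 φ (‖y - x‖ ^ 2)) :
    (Δ (fun z : E => φ (‖z - x‖ ^ 2))) y =
      4 * ‖y - x‖ ^ 2 * deriv (deriv φ) (‖y - x‖ ^ 2) +
        2 * (Module.finrank ℝ E : ℝ) * deriv φ (‖y - x‖ ^ 2) := by
  have hq : ∀ z : E, HasFDerivAt (fun z : E => ‖z - x‖ ^ 2) (2 • innerSL ℝ (z - x)) z := by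
    intro z
    simpa using ((hasFDerivAt_id z).sub_const x).norm_sq
  have hqc : ContDiff ℝ 2 (fun z : E => ‖z - x‖ ^ 2) :=
    (contDiff_id.sub contDiff_const).norm_sq ℝ
  have hcomp : ContDiffAt ℝ 2 (fun z : E => φ (‖z - x‖ ^ 2)) y :=
    ContDiffAt.comp (g := φ) (f := fun z : E => ‖z - x‖ ^ 2) y hφ hqc.contDiffAt
  have hev : ∀ᶠ z in 𝓝 y, DifferentiableAt ℝ φ (‖z - x‖ ^ 2) := by
    have h1 : ∀ᶠ s in 𝓝 (‖y - x‖ ^ 2), DifferentiableAt ℝ φ s :=
      (hφ.eventually (by simp)).mono fun s hs => hs.differentiableAt (by norm_num)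
    exact hqc.continuous.continuousAt.eventually h1
  have hd : HasDerivAt (deriv φ) (deriv (deriv φ) (‖y - x‖ ^ 2)) (‖y - x‖ ^ 2) :=
    ((hφ.derivWithin (m := 1) (by norm_num)).differentiableAt (by norm_num)).hasDerivAt
  rw [green_lap_eq hcomp]
  have key : ∀ v : E, fderiv ℝ (fun z => fderiv ℝ (fun z : E => φ (‖z - x‖ ^ 2)) z v) y v =
      4 * ⟪y - x, v⟫ ^ 2 * deriv (deriv φ) (‖y - x‖ ^ 2) +
        2 * ⟪v, v⟫ * deriv φ (‖y - x‖ ^ 2) := by
    intro v
    have e : (fun z => fderiv ℝ (fun z : E => φ (‖z - x‖ ^ 2)) z v) =ᶠ[𝓝 y]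
        fun z => deriv φ (‖z - x‖ ^ 2) * (2 * ⟪v, z - x⟫) := by
      filter_upwards [hev] with z hz
      have := (hz.hasDerivAt.comp_hasFDerivAt z (hq z)).fderiv
      change fderiv ℝ (φ ∘ fun z : E => ‖z - x‖ ^ 2) z v = _
      rw [this]
      simp only [smul_apply, innerSL_apply_apply, smul_eq_mul, nsmul_eq_mul,
        real_inner_comm v (z - x), Nat.cast_ofNat]
    rw [e.fderiv_eq]
    have h1 := hd.comp_hasFDerivAt y (hq y)
    have h2 : HasFDerivAt (fun z : E => 2 * ⟪v, z - x⟫) ((2 : ℝ) • innerSL ℝ v) y := by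
      have := ((innerSL ℝ v).hasFDerivAt (x := y - x)).comp y ((hasFDerivAt_id y).sub_const x)
      simpa using this.const_mul (2 : ℝ)
    have h3 := (h1.mul h2).fderiv
    change fderiv ℝ ((deriv φ ∘ fun z : E => ‖z - x‖ ^ 2) * fun z : E => 2 * ⟪v, z - x⟫) y v = _
    rw [h3]
    simp only [add_apply, smul_apply, innerSL_apply_apply,
      smul_eq_mul, nsmul_eq_mul, real_inner_comm v (y - x), Nat.cast_ofNat, Function.comp_apply]
    ring
  simp_rw [key]
  rw [Finset.sum_add_distrib, ← Finset.sum_mul, ← Finset.sum_mul, ← Finset.mul_sum,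
    ← Finset.mul_sum, (stdOrthonormalBasis ℝ E).sum_sq_inner_left]
  simp

omit [MeasurableSpace E] [BorelSpace E] in
theorem green_abs_lap_le (g : E → ℝ) (y : E) :
    |(Δ g) y| ≤ (Module.finrank ℝ E : ℝ) * ‖iteratedFDeriv ℝ 2 g y‖ := by
  rw [laplacian_eq_iteratedFDeriv_stdOrthonormalBasis]
  refine (Finset.abs_sum_le_sum_abs _ _).trans ?_
  have : ∀ i, |iteratedFDeriv ℝ 2 g y ![stdOrthonormalBasis ℝ E i, stdOrthonormalBasis ℝ E i]| ≤
      ‖iteratedFDeriv ℝ 2 g y‖ := fun i => by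
    refine ((iteratedFDeriv ℝ 2 g y).le_opNorm _).trans (le_of_eq ?_)
    simp
  refine (Finset.sum_le_sum fun i _ => this i).trans (le_of_eq ?_)
  simp

omit [MeasurableSpace E] [BorelSpace E] in
theorem green_continuous_lap {g : E → ℝ} (hg : ContDiff ℝ 2 g) : Continuous (Δ g) := by
  rw [laplacian_eq_iteratedFDeriv_stdOrthonormalBasis]
  have := hg.continuous_iteratedFDeriv (m := 2) le_rfl
  fun_prop

omit [MeasurableSpace E] [BorelSpace E] in
theorem green_tsupport_lap (g : E → ℝ) : tsupport (Δ g) ⊆ tsupport g := by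
  refine closure_minimal ?_ (isClosed_tsupport g)
  intro y hy
  by_contra h
  have h1 : g =ᶠ[𝓝 y] fun _ => 0 := notMem_tsupport_iff_eventuallyEq.1 h
  have h2 := (laplacian_congr_nhds h1).self_of_nhds
  rw [laplacian_const] at h2
  exact hy h2

omit [FiniteDimensional ℝ E] [MeasurableSpace E] [BorelSpace E] in
theorem green_exists_bound {g : E → ℝ} (hg : ContDiff ℝ 2 g) (hc : HasCompactSupport g) :
    ∃ C : ℝ, 0 ≤ C ∧ ∀ i ≤ 2, ∀ y, ‖iteratedFDeriv ℝ i g y‖ ≤ C := by
  have h : ∀ i : ℕ, ∃ C : ℝ, i ≤ 2 → ∀ y, ‖iteratedFDeriv ℝ i g y‖ ≤ C := by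
    intro i
    by_cases hi : i ≤ 2
    · obtain ⟨C, hC⟩ := (hg.continuous_iteratedFDeriv (m := i)
        (by exact_mod_cast hi)).bounded_above_of_compact_support (hc.iteratedFDeriv i)
      exact ⟨C, fun _ => hC⟩
    · exact ⟨0, fun h => absurd h hi⟩
  choose C hC using h
  refine ⟨|C 0| + |C 1| + |C 2|, by positivity, fun i hi y => (hC i hi y).trans ?_⟩
  have := abs_nonneg (C 0)
  have := abs_nonneg (C 1)
  have := abs_nonneg (C 2)
  interval_cases i <;> linarith [le_abs_self (C 0), le_abs_self (C 1), le_abs_self (C 2)]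

/-- The fixed bump: one on the unit ball, zero outside the ball of radius two. -/
noncomputable def green_bump (E : Type*) [NormedAddCommGroup E] [InnerProductSpace ℝ E] :
    ContDiffBump (0 : E) := ⟨1, 2, one_pos, one_lt_two⟩

/-- The error term of the cutoff tends to zero. -/
theorem green_err (hn : 3 ≤ Module.finrank ℝ E) (u : E → ℝ) (hu : Continuous u)
    (φ : E → ℝ) (hφ : ContDiff ℝ 2 φ) (hc : HasCompactSupport φ) :
    Tendsto (fun k : ℕ => ∫ y, u y * (Δ (fun z => φ z * green_bump E (((k : ℝ) + 1) • z))) y)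
      atTop (𝓝 0) := by
  set η := green_bump E with hη
  have hηc : ContDiff ℝ 2 η := η.contDiff
  obtain ⟨A, hA0, hA⟩ := green_exists_bound hφ hc
  obtain ⟨B, hB0, hB⟩ := green_exists_bound hηc η.hasCompactSupport
  obtain ⟨M, hM⟩ := (isCompact_closedBall (0 : E) 2).exists_bound_of_continuousOn hu.continuousOn
  have hM0 : 0 ≤ M := (norm_nonneg _).trans (hM 0 (mem_closedBall_self (by norm_num)))
  set n := Module.finrank ℝ E with hn'
  set V := (volume : Measure E).real (ball 0 1) with hV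
  have hV0 : 0 ≤ V := measureReal_nonneg
  have bound : ∀ k : ℕ, ‖∫ y, u y * (Δ (fun z => φ z * η (((k : ℝ) + 1) • z))) y‖ ≤
      (M * (n * (4 * A * B)) * 2 ^ n * V) * (1 / ((k : ℝ) + 1)) := by
    intro k
    set a : ℝ := (k : ℝ) + 1 with ha
    have ha1 : 1 ≤ a := by rw [ha]; linarith [Nat.cast_nonneg (α := ℝ) k]
    have ha0 : 0 < a := by linarith
    have hηa : ContDiff ℝ 2 (fun z : E => η (a • z)) := hηc.comp (contDiff_const_smul a)
    have hD : ∀ i ≤ 2, ∀ y, ‖iteratedFDeriv ℝ i (fun z : E => η (a • z)) y‖ ≤ a ^ 2 * B := by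
      intro i hi y
      rw [iteratedFDeriv_comp_const_smul a (hηc.of_le (by exact_mod_cast hi))]
      simp only [norm_smul, Real.norm_eq_abs, abs_of_pos (pow_pos ha0 i)]
      exact mul_le_mul (pow_le_pow_right₀ ha1 hi) (hB i hi _) (norm_nonneg _) (by positivity)
    have hL : ∀ y, |(Δ (fun z => φ z * η (a • z))) y| ≤ n * (4 * A * (a ^ 2 * B)) := by
      intro y
      refine (green_abs_lap_le _ y).trans (mul_le_mul_of_nonneg_left ?_ (Nat.cast_nonneg _))
      refine (norm_iteratedFDeriv_mul_le hφ hηa y (n := 2) le_rfl).trans ?_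
      have t : ∀ i ≤ 2, ‖iteratedFDeriv ℝ i φ y‖ *
          ‖iteratedFDeriv ℝ (2 - i) (fun z : E => η (a • z)) y‖ ≤ A * (a ^ 2 * B) := fun i hi =>
        mul_le_mul (hA i hi y) (hD _ (Nat.sub_le _ _) y) (norm_nonneg _) hA0
      have t0 := t 0 (by norm_num)
      have t1 := t 1 (by norm_num)
      have t2 := t 2 (by norm_num)
      simp only [Finset.sum_range_succ, Finset.sum_range_zero] at t0 t1 t2 ⊢
      norm_num at t0 t1 t2 ⊢
      linarith
    have hs : ∀ y ∉ closedBall (0 : E) (2 / a), u y * (Δ (fun z => φ z * η (a • z))) y = 0 := by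
      intro y hy
      refine mul_eq_zero_of_right _ (image_eq_zero_of_notMem_tsupport fun h => hy ?_)
      refine closure_minimal ?_ isClosed_closedBall (green_tsupport_lap _ h)
      intro z hz
      have h1 : a • z ∈ Function.support η := right_ne_zero_of_mul hz
      rw [η.support_eq, mem_ball_zero_iff, norm_smul, Real.norm_of_nonneg ha0.le] at h1
      rw [mem_closedBall_zero_iff, le_div_iff₀ ha0, mul_comm]
      exact h1.le
    rw [← setIntegral_eq_integral_of_forall_compl_eq_zero hs]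
    refine (norm_setIntegral_le_of_norm_le_const (C := M * (n * (4 * A * (a ^ 2 * B))))
      measure_closedBall_lt_top fun y hy => ?_).trans ?_
    · rw [norm_mul]
      refine mul_le_mul (hM y (closedBall_subset_closedBall ?_ hy)) (hL y) (norm_nonneg _) hM0
      exact div_le_self (by norm_num) ha1
    · rw [Measure.real, Measure.addHaar_closedBall _ _ (by positivity), ENNReal.toReal_mul,
        ENNReal.toReal_ofReal (by positivity), ← Measure.real, ← hV, ← hn', div_pow]
      have h3 : a ^ 2 * (2 ^ n / a ^ n) ≤ 2 ^ n * (1 / a) := by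
        have h4 : a ^ 3 ≤ a ^ n := pow_le_pow_right₀ ha1 hn
        calc a ^ 2 * (2 ^ n / a ^ n) ≤ a ^ 2 * (2 ^ n / a ^ 3) := by gcongr
          _ = _ := by field_simp
      calc M * (n * (4 * A * (a ^ 2 * B))) * (2 ^ n / a ^ n * V)
          = M * (n * (4 * A * B)) * V * (a ^ 2 * (2 ^ n / a ^ n)) := by ring
        _ ≤ M * (n * (4 * A * B)) * V * (2 ^ n * (1 / a)) := by gcongr
        _ = _ := by ring
  refine squeeze_zero_norm bound ?_
  simpa using tendsto_one_div_add_atTop_nhds_zero_nat.const_mul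
    (M * (n * (4 * A * B)) * 2 ^ n * V)

theorem green_cut (hn : 3 ≤ Module.finrank ℝ E) (u f : E → ℝ) (hu : Continuous u)
    (hu2 : ContDiffOn ℝ 2 u {0}ᶜ) (hL : ∀ x, x ≠ 0 → -(Δ u) x = f x)
    (hfc : ContinuousOn f {0}ᶜ)
    (φ : E → ℝ) (hφ : ContDiff ℝ 2 φ) (hc : HasCompactSupport φ) :
    (∀ k : ℕ, Integrable (fun y => f y * (φ y - φ y * green_bump E (((k : ℝ) + 1) • y)))) ∧
    Tendsto (fun k : ℕ => ∫ y, f y * (φ y - φ y * green_bump E (((k : ℝ) + 1) • y)))
      atTop (𝓝 (-∫ y, u y * (Δ φ) y)) := by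
  set η := green_bump E with hη
  have hηc : ContDiff ℝ 2 η := η.contDiff
  have hk : ∀ k : ℕ, ContDiff ℝ 2 (fun y => φ y * η (((k : ℝ) + 1) • y)) := fun k =>
    hφ.mul (hηc.comp (contDiff_const_smul _))
  have hck : ∀ k : ℕ, HasCompactSupport (fun y => φ y * η (((k : ℝ) + 1) • y)) := fun k =>
    hc.mul_right
  have hc2 : ∀ k : ℕ, HasCompactSupport (fun y => φ y - φ y * η (((k : ℝ) + 1) • y)) := fun k =>
    hc.sub (hck k)
  have h0 : ∀ k : ℕ, tsupport (fun y => φ y - φ y * η (((k : ℝ) + 1) • y)) ⊆ {0}ᶜ := by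
    intro k y hy hy0
    rw [mem_singleton_iff.1 hy0] at hy
    refine absurd hy (notMem_tsupport_iff_eventuallyEq.2 ?_)
    have h1 : Tendsto (fun y : E => ((k : ℝ) + 1) • y) (𝓝 0) (𝓝 0) := by
      simpa using (continuous_const_smul ((k : ℝ) + 1)).tendsto (0 : E)
    filter_upwards [h1.eventually η.eventuallyEq_one] with z hz
    simp [hz]
  refine ⟨fun k => green_integrable (hc2 k) (hfc.mono (h0 k)) (hφ.sub (hk k)).continuous
    subset_rfl, ?_⟩
  have e : ∀ k : ℕ, ∫ y, f y * (φ y - φ y * η (((k : ℝ) + 1) • y)) =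
      -(∫ y, u y * (Δ φ) y) + ∫ y, u y * (Δ (fun z => φ z * η (((k : ℝ) + 1) • z))) y := by
    intro k
    have g := green u _ hu2 (hφ.sub (hk k)) (hc2 k) (h0 k)
    have I1 : Integrable (fun y => u y * (Δ φ) y) :=
      green_integrable hc hu.continuousOn (green_continuous_lap hφ) (green_tsupport_lap _)
    have I2 : Integrable (fun y => u y * (Δ (fun z => φ z * η (((k : ℝ) + 1) • z))) y) :=
      green_integrable (hck k) hu.continuousOn (green_continuous_lap (hk k)) (green_tsupport_lap _)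
    have e1 : ∀ y, u y * (Δ (fun y => φ y - φ y * η (((k : ℝ) + 1) • y))) y =
        u y * (Δ φ) y - u y * (Δ (fun z => φ z * η (((k : ℝ) + 1) • z))) y := fun y => by
      rw [← mul_sub, ← ContDiffAt.laplacian_sub hφ.contDiffAt (hk k).contDiffAt]
      rfl
    have e2 : ∀ y, (φ y - φ y * η (((k : ℝ) + 1) • y)) * (Δ u) y =
        -(f y * (φ y - φ y * η (((k : ℝ) + 1) • y))) := fun y => by
      by_cases hy : y = 0
      · have : φ y - φ y * η (((k : ℝ) + 1) • y) = 0 :=
          image_eq_zero_of_notMem_tsupport (f := fun y => φ y - φ y * η (((k : ℝ) + 1) • y))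
            fun h => h0 k h hy
        rw [this]; simp
      · rw [← hL y hy]; ring
    simp_rw [e1, e2] at g
    rw [integral_sub I1 I2, integral_neg] at g
    linarith
  simp_rw [e]
  simpa using (green_err hn u hu φ hφ hc).const_add (-(∫ y, u y * (Δ φ) y))

omit [MeasurableSpace E] [BorelSpace E] in
theorem green_cut_tendsto (f φ : E → ℝ) {y : E} (hy : y ≠ 0) :
    Tendsto (fun k : ℕ => f y * (φ y - φ y * green_bump E (((k : ℝ) + 1) • y))) atTop
      (𝓝 (f y * φ y)) := by
  refine tendsto_const_nhds.congr' ?_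
  have hy' : 0 < ‖y‖ := norm_pos_iff.2 hy
  obtain ⟨N, hN⟩ := exists_nat_ge (2 / ‖y‖)
  filter_upwards [eventually_ge_atTop N] with k hk
  have h1 : (green_bump E) (((k : ℝ) + 1) • y) = 0 := by
    refine (green_bump E).zero_of_le_dist ?_
    have h2 : (N : ℝ) ≤ k := by exact_mod_cast hk
    rw [dist_zero_right, norm_smul, Real.norm_of_nonneg (by positivity)]
    change 2 ≤ _
    rw [div_le_iff₀ hy'] at hN
    nlinarith
  rw [h1]; ring

/-- G3. In dimension at least 3 the equation holds weakly across the origin. -/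
theorem weak_form (hn : 3 ≤ Module.finrank ℝ E) (u f : E → ℝ) (hu : Continuous u)
    (hu2 : ContDiffOn ℝ 2 u {0}ᶜ) (hL : ∀ x, x ≠ 0 → -(Δ u) x = f x)
    (hf0 : ∀ x, x ≠ 0 → 0 ≤ f x) (hfc : ContinuousOn f {0}ᶜ)
    (φ : E → ℝ) (hφ : ContDiff ℝ 2 φ) (hc : HasCompactSupport φ) :
    Integrable (fun y => φ y * f y) ∧ ∫ y, φ y * f y = -∫ y, u y * (Δ φ) y := by
  have : Nontrivial E := Module.nontrivial_of_finrank_pos (R := ℝ) (by omega)
  have hae : ∀ᵐ y : E, y ≠ 0 := by simp [ae_iff]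
  -- a nonnegative bump dominating `φ`
  obtain ⟨R, hR⟩ := hc.isBounded.subset_closedBall (0 : E)
  let χ : ContDiffBump (0 : E) := ⟨|R| + 1, |R| + 2, by positivity, by linarith⟩
  obtain ⟨C, hC⟩ := hφ.continuous.bounded_above_of_compact_support hc
  have hφχ : ∀ y, ‖φ y‖ ≤ C * χ y := by
    intro y
    by_cases hy : y ∈ tsupport φ
    · rw [χ.one_of_mem_closedBall (closedBall_subset_closedBall
        ((le_abs_self R).trans (by change |R| ≤ |R| + 1; linarith)) (hR hy)), mul_one]
      exact hC y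
    · rw [image_eq_zero_of_notMem_tsupport hy, norm_zero]
      exact mul_nonneg ((norm_nonneg _).trans (hC y)) χ.nonneg
  obtain ⟨J1, J2⟩ := green_cut hn u f hu hu2 hL hfc χ χ.contDiff χ.hasCompactSupport
  have Iχ : Integrable (fun y => f y * χ y) := by
    have hm : AEStronglyMeasurable (fun y => f y * χ y) volume :=
      aestronglyMeasurable_of_tendsto_ae atTop (fun k => (J1 k).aestronglyMeasurable)
        (hae.mono fun y hy => green_cut_tendsto f χ hy)
    refine ⟨hm, ?_⟩
    have h1 : ∫⁻ y, ‖f y * χ y‖ₑ ≤ liminf (fun k : ℕ =>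
        ∫⁻ y, ‖f y * (χ y - χ y * green_bump E (((k : ℝ) + 1) • y))‖ₑ) atTop := by
      refine le_trans (le_of_eq (lintegral_congr_ae (hae.mono fun y hy => ?_)))
        (lintegral_liminf_le' fun k => (J1 k).aestronglyMeasurable.enorm)
      exact (green_cut_tendsto f χ hy).enorm.liminf_eq.symm
    have h2 : ∀ k : ℕ, ∫⁻ y, ‖f y * (χ y - χ y * green_bump E (((k : ℝ) + 1) • y))‖ₑ =
        ENNReal.ofReal (∫ y, f y * (χ y - χ y * green_bump E (((k : ℝ) + 1) • y))) := by
      intro k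
      have h3 : ∀ᵐ y : E, 0 ≤ f y * (χ y - χ y * green_bump E (((k : ℝ) + 1) • y)) :=
        hae.mono fun y hy => mul_nonneg (hf0 y hy)
          (sub_nonneg.2 (mul_le_of_le_one_right χ.nonneg (green_bump E).le_one))
      rw [ofReal_integral_eq_lintegral_ofReal (J1 k) h3]
      exact lintegral_congr_ae (h3.mono fun y hy => Real.enorm_of_nonneg hy)
    simp_rw [h2] at h1
    rw [(ENNReal.tendsto_ofReal J2).liminf_eq] at h1
    exact h1.trans_lt ENNReal.ofReal_lt_top
  obtain ⟨K1, K2⟩ := green_cut hn u f hu hu2 hL hfc φ hφ hc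
  have hb : ∀ k : ℕ, ∀ᵐ y : E, ‖f y * (φ y - φ y * green_bump E (((k : ℝ) + 1) • y))‖ ≤
      C * (f y * χ y) := fun k => hae.mono fun y hy => by
    have h1 : ‖φ y - φ y * green_bump E (((k : ℝ) + 1) • y)‖ ≤ ‖φ y‖ := by
      rw [← mul_one_sub, norm_mul]
      refine mul_le_of_le_one_right (norm_nonneg _) ?_
      rw [Real.norm_of_nonneg (sub_nonneg.2 (green_bump E).le_one)]
      linarith [(green_bump E).nonneg (x := ((k : ℝ) + 1) • y)]
    rw [norm_mul, Real.norm_of_nonneg (hf0 y hy)]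
    calc _ ≤ f y * (C * χ y) := mul_le_mul_of_nonneg_left (h1.trans (hφχ y)) (hf0 y hy)
      _ = _ := by ring
  have lim := tendsto_integral_of_dominated_convergence (fun y => C * (f y * χ y))
    (fun k => (K1 k).aestronglyMeasurable) (Iχ.const_mul C) hb
    (hae.mono fun y hy => green_cut_tendsto f φ hy)
  have hm : AEStronglyMeasurable (fun y => f y * φ y) volume :=
    aestronglyMeasurable_of_tendsto_ae atTop (fun k => (K1 k).aestronglyMeasurable)
      (hae.mono fun y hy => green_cut_tendsto f φ hy)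
  simp_rw [mul_comm (φ _) (f _)]
  refine ⟨(Iχ.const_mul C).mono' hm (hae.mono fun y hy => ?_), tendsto_nhds_unique lim K2⟩
  rw [norm_mul, Real.norm_of_nonneg (hf0 y hy)]
  calc _ ≤ f y * (C * χ y) := mul_le_mul_of_nonneg_left (hφχ y) (hf0 y hy)
    _ = _ := by ring

end Crest.Agent.R077
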