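import Crest.Agent.R077.Defs

/-! # Row 77: the Kelvin inversion, kernel algebra and change of variables -/

set_option autoImplicit false

open MeasureTheory Metric Set Filter Topology
open scoped RealInnerProductSpace

namespace Crest.Agent.R077

section algebra

variable {E : Type*} [NormedAddCommGroup E] [InnerProductSpace ℝ E]

theorem kinv_eq_inversion (y : E) : kinv y = EuclideanGeometry.inversion (0 : E) 1 y := by
  simp [kinv, EuclideanGeometry.inversion]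

theorem norm_kinv (y : E) : ‖kinv y‖ = ‖y‖⁻¹ := by
  by_cases hy : y = 0
  · simp [hy, kinv]
  have : ‖y‖ ≠ 0 := norm_ne_zero_iff.2 hy
  rw [kinv, norm_smul, norm_inv, norm_pow, norm_norm]
  field_simp

theorem kinv_kinv (y : E) : kinv (kinv y) = y := by
  rw [kinv_eq_inversion, kinv_eq_inversion, EuclideanGeometry.inversion_inversion _ one_ne_zero]

theorem kinv_ne_zero {y : E} (hy : y ≠ 0) : kinv y ≠ 0 := by
  intro h
  have := norm_kinv y
  rw [h, norm_zero] at this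
  exact hy (norm_eq_zero.1 (inv_eq_zero.1 this.symm))

theorem kinv_of_norm_eq_one {y : E} (hy : ‖y‖ = 1) : kinv y = y := by
  simp [kinv, hy]

theorem continuousAt_kinv {y : E} (hy : y ≠ 0) : ContinuousAt kinv y := by
  unfold kinv
  have : ‖y‖ ^ 2 ≠ 0 := pow_ne_zero _ (norm_ne_zero_iff.2 hy)
  fun_prop (disch := assumption)

theorem Qs_comm (x y : E) : Qs x y = Qs y x := by
  simp only [Qs, real_inner_comm]; ring

theorem Ks_comm (m : ℝ) (x y : E) : Ks m x y = Ks m y x := by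
  simp only [Ks, Qs_comm]

theorem Ds_comm (m : ℝ) (x y : E) : Ds m x y = Ds m y x := by
  simp only [Ds, Qs_comm x y]; ring

theorem K_comm (m : ℝ) (x y : E) : K m x y = K m y x := by
  simp only [K, norm_sub_rev]

theorem D_anti (m : ℝ) (x y : E) : D m y x = -D m x y := by
  simp only [D, norm_sub_rev y x]; ring

theorem K_nonneg (m : ℝ) (x y : E) : 0 ≤ K m x y := Real.rpow_nonneg (by positivity) _

theorem Qs_ge (x y : E) : (1 - ‖x‖ * ‖y‖) ^ 2 ≤ Qs x y := by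
  have := real_inner_le_norm x y
  simp only [Qs]; nlinarith

theorem Qs_nonneg (x y : E) : 0 ≤ Qs x y := le_trans (by positivity) (Qs_ge x y)

theorem Ks_nonneg (m : ℝ) (x y : E) : 0 ≤ Ks m x y := Real.rpow_nonneg (Qs_nonneg x y) _

theorem Qs_eq_sub (x y : E) : Qs x y = ‖x - y‖ ^ 2 + (1 - ‖x‖ ^ 2) * (1 - ‖y‖ ^ 2) := by
  rw [norm_sub_sq_real]; simp only [Qs]; ring

theorem Qs_pos {x y : E} (hx : ‖x‖ ≤ 1) (hy : ‖y‖ < 1) : 0 < Qs x y := by
  refine lt_of_lt_of_le ?_ (Qs_ge x y)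
  have : ‖x‖ * ‖y‖ < 1 := by
    have := norm_nonneg x
    have := norm_nonneg y
    nlinarith
  have : 0 < 1 - ‖x‖ * ‖y‖ := by linarith
  positivity

theorem Ks_pos (m : ℝ) {x y : E} (hx : ‖x‖ ≤ 1) (hy : ‖y‖ < 1) : 0 < Ks m x y :=
  Real.rpow_pos_of_pos (Qs_pos hx hy) _

theorem Ks_le_K {m : ℝ} (hm : 0 ≤ m) {x y : E} (hx : ‖x‖ ≤ 1) (hy : ‖y‖ ≤ 1) (hxy : x ≠ y) :
    Ks m x y ≤ K m x y := by
  have h1 : 0 < ‖x - y‖ ^ 2 := pow_pos (norm_pos_iff.2 (sub_ne_zero.2 hxy)) 2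
  have h2 : 0 ≤ (1 - ‖x‖ ^ 2) * (1 - ‖y‖ ^ 2) := by
    have := norm_nonneg x
    have := norm_nonneg y
    apply mul_nonneg <;> nlinarith
  apply Real.rpow_le_rpow_of_nonpos h1 _ (by linarith)
  rw [Qs_eq_sub]; linarith

theorem Ks_eq_K_of_norm_eq_one (m : ℝ) {x : E} (hx : ‖x‖ = 1) (y : E) : Ks m x y = K m x y := by
  simp only [Ks, K, Qs_eq_sub, hx]; simp

theorem Ds_nonneg {m : ℝ} (hm : 0 ≤ m) {x y : E} (hx : ‖x‖ ≤ 1) (hy : ‖y‖ ≤ 1) :
    0 ≤ Ds m x y := by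
  have h1 : ‖x‖ ^ 2 ≤ 1 := by have := norm_nonneg x; nlinarith
  have h2 : ‖y‖ ^ 2 ≤ 1 := by have := norm_nonneg y; nlinarith
  have h3 : 0 ≤ 1 - ‖x‖ ^ 2 * ‖y‖ ^ 2 := by
    have : ‖x‖ ^ 2 * ‖y‖ ^ 2 ≤ 1 := mul_le_one₀ h1 (by positivity) h2
    linarith
  exact mul_nonneg (mul_nonneg hm h3) (Real.rpow_nonneg (Qs_nonneg x y) _)

theorem Ks_le_of_norm_le {m δ : ℝ} (hm : 0 ≤ m) (hδ : 0 < δ) {x y : E} (hx : ‖x‖ ≤ 1 - δ)
    (hy : ‖y‖ ≤ 1) : Ks m x y ≤ δ ^ (-(2 * m)) := by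
  have h1 : δ ^ 2 ≤ Qs x y := by
    refine le_trans ?_ (Qs_ge x y)
    have hx0 := norm_nonneg x
    have hy0 := norm_nonneg y
    have : ‖x‖ * ‖y‖ ≤ 1 - δ := by nlinarith
    nlinarith
  calc Ks m x y ≤ (δ ^ 2) ^ (-m) := Real.rpow_le_rpow_of_nonpos (by positivity) h1 (by linarith)
    _ = δ ^ (-(2 * m)) := by
      rw [← Real.rpow_natCast, ← Real.rpow_mul hδ.le]; congr 1; push_cast; ring

theorem norm_sub_kinv_sq (z : E) {y : E} (hy : y ≠ 0) :
    ‖z - kinv y‖ ^ 2 = Qs z y / ‖y‖ ^ 2 := by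
  have : ‖y‖ ≠ 0 := norm_ne_zero_iff.2 hy
  rw [norm_sub_sq_real, norm_kinv, kinv, inner_smul_right, Qs]
  field_simp

theorem Qs_kinv {x : E} (hx : x ≠ 0) (y : E) : Qs (kinv x) y = ‖x - y‖ ^ 2 / ‖x‖ ^ 2 := by
  have : ‖x‖ ≠ 0 := norm_ne_zero_iff.2 hx
  rw [norm_sub_sq_real, Qs, norm_kinv, kinv, inner_smul_left]
  simp only [conj_trivial]
  field_simp
  ring

theorem K_kinv_right (m : ℝ) (z : E) {y : E} (hy : y ≠ 0) :
    K m z (kinv y) = Ks m z y * (‖y‖ ^ 2) ^ m := by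
  have h : 0 < ‖y‖ ^ 2 := pow_pos (norm_pos_iff.2 hy) 2
  rw [K, norm_sub_kinv_sq z hy, Real.div_rpow (Qs_nonneg z y) h.le, Ks, Real.rpow_neg h.le,
    div_inv_eq_mul]

theorem K_kinv_left (m : ℝ) {x : E} (hx : x ≠ 0) (y : E) :
    K m (kinv x) y = Ks m x y * (‖x‖ ^ 2) ^ m := by
  rw [K_comm, K_kinv_right m y hx, Ks_comm]

theorem Ks_kinv_left (m : ℝ) {x : E} (hx : x ≠ 0) (y : E) :
    Ks m (kinv x) y = K m x y * (‖x‖ ^ 2) ^ m := by
  have h : 0 < ‖x‖ ^ 2 := pow_pos (norm_pos_iff.2 hx) 2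
  rw [Ks, Qs_kinv hx, Real.div_rpow (by positivity) h.le, K, Real.rpow_neg h.le,
    div_inv_eq_mul]

theorem kinv_image_ball : kinv '' (ball (0 : E) 1 \ {0}) = (closedBall (0 : E) 1)ᶜ := by
  ext z
  simp only [mem_image, mem_diff, mem_ball_zero_iff, mem_singleton_iff, mem_compl_iff,
    mem_closedBall_zero_iff, not_le]
  constructor
  · rintro ⟨y, ⟨hy1, hy0⟩, rfl⟩
    rw [norm_kinv]
    exact (one_lt_inv₀ (norm_pos_iff.2 hy0)).2 hy1
  · intro hz
    have hz0 : z ≠ 0 := by rintro rfl; norm_num at hz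
    refine ⟨kinv z, ⟨?_, kinv_ne_zero hz0⟩, kinv_kinv z⟩
    rw [norm_kinv]
    exact inv_lt_one_of_one_lt₀ hz

end algebra

variable {E : Type*} [NormedAddCommGroup E] [InnerProductSpace ℝ E]
  [FiniteDimensional ℝ E]

theorem kinv_deriv {y : E} (hy : y ≠ 0) :
    ∃ L : E →L[ℝ] E, HasFDerivAt kinv L y ∧
      |L.det| = ((‖y‖ ^ 2) ^ (Module.finrank ℝ E))⁻¹ := by
  have h := EuclideanGeometry.hasFDerivAt_inversion (c := (0 : E)) (R := 1) hy
  refine ⟨_, by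
    have e : (kinv : E → E) = EuclideanGeometry.inversion (0 : E) 1 := funext kinv_eq_inversion
    rw [e]; exact h, ?_⟩
  rw [ContinuousLinearMap.det, ContinuousLinearMap.coe_smul, LinearMap.det_smul, abs_mul]
  have : |LinearMap.det
      (((ℝ ∙ (y - 0))ᗮ.reflection : E →L[ℝ] E) : E →ₗ[ℝ] E)| = 1 := by
    have := (ℝ ∙ (y - 0))ᗮ.det_reflection
    have e : (((ℝ ∙ (y - 0))ᗮ.reflection : E →L[ℝ] E) : E →ₗ[ℝ] E) =
        (ℝ ∙ (y - 0))ᗮ.reflection.toLinearMap := rfl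
    rw [e, this, abs_pow]; simp
  rw [this, mul_one, abs_of_nonneg (by positivity)]
  simp

variable [MeasurableSpace E] [BorelSpace E]

theorem measurable_kinv : Measurable (kinv : E → E) := by
  unfold kinv; fun_prop

theorem ball_diff_ae_eq [Nontrivial E] (R : ℝ) :
    (ball (0 : E) R \ {0} : Set E) =ᵐ[volume] (ball (0 : E) R : Set E) :=
  diff_null_ae_eq_self (by simp)

theorem kelvin_aux [Nontrivial E] :
    ∃ L : E → E →L[ℝ] E, (∀ y ∈ ball (0 : E) 1 \ {0}, HasFDerivWithinAt kinv (L y)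
      (ball (0 : E) 1 \ {0}) y) ∧
      ∀ y ∈ ball (0 : E) 1 \ {0}, |(L y).det| = ((‖y‖ ^ 2) ^ (Module.finrank ℝ E))⁻¹ := by
  classical
  refine ⟨fun y => if hy : y ≠ 0 then (kinv_deriv hy).choose else 0, ?_, ?_⟩
  · intro y hy
    have hy0 : y ≠ 0 := hy.2
    simp only [hy0, ne_eq, not_false_eq_true, dite_true]
    exact (kinv_deriv hy0).choose_spec.1.hasFDerivWithinAt
  · intro y hy
    have hy0 : y ≠ 0 := hy.2
    simp only [hy0, ne_eq, not_false_eq_true, dite_true]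
    exact (kinv_deriv hy0).choose_spec.2

theorem kelvin_integral [Nontrivial E] (φ : E → ℝ) :
    ∫ z in (closedBall (0 : E) 1)ᶜ, φ z =
      ∫ y in ball (0 : E) 1, ((‖y‖ ^ 2) ^ (Module.finrank ℝ E))⁻¹ * φ (kinv y) := by
  obtain ⟨L, hL, hdet⟩ := kelvin_aux (E := E)
  have hs : MeasurableSet (ball (0 : E) 1 \ {0}) :=
    measurableSet_ball.diff (measurableSet_singleton _)
  have hinj : InjOn (kinv : E → E) (ball (0 : E) 1 \ {0}) := fun a _ b _ hab => by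
    rw [← kinv_kinv a, hab, kinv_kinv]
  rw [← kinv_image_ball, integral_image_eq_integral_abs_det_fderiv_smul volume hs hL hinj,
    ← setIntegral_congr_set (ball_diff_ae_eq 1)]
  refine setIntegral_congr_fun hs fun y hy => ?_
  simp only [hdet y hy, smul_eq_mul]

theorem kelvin_integrableOn [Nontrivial E] (φ : E → ℝ) :
    IntegrableOn φ (closedBall (0 : E) 1)ᶜ ↔
      IntegrableOn (fun y => ((‖y‖ ^ 2) ^ (Module.finrank ℝ E))⁻¹ * φ (kinv y))
        (ball (0 : E) 1) := by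
  obtain ⟨L, hL, hdet⟩ := kelvin_aux (E := E)
  have hs : MeasurableSet (ball (0 : E) 1 \ {0}) :=
    measurableSet_ball.diff (measurableSet_singleton _)
  have hinj : InjOn (kinv : E → E) (ball (0 : E) 1 \ {0}) := fun a _ b _ hab => by
    rw [← kinv_kinv a, hab, kinv_kinv]
  rw [← kinv_image_ball, integrableOn_image_iff_integrableOn_abs_det_fderiv_smul volume hs hL hinj,
    ← integrableOn_congr_set_ae (ball_diff_ae_eq 1)]
  refine integrableOn_congr_fun (fun y hy => ?_) hs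
  simp only [hdet y hy, smul_eq_mul]

/-- Splitting an integral over the whole space into the unit ball and the exterior. -/
theorem integral_split [Nontrivial E] (φ : E → ℝ) (hφ : Integrable φ) :
    ∫ z, φ z = (∫ z in ball (0 : E) 1, φ z) + ∫ z in (closedBall (0 : E) 1)ᶜ, φ z := by
  rw [← integral_add_compl (s := closedBall (0 : E) 1) measurableSet_closedBall hφ]
  congr 1
  refine setIntegral_congr_set ?_
  rw [← ball_union_sphere]
  exact union_ae_eq_left_of_ae_eq_empty (ae_eq_empty.2 (Measure.addHaar_sphere volume _ _))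

end Crest.Agent.R077
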