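import Mathlib

/-! # Row 77: auxiliary lemmas for the monotone iteration / Schur test -/

set_option autoImplicit false

open MeasureTheory Set Filter Topology
open scoped ENNReal

namespace Crest.Agent.R077

section
variable {X : Type*} [MeasurableSpace X]

lemma stab_meas_row {G : X → X → ℝ} (hGm : Measurable (Function.uncurry G)) (x : X) :
    Measurable (G x) := hGm.comp measurable_prodMk_left

lemma stab_int_of_le {ν : Measure X} {Ω : Set X} (hΩ : ∀ᵐ y ∂ν, y ∈ Ω)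
    {g a V v : X → ℝ} (hg : Measurable g) (hg0 : ∀ y, 0 ≤ g y) (ham : Measurable a)
    (ha0 : ∀ x ∈ Ω, 0 ≤ a x) {p : ℝ} (hp : 0 < p)
    (hint : Integrable (fun y => g y * (a y * V y ^ p)) ν) (hv : Measurable v)
    (hvV : ∀ y ∈ Ω, 0 ≤ v y ∧ v y ≤ V y) :
    Integrable (fun y => g y * (a y * v y ^ p)) ν ∧
      ∫ y, g y * (a y * v y ^ p) ∂ν ≤ ∫ y, g y * (a y * V y ^ p) ∂ν := by
  have hle : ∀ᵐ y ∂ν, 0 ≤ g y * (a y * v y ^ p) ∧
      g y * (a y * v y ^ p) ≤ g y * (a y * V y ^ p) := by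
    filter_upwards [hΩ] with y hy
    refine ⟨mul_nonneg (hg0 y) (mul_nonneg (ha0 y hy) (Real.rpow_nonneg (hvV y hy).1 _)), ?_⟩
    exact mul_le_mul_of_nonneg_left (mul_le_mul_of_nonneg_left
      (Real.rpow_le_rpow (hvV y hy).1 (hvV y hy).2 hp.le) (ha0 y hy)) (hg0 y)
  have hi : Integrable (fun y => g y * (a y * v y ^ p)) ν := by
    refine hint.mono' ?_ ?_
    · exact (hg.mul (ham.mul (hv.pow_const p))).aestronglyMeasurable
    · filter_upwards [hle] with y hy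
      rw [Real.norm_of_nonneg hy.1]; exact hy.2
  exact ⟨hi, integral_mono_ae hi hint (hle.mono fun y hy => hy.2)⟩

lemma stab_int_nonneg {ν : Measure X} {Ω : Set X} (hΩ : ∀ᵐ y ∂ν, y ∈ Ω)
    {g a v : X → ℝ} (hg0 : ∀ y, 0 ≤ g y) (ha0 : ∀ x ∈ Ω, 0 ≤ a x) (p : ℝ)
    (hv : ∀ y ∈ Ω, 0 ≤ v y) : 0 ≤ ∫ y, g y * (a y * v y ^ p) ∂ν := by
  refine integral_nonneg_of_ae ?_
  filter_upwards [hΩ] with y hy
  exact mul_nonneg (hg0 y) (mul_nonneg (ha0 y hy) (Real.rpow_nonneg (hv y hy) _))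

lemma stab_meas_pot {ν : Measure X} [SFinite ν] {G : X → X → ℝ}
    (hGm : Measurable (Function.uncurry G)) {f : X → ℝ} (hf : Measurable f) :
    Measurable fun x => ∫ y, G x y * f y ∂ν := by
  have : StronglyMeasurable (Function.uncurry fun x y => G x y * f y) :=
    (hGm.mul (hf.comp measurable_snd)).stronglyMeasurable
  exact this.integral_prod_right.measurable

/-- the damping factors -/
noncomputable def stabLam (k : ℕ) : ℝ := 1 - 1 / ((k : ℝ) + 1)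

lemma stabLam_nonneg (k : ℕ) : 0 ≤ stabLam k := by
  unfold stabLam
  have : (1 : ℝ) / ((k : ℝ) + 1) ≤ 1 := by
    rw [div_le_one (by positivity)]; linarith [(Nat.cast_nonneg k : (0 : ℝ) ≤ k)]
  linarith

lemma stabLam_lt_one (k : ℕ) : stabLam k < 1 := by
  unfold stabLam
  have : (0 : ℝ) < 1 / ((k : ℝ) + 1) := by positivity
  linarith

lemma stabLam_mono (k : ℕ) : stabLam k ≤ stabLam (k + 1) := by
  unfold stabLam
  have : (1 : ℝ) / (((k + 1 : ℕ) : ℝ) + 1) ≤ 1 / ((k : ℝ) + 1) := by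
    apply one_div_le_one_div_of_le (by positivity); push_cast; linarith
  linarith

lemma stabLam_tendsto : Tendsto stabLam atTop (𝓝 1) := by
  have := (tendsto_const_nhds (x := (1 : ℝ))).sub tendsto_one_div_add_atTop_nhds_zero_nat
  rw [sub_zero] at this
  exact this

/-- the monotone iteration -/
noncomputable def stabIter (ν : Measure X) (G : X → X → ℝ) (a b h₁ h₂ : X → ℝ) (p q : ℝ) :
    ℕ → (X → ℝ) × (X → ℝ)
  | 0 => (fun _ => 0, fun _ => 0)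
  | k + 1 =>
    (fun x => stabLam (k + 1) * h₁ x +
        ∫ y, G x y * (a y * (stabIter ν G a b h₁ h₂ p q k).2 y ^ p) ∂ν,
     fun x => stabLam (k + 1) * h₂ x +
        ∫ y, G x y * (b y * (stabIter ν G a b h₁ h₂ p q k).1 y ^ q) ∂ν)

/-- slope limit -/
lemma stab_slope {w q : ℝ} (hw : 0 < w) {s : ℕ → ℝ} (hs : ∀ k, s k < w)
    (hlim : Tendsto s atTop (𝓝 w)) :
    Tendsto (fun k => (w ^ q - s k ^ q) / (w - s k) * w) atTop (𝓝 (q * w ^ q)) := by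
  have hd : HasDerivAt (fun x : ℝ => x ^ q) (q * w ^ (q - 1)) w := by
    simpa using Real.hasDerivAt_rpow_const (x := w) (p := q) (Or.inl hw.ne')
  have h1 := hasDerivAt_iff_tendsto_slope.1 hd
  have h2 : Tendsto s atTop (𝓝[≠] w) :=
    tendsto_nhdsWithin_iff.2 ⟨hlim, Eventually.of_forall fun k => (hs k).ne⟩
  have h3 := (h1.comp h2).mul_const w
  have he : q * w ^ (q - 1) * w = q * w ^ q := by
    rw [Real.rpow_sub_one hw.ne']; field_simp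
  rw [he] at h3
  refine h3.congr fun k => ?_
  have : w - s k ≠ 0 := (sub_pos.2 (hs k)).ne'
  have h' : s k - w ≠ 0 := (sub_neg.2 (hs k)).ne
  simp only [Function.comp, slope_def_field]
  field_simp
  ring

/-- One half of the Schur test. -/
lemma stab_schur {ν : Measure X} {Ω : Set X} (hΩ : ∀ᵐ y ∂ν, y ∈ Ω) (Y : Set X)
    {G : X → X → ℝ} (hGm : Measurable (Function.uncurry G)) (hG0 : ∀ x y, 0 ≤ G x y)
    {c φ d : X → ℝ} (hd : Measurable d) (hc0 : ∀ x ∈ Ω, 0 ≤ c x) (hφ : ∀ x ∈ Ω, 0 < φ x)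
    (hd0 : ∀ x ∈ Ω, 0 ≤ d x)
    (hint : ∀ x ∈ Ω, Integrable (fun y => G x y * d y) ν ∧ ∫ y, G x y * d y ∂ν ≤ φ x) :
    ∫⁻ x in Y, ∫⁻ y in Y, ENNReal.ofReal (G x y * (c x / φ x * d y)) ∂ν ∂ν ≤
      ∫⁻ x in Y, ENNReal.ofReal (c x) ∂ν := by
  refine lintegral_mono_ae ?_
  filter_upwards [ae_restrict_of_ae hΩ] with x hx
  have hcφ : 0 ≤ c x / φ x := div_nonneg (hc0 x hx) (hφ x hx).le
  calc ∫⁻ y in Y, ENNReal.ofReal (G x y * (c x / φ x * d y)) ∂ν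
      ≤ ∫⁻ y, ENNReal.ofReal (G x y * (c x / φ x * d y)) ∂ν :=
        lintegral_mono' Measure.restrict_le_self le_rfl
    _ = ∫⁻ y, ENNReal.ofReal (c x / φ x) * ENNReal.ofReal (G x y * d y) ∂ν := by
        refine lintegral_congr fun y => ?_
        rw [← ENNReal.ofReal_mul hcφ]; congr 1; ring
    _ = ENNReal.ofReal (c x / φ x) * ∫⁻ y, ENNReal.ofReal (G x y * d y) ∂ν := by
        rw [lintegral_const_mul]
        exact ((stab_meas_row hGm x).mul hd).ennreal_ofReal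
    _ = ENNReal.ofReal (c x / φ x) * ENNReal.ofReal (∫ y, G x y * d y ∂ν) := by
        rw [ofReal_integral_eq_lintegral_ofReal (hint x hx).1]
        filter_upwards [hΩ] with y hy
        exact mul_nonneg (hG0 x y) (hd0 y hy)
    _ ≤ ENNReal.ofReal (c x / φ x) * ENNReal.ofReal (φ x) := by
        gcongr; exact (hint x hx).2
    _ = ENNReal.ofReal (c x) := by
        rw [← ENNReal.ofReal_mul hcφ, div_mul_cancel₀ _ (hφ x hx).ne']

/-- Splitting of the energy. -/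
lemma stab_split {ν : Measure X} {Ω : Set X} (hΩ : ∀ᵐ y ∂ν, y ∈ Ω) (S : Set X)
    {G : X → X → ℝ} (hGm : Measurable (Function.uncurry G)) (hG0 : ∀ x y, 0 ≤ G x y)
    {g f w h : X → ℝ} (hg : Measurable g) (hf : Measurable f) (hh : Measurable h)
    (hg0 : ∀ x ∈ Ω, 0 ≤ g x) (hf0 : ∀ x ∈ Ω, 0 ≤ f x) (hh0 : ∀ x ∈ Ω, 0 ≤ h x)
    (hw : ∀ x ∈ Ω, Integrable (fun y => G x y * f y) ν ∧ w x = h x + ∫ y, G x y * f y ∂ν) :
    ∫⁻ x in S, ENNReal.ofReal (g x * w x) ∂ν = ∫⁻ x in S, ENNReal.ofReal (g x * h x) ∂ν +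
      ∫⁻ x in S, ∫⁻ y, ENNReal.ofReal (G x y * (g x * f y)) ∂ν ∂ν := by
  have hm : Measurable fun x => ENNReal.ofReal (g x * h x) := (hg.mul hh).ennreal_ofReal
  rw [← lintegral_add_left hm]
  refine lintegral_congr_ae ?_
  filter_upwards [ae_restrict_of_ae hΩ] with x hx
  have hnn : 0 ≤ᵐ[ν] fun y => G x y * f y := by
    filter_upwards [hΩ] with y hy
    exact mul_nonneg (hG0 x y) (hf0 y hy)
  have h1 : ∫⁻ y, ENNReal.ofReal (G x y * (g x * f y)) ∂ν =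
      ENNReal.ofReal (g x) * ENNReal.ofReal (∫ y, G x y * f y ∂ν) := by
    rw [ofReal_integral_eq_lintegral_ofReal (hw x hx).1 hnn, ← lintegral_const_mul]
    · refine lintegral_congr fun y => ?_
      rw [← ENNReal.ofReal_mul (hg0 x hx)]; congr 1; ring
    · exact ((stab_meas_row hGm x).mul hf).ennreal_ofReal
  rw [h1, ← ENNReal.ofReal_mul (hg0 x hx), ← ENNReal.ofReal_add
    (mul_nonneg (hg0 x hx) (hh0 x hx)) (mul_nonneg (hg0 x hx) (integral_nonneg_of_ae hnn)),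
    (hw x hx).2, mul_add]

lemma stabIter_bound {ν : Measure X} [SFinite ν] {Ω : Set X} (hΩ : ∀ᵐ y ∂ν, y ∈ Ω)
    {G : X → X → ℝ} (hGm : Measurable (Function.uncurry G)) (hG0 : ∀ x y, 0 ≤ G x y)
    {a b h₁ h₂ U V : X → ℝ} (ham : Measurable a) (hbm : Measurable b)
    (hh₁m : Measurable h₁) (hh₂m : Measurable h₂)
    (ha0 : ∀ x ∈ Ω, 0 ≤ a x) (hb0 : ∀ x ∈ Ω, 0 ≤ b x)
    (hh₁ : ∀ x ∈ Ω, 0 < h₁ x) (hh₂ : ∀ x ∈ Ω, 0 < h₂ x)
    {p q : ℝ} (hp : 0 < p) (hq : 0 < q)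
    (hU0 : ∀ x ∈ Ω, 0 ≤ U x) (hV0 : ∀ x ∈ Ω, 0 ≤ V x)
    (hU : ∀ x ∈ Ω, Integrable (fun y => G x y * (a y * V y ^ p)) ν ∧
      h₁ x + ∫ y, G x y * (a y * V y ^ p) ∂ν ≤ U x)
    (hV : ∀ x ∈ Ω, Integrable (fun y => G x y * (b y * U y ^ q)) ν ∧
      h₂ x + ∫ y, G x y * (b y * U y ^ q) ∂ν ≤ V x) (k : ℕ) :
    Measurable (stabIter ν G a b h₁ h₂ p q k).1 ∧ Measurable (stabIter ν G a b h₁ h₂ p q k).2 ∧
      (∀ x ∈ Ω, 0 ≤ (stabIter ν G a b h₁ h₂ p q k).1 x ∧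
        (stabIter ν G a b h₁ h₂ p q k).1 x ≤ U x) ∧
      (∀ x ∈ Ω, 0 ≤ (stabIter ν G a b h₁ h₂ p q k).2 x ∧
        (stabIter ν G a b h₁ h₂ p q k).2 x ≤ V x) := by
  induction k with
  | zero =>
    exact ⟨measurable_const, measurable_const, fun x hx => ⟨le_rfl, hU0 x hx⟩,
      fun x hx => ⟨le_rfl, hV0 x hx⟩⟩
  | succ k ih =>
    obtain ⟨m1, m2, b1, b2⟩ := ih
    refine ⟨?_, ?_, fun x hx => ?_, fun x hx => ?_⟩
    · exact (hh₁m.const_mul _).add (stab_meas_pot hGm (ham.mul (m2.pow_const p)))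
    · exact (hh₂m.const_mul _).add (stab_meas_pot hGm (hbm.mul (m1.pow_const q)))
    · have h := stab_int_of_le hΩ (stab_meas_row hGm x) (hG0 x) ham ha0 hp (hU x hx).1 m2 b2
      have h0 := stab_int_nonneg hΩ (hG0 x) ha0 p (fun y hy => (b2 y hy).1)
      have l0 := stabLam_nonneg (k + 1)
      have l1 := stabLam_lt_one (k + 1)
      have := hh₁ x hx
      have := (hU x hx).2
      simp only [stabIter]
      constructor <;> nlinarith [h.2]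
    · have h := stab_int_of_le hΩ (stab_meas_row hGm x) (hG0 x) hbm hb0 hq (hV x hx).1 m1 b1
      have h0 := stab_int_nonneg hΩ (hG0 x) hb0 q (fun y hy => (b1 y hy).1)
      have l0 := stabLam_nonneg (k + 1)
      have l1 := stabLam_lt_one (k + 1)
      have := hh₂ x hx
      have := (hV x hx).2
      simp only [stabIter]
      constructor <;> nlinarith [h.2]

/-- passing to the limit in the potential -/
lemma stab_limit {ν : Measure X} {Ω : Set X} (hΩ : ∀ᵐ y ∂ν, y ∈ Ω)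
    {g a V v : X → ℝ} {s : ℕ → X → ℝ} (hg : Measurable g) (hg0 : ∀ y, 0 ≤ g y)
    (ham : Measurable a) (ha0 : ∀ x ∈ Ω, 0 ≤ a x) {p : ℝ} (hp : 0 < p)
    (hint : Integrable (fun y => g y * (a y * V y ^ p)) ν) (hs : ∀ k, Measurable (s k))
    (hsV : ∀ k, ∀ y ∈ Ω, 0 ≤ s k y ∧ s k y ≤ V y)
    (hlim : ∀ y ∈ Ω, Tendsto (fun k => s k y) atTop (𝓝 (v y))) :
    Tendsto (fun k => ∫ y, g y * (a y * s k y ^ p) ∂ν) atTop
      (𝓝 (∫ y, g y * (a y * v y ^ p) ∂ν)) := by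
  refine tendsto_integral_of_dominated_convergence _ (fun k => ?_) hint (fun k => ?_) ?_
  · exact (hg.mul (ham.mul ((hs k).pow_const p))).aestronglyMeasurable
  · filter_upwards [hΩ] with y hy
    rw [Real.norm_of_nonneg
      (mul_nonneg (hg0 y) (mul_nonneg (ha0 y hy) (Real.rpow_nonneg (hsV k y hy).1 _)))]
    exact mul_le_mul_of_nonneg_left (mul_le_mul_of_nonneg_left
      (Real.rpow_le_rpow (hsV k y hy).1 (hsV k y hy).2 hp.le) (ha0 y hy)) (hg0 y)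
  · filter_upwards [hΩ] with y hy
    exact (((hlim y hy).rpow_const (Or.inr hp.le)).const_mul _).const_mul _

/-- The Schur/Fatou estimate. -/
lemma stab_fatou {ν : Measure X} [SFinite ν] {Ω : Set X} (hΩ : ∀ᵐ y ∂ν, y ∈ Ω) (Y : Set X)
    {G : X → X → ℝ} (hGm : Measurable (Function.uncurry G)) (hG0 : ∀ x y, 0 ≤ G x y)
    (hGs : ∀ x y, G x y = G y x) {a b w₁ w₂ : X → ℝ} {s₁ s₂ : ℕ → X → ℝ}
    (ham : Measurable a) (hbm : Measurable b) (m₁ : Measurable w₁) (m₂ : Measurable w₂)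
    (n₁ : ∀ k, Measurable (s₁ k)) (n₂ : ∀ k, Measurable (s₂ k))
    (ha0 : ∀ x ∈ Ω, 0 ≤ a x) (hb0 : ∀ x ∈ Ω, 0 ≤ b x)
    {p q : ℝ} (hp : 0 < p) (hq : 0 < q)
    (l₁ : ∀ k, ∀ x ∈ Ω, 0 ≤ s₁ k x ∧ s₁ k x < w₁ x)
    (l₂ : ∀ k, ∀ x ∈ Ω, 0 ≤ s₂ k x ∧ s₂ k x < w₂ x)
    (t₁ : ∀ x ∈ Ω, Tendsto (fun k => s₁ k x) atTop (𝓝 (w₁ x)))
    (t₂ : ∀ x ∈ Ω, Tendsto (fun k => s₂ k x) atTop (𝓝 (w₂ x)))
    (i₁ : ∀ k, ∀ x ∈ Ω, Integrable (fun y => G x y * (a y * w₂ y ^ p - a y * s₂ k y ^ p)) ν ∧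
      ∫ y, G x y * (a y * w₂ y ^ p - a y * s₂ k y ^ p) ∂ν ≤ w₁ x - s₁ k x)
    (i₂ : ∀ k, ∀ x ∈ Ω, Integrable (fun y => G x y * (b y * w₁ y ^ q - b y * s₁ k y ^ q)) ν ∧
      ∫ y, G x y * (b y * w₁ y ^ q - b y * s₁ k y ^ q) ∂ν ≤ w₂ x - s₂ k x) :
    ENNReal.ofReal (2 * √(p * q)) *
        ∫⁻ x in Y, ∫⁻ y in Y, ENNReal.ofReal (G x y * (b x * w₁ x ^ q * (a y * w₂ y ^ p))) ∂ν ∂ν ≤
      ∫⁻ x in Y, ENNReal.ofReal (b x * w₁ x ^ q * w₁ x) ∂ν +
        ∫⁻ x in Y, ENNReal.ofReal (a x * w₂ x ^ p * w₂ x) ∂ν := by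
  have w₁p : ∀ x ∈ Ω, 0 < w₁ x := fun x hx => (l₁ 0 x hx).1.trans_lt (l₁ 0 x hx).2
  have w₂p : ∀ x ∈ Ω, 0 < w₂ x := fun x hx => (l₂ 0 x hx).1.trans_lt (l₂ 0 x hx).2
  set g : X → ℝ := fun x => b x * w₁ x ^ q with hg
  set f : X → ℝ := fun x => a x * w₂ x ^ p with hf
  have gm : Measurable g := hbm.mul (m₁.pow_const q)
  have fm : Measurable f := ham.mul (m₂.pow_const p)
  have g0 : ∀ x ∈ Ω, 0 ≤ g x := fun x hx => mul_nonneg (hb0 x hx) (Real.rpow_nonneg (w₁p x hx).le _)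
  have f0 : ∀ x ∈ Ω, 0 ≤ f x := fun x hx => mul_nonneg (ha0 x hx) (Real.rpow_nonneg (w₂p x hx).le _)
  set dg : ℕ → X → ℝ := fun k x => b x * w₁ x ^ q - b x * s₁ k x ^ q with hdg
  set df : ℕ → X → ℝ := fun k x => a x * w₂ x ^ p - a x * s₂ k x ^ p with hdf
  have dgm : ∀ k, Measurable (dg k) := fun k => gm.sub (hbm.mul ((n₁ k).pow_const q))
  have dfm : ∀ k, Measurable (df k) := fun k => fm.sub (ham.mul ((n₂ k).pow_const p))
  have dg0 : ∀ k, ∀ x ∈ Ω, 0 ≤ dg k x := fun k x hx => sub_nonneg.2 (mul_le_mul_of_nonneg_left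
    (Real.rpow_le_rpow (l₁ k x hx).1 (l₁ k x hx).2.le hq.le) (hb0 x hx))
  have df0 : ∀ k, ∀ x ∈ Ω, 0 ≤ df k x := fun k x hx => sub_nonneg.2 (mul_le_mul_of_nonneg_left
    (Real.rpow_le_rpow (l₂ k x hx).1 (l₂ k x hx).2.le hp.le) (ha0 x hx))
  set A : ℕ → X × X → ℝ := fun k z =>
    G z.1 z.2 * (g z.1 * w₁ z.1 / (w₁ z.1 - s₁ k z.1) * df k z.2) with hA
  set B : ℕ → X × X → ℝ := fun k z =>
    G z.2 z.1 * (f z.2 * w₂ z.2 / (w₂ z.2 - s₂ k z.2) * dg k z.1) with hB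
  have Am : ∀ k, Measurable (A k) := fun k => hGm.mul
    (((((gm.mul m₁).div (m₁.sub (n₁ k))).comp measurable_fst)).mul ((dfm k).comp measurable_snd))
  have Bm : ∀ k, Measurable (B k) := fun k => (hGm.comp measurable_swap).mul
    (((((fm.mul m₂).div (m₂.sub (n₂ k))).comp measurable_snd)).mul ((dgm k).comp measurable_fst))
  set μ := (ν.restrict Y).prod (ν.restrict Y) with hμ
  have hΩ2 : ∀ᵐ z ∂μ, z.1 ∈ Ω ∧ z.2 ∈ Ω := by
    have h1 : ∀ᵐ z ∂μ, z.1 ∈ Ω :=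
      (Measure.quasiMeasurePreserving_fst (μ := ν.restrict Y) (ν := ν.restrict Y)).ae
        (ae_restrict_of_ae hΩ)
    have h2 : ∀ᵐ z ∂μ, z.2 ∈ Ω :=
      (Measure.quasiMeasurePreserving_snd (μ := ν.restrict Y) (ν := ν.restrict Y)).ae
        (ae_restrict_of_ae hΩ)
    exact h1.and h2
  have hAle : ∀ k, ∫⁻ z, ENNReal.ofReal (A k z) ∂μ ≤ ∫⁻ x in Y, ENNReal.ofReal (g x * w₁ x) ∂ν := by
    intro k
    rw [hμ, lintegral_prod _ (Am k).ennreal_ofReal.aemeasurable]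
    exact stab_schur hΩ Y hGm hG0 (c := fun x => g x * w₁ x) (φ := fun x => w₁ x - s₁ k x)
      (dfm k) (fun x hx => mul_nonneg (g0 x hx) (w₁p x hx).le)
      (fun x hx => sub_pos.2 (l₁ k x hx).2) (df0 k) (i₁ k)
  have hBle : ∀ k, ∫⁻ z, ENNReal.ofReal (B k z) ∂μ ≤ ∫⁻ x in Y, ENNReal.ofReal (f x * w₂ x) ∂ν := by
    intro k
    rw [hμ, lintegral_prod_symm _ (Bm k).ennreal_ofReal.aemeasurable]
    exact stab_schur hΩ Y hGm hG0 (c := fun x => f x * w₂ x) (φ := fun x => w₂ x - s₂ k x)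
      (dgm k) (fun x hx => mul_nonneg (f0 x hx) (w₂p x hx).le)
      (fun x hx => sub_pos.2 (l₂ k x hx).2) (dg0 k) (i₂ k)
  set C : ℕ → X × X → ℝ := fun k z => 2 * √(A k z * B k z) with hC
  have Cm : ∀ k, Measurable (C k) := fun k => ((Am k).mul (Bm k)).sqrt.const_mul 2
  have hCle : ∀ k, ∫⁻ z, ENNReal.ofReal (C k z) ∂μ ≤
      ∫⁻ x in Y, ENNReal.ofReal (g x * w₁ x) ∂ν + ∫⁻ x in Y, ENNReal.ofReal (f x * w₂ x) ∂ν := by
    intro k
    refine le_trans ?_ (add_le_add (hAle k) (hBle k))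
    have hm : Measurable fun z => ENNReal.ofReal (A k z) := (Am k).ennreal_ofReal
    rw [← lintegral_add_left hm]
    refine lintegral_mono_ae ?_
    filter_upwards [hΩ2] with z hz
    have A0 : 0 ≤ A k z := mul_nonneg (hG0 _ _) (mul_nonneg (div_nonneg
      (mul_nonneg (g0 _ hz.1) (w₁p _ hz.1).le) (sub_pos.2 (l₁ k _ hz.1).2).le) (df0 k _ hz.2))
    have B0 : 0 ≤ B k z := mul_nonneg (hG0 _ _) (mul_nonneg (div_nonneg
      (mul_nonneg (f0 _ hz.2) (w₂p _ hz.2).le) (sub_pos.2 (l₂ k _ hz.2).2).le) (dg0 k _ hz.1))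
    rw [← ENNReal.ofReal_add A0 B0]
    refine ENNReal.ofReal_le_ofReal ?_
    simp only [hC]
    rw [Real.sqrt_mul A0]
    nlinarith [sq_nonneg (√(A k z) - √(B k z)), Real.sq_sqrt A0, Real.sq_sqrt B0]
  have hlim : ∀ᵐ z ∂μ, Tendsto (fun k => ENNReal.ofReal (C k z)) atTop
      (𝓝 (ENNReal.ofReal (2 * √(p * q)) * ENNReal.ofReal (G z.1 z.2 * (g z.1 * f z.2)))) := by
    filter_upwards [hΩ2] with z hz
    rw [← ENNReal.ofReal_mul (by positivity)]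
    refine ENNReal.tendsto_ofReal ?_
    have e1 := stab_slope (q := q) (w₁p _ hz.1) (fun k => (l₁ k _ hz.1).2) (t₁ _ hz.1)
    have e2 := stab_slope (q := p) (w₂p _ hz.2) (fun k => (l₂ k _ hz.2).2) (t₂ _ hz.2)
    have e3 := ((e1.mul e2).const_mul
      (G z.1 z.2 ^ 2 * (g z.1 * f z.2) * (b z.1 * a z.2))).sqrt.const_mul 2
    have P0 : 0 ≤ G z.1 z.2 * (g z.1 * f z.2) :=
      mul_nonneg (hG0 _ _) (mul_nonneg (g0 _ hz.1) (f0 _ hz.2))
    have hv : √(G z.1 z.2 ^ 2 * (g z.1 * f z.2) * (b z.1 * a z.2) *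
        (q * w₁ z.1 ^ q * (p * w₂ z.2 ^ p))) = √(p * q) * (G z.1 z.2 * (g z.1 * f z.2)) := by
      rw [← Real.sqrt_sq P0, ← Real.sqrt_mul (by positivity)]
      congr 1
      simp only [hg, hf]; ring
    rw [hv, ← mul_assoc 2 (√(p * q))] at e3
    refine e3.congr fun k => ?_
    simp only [hC, hA, hB, hdg, hdf]
    congr 2
    rw [hGs z.2 z.1]
    have := (sub_pos.2 (l₁ k _ hz.1).2).ne'
    have := (sub_pos.2 (l₂ k _ hz.2).2).ne'
    field_simp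
  have hF := lintegral_liminf_le' (μ := μ) (u := atTop)
    (f := fun k z => ENNReal.ofReal (C k z)) (fun k => (Cm k).ennreal_ofReal.aemeasurable)
  have hm2 : Measurable fun z : X × X => ENNReal.ofReal (G z.1 z.2 * (g z.1 * f z.2)) :=
    (hGm.mul ((gm.comp measurable_fst).mul (fm.comp measurable_snd))).ennreal_ofReal
  calc ENNReal.ofReal (2 * √(p * q)) *
        ∫⁻ x in Y, ∫⁻ y in Y, ENNReal.ofReal (G x y * (g x * f y)) ∂ν ∂ν
      = ∫⁻ z, ENNReal.ofReal (2 * √(p * q)) *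
          ENNReal.ofReal (G z.1 z.2 * (g z.1 * f z.2)) ∂μ := by
        rw [lintegral_const_mul _ hm2, hμ, lintegral_prod _ hm2.aemeasurable]
    _ = ∫⁻ z, liminf (fun k => ENNReal.ofReal (C k z)) atTop ∂μ := by
        refine lintegral_congr_ae ?_
        filter_upwards [hlim] with z hz
        exact hz.liminf_eq.symm
    _ ≤ liminf (fun k => ∫⁻ z, ENNReal.ofReal (C k z) ∂μ) atTop := hF
    _ ≤ _ := liminf_le_of_frequently_le' (Frequently.of_forall hCle)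

end

end Crest.Agent.R077
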