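import Mathlib
import Crest.Agent.R077.StabAux

/-! # Row 77: monotone iteration and the Schur-test stability estimate (abstract) -/

set_option autoImplicit false

open MeasureTheory Set Filter Topology

namespace Crest.Agent.R077

/-- The energy inequality in `ℝ≥0∞`. -/
lemma stab_energy {X : Type*} [MeasurableSpace X] {ν : Measure X} [SFinite ν] {Ω : Set X}
    (hΩ : ∀ᵐ y ∂ν, y ∈ Ω) {Y : Set X} (hY : MeasurableSet Y)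
    {G : X → X → ℝ} (hGm : Measurable (Function.uncurry G)) (hG0 : ∀ x y, 0 ≤ G x y)
    (hGs : ∀ x y, G x y = G y x) {g f w₁ w₂ h₁ h₂ : X → ℝ} (hg : Measurable g) (hf : Measurable f)
    (hh₁m : Measurable h₁) (hh₂m : Measurable h₂)
    (hg0 : ∀ x ∈ Ω, 0 ≤ g x) (hf0 : ∀ x ∈ Ω, 0 ≤ f x) (hh₁ : ∀ x ∈ Ω, 0 ≤ h₁ x)
    (hh₂ : ∀ x ∈ Ω, 0 ≤ h₂ x)
    (hw₁ : ∀ x ∈ Ω, Integrable (fun y => G x y * f y) ν ∧ w₁ x = h₁ x + ∫ y, G x y * f y ∂ν)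
    (hw₂ : ∀ x ∈ Ω, Integrable (fun y => G x y * g y) ν ∧ w₂ x = h₂ x + ∫ y, G x y * g y ∂ν) :
    ∫⁻ x in Y, ENNReal.ofReal (g x * w₁ x) ∂ν + ∫⁻ x in Y, ENNReal.ofReal (f x * w₂ x) ∂ν ≤
      (∫⁻ x in Y, ENNReal.ofReal (g x * h₁ x) ∂ν + ∫⁻ x in Y, ENNReal.ofReal (f x * h₂ x) ∂ν +
        ∫⁻ x in Yᶜ, ENNReal.ofReal (g x * w₁ x) ∂ν + ∫⁻ x in Yᶜ, ENNReal.ofReal (f x * w₂ x) ∂ν) +
      2 * ∫⁻ x in Y, ∫⁻ y in Y, ENNReal.ofReal (G x y * (g x * f y)) ∂ν ∂ν := by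
  set K : X → X → ENNReal := fun x y => ENNReal.ofReal (G x y * (g x * f y)) with hK
  have Km : Measurable (Function.uncurry K) :=
    (hGm.mul ((hg.comp measurable_fst).mul (hf.comp measurable_snd))).ennreal_ofReal
  have hsw : ∀ S T : Set X, ∫⁻ x in S, ∫⁻ y in T, ENNReal.ofReal (G x y * (f x * g y)) ∂ν ∂ν =
      ∫⁻ x in T, ∫⁻ y in S, K x y ∂ν ∂ν := by
    intro S T
    rw [lintegral_lintegral_swap (μ := ν.restrict T) (ν := ν.restrict S) Km.aemeasurable]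
    refine lintegral_congr fun x => lintegral_congr fun y => ?_
    simp only [hK]
    rw [hGs x y, mul_comm (f x)]
  have hsp : ∀ (F : X → X → ENNReal), Measurable (Function.uncurry F) → ∀ S : Set X,
      ∫⁻ x in S, ∫⁻ y, F x y ∂ν ∂ν =
        ∫⁻ x in S, ∫⁻ y in Y, F x y ∂ν ∂ν + ∫⁻ x in S, ∫⁻ y in Yᶜ, F x y ∂ν ∂ν := by
    intro F hF S
    have hm : Measurable fun x => ∫⁻ y in Y, F x y ∂ν := hF.lintegral_prod_right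
    rw [← lintegral_add_left hm]
    refine lintegral_congr fun x => ?_
    rw [lintegral_add_compl _ hY]
  have Km' : Measurable (Function.uncurry fun x y => ENNReal.ofReal (G x y * (f x * g y))) :=
    (hGm.mul ((hf.comp measurable_fst).mul (hg.comp measurable_snd))).ennreal_ofReal
  have e1 := stab_split hΩ Y hGm hG0 hg hf hh₁m hg0 hf0 hh₁ hw₁
  have e2 := stab_split hΩ Y hGm hG0 hf hg hh₂m hf0 hg0 hh₂ hw₂
  have e3 := stab_split hΩ Yᶜ hGm hG0 hg hf hh₁m hg0 hf0 hh₁ hw₁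
  have e4 := stab_split hΩ Yᶜ hGm hG0 hf hg hh₂m hf0 hg0 hh₂ hw₂
  rw [hsp K Km] at e1 e3
  rw [hsp _ Km', hsw, hsw] at e2 e4
  have a1 : ∫⁻ x in Yᶜ, ∫⁻ y in Y, K x y ∂ν ∂ν ≤ ∫⁻ x in Yᶜ, ENNReal.ofReal (g x * w₁ x) ∂ν := by
    rw [e3]; exact le_add_left le_self_add
  have a2 : ∫⁻ x in Y, ∫⁻ y in Yᶜ, K x y ∂ν ∂ν ≤ ∫⁻ x in Yᶜ, ENNReal.ofReal (f x * w₂ x) ∂ν := by
    rw [e4]; exact le_add_left le_self_add
  rw [e1, e2]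
  calc _ = (∫⁻ x in Y, ENNReal.ofReal (g x * h₁ x) ∂ν + ∫⁻ x in Y, ENNReal.ofReal (f x * h₂ x) ∂ν +
        ∫⁻ x in Yᶜ, ∫⁻ y in Y, K x y ∂ν ∂ν + ∫⁻ x in Y, ∫⁻ y in Yᶜ, K x y ∂ν ∂ν) +
        2 * ∫⁻ x in Y, ∫⁻ y in Y, K x y ∂ν ∂ν := by ring
    _ ≤ _ := by gcongr

theorem exists_min_sol {X : Type*} [MeasurableSpace X] (ν : Measure X) [SFinite ν]
    (Ω : Set X) (hΩ : ∀ᵐ y ∂ν, y ∈ Ω)
    (G : X → X → ℝ) (hGm : Measurable (Function.uncurry G)) (hG0 : ∀ x y, 0 ≤ G x y)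
    (hGs : ∀ x y, G x y = G y x)
    (a b h₁ h₂ U V U' V' : X → ℝ) (ham : Measurable a) (hbm : Measurable b)
    (hh₁m : Measurable h₁) (hh₂m : Measurable h₂)
    (ha0 : ∀ x ∈ Ω, 0 ≤ a x) (hb0 : ∀ x ∈ Ω, 0 ≤ b x)
    (hh₁ : ∀ x ∈ Ω, 0 < h₁ x) (hh₂ : ∀ x ∈ Ω, 0 < h₂ x)
    {p q : ℝ} (hp : 0 < p) (hq : 0 < q)
    (hU0 : ∀ x ∈ Ω, 0 ≤ U x) (hV0 : ∀ x ∈ Ω, 0 ≤ V x)
    (hU0' : ∀ x ∈ Ω, 0 ≤ U' x) (hV0' : ∀ x ∈ Ω, 0 ≤ V' x)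
    (hU : ∀ x ∈ Ω, Integrable (fun y => G x y * (a y * V y ^ p)) ν ∧
      h₁ x + ∫ y, G x y * (a y * V y ^ p) ∂ν ≤ U x)
    (hV : ∀ x ∈ Ω, Integrable (fun y => G x y * (b y * U y ^ q)) ν ∧
      h₂ x + ∫ y, G x y * (b y * U y ^ q) ∂ν ≤ V x)
    (hU' : ∀ x ∈ Ω, Integrable (fun y => G x y * (a y * V' y ^ p)) ν ∧
      h₁ x + ∫ y, G x y * (a y * V' y ^ p) ∂ν ≤ U' x)
    (hV' : ∀ x ∈ Ω, Integrable (fun y => G x y * (b y * U' y ^ q)) ν ∧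
      h₂ x + ∫ y, G x y * (b y * U' y ^ q) ∂ν ≤ V' x)
    (hE₁ : Integrable (fun x => b x * U x ^ q * U x) ν)
    (hE₂ : Integrable (fun x => a x * V x ^ p * V x) ν) :
    ∃ w₁ w₂ : X → ℝ, Measurable w₁ ∧ Measurable w₂ ∧
      (∀ x ∈ Ω, h₁ x ≤ w₁ x ∧ w₁ x ≤ U x ∧ w₁ x ≤ U' x ∧
        h₂ x ≤ w₂ x ∧ w₂ x ≤ V x ∧ w₂ x ≤ V' x ∧
        w₁ x = h₁ x + ∫ y, G x y * (a y * w₂ y ^ p) ∂ν ∧
        w₂ x = h₂ x + ∫ y, G x y * (b y * w₁ y ^ q) ∂ν) ∧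
      ∀ Y : Set X, MeasurableSet Y →
        (√(p * q) - 1) * ((∫ x in Y, b x * w₁ x ^ q * w₁ x ∂ν) +
            ∫ x in Y, a x * w₂ x ^ p * w₂ x ∂ν) ≤
          √(p * q) * ((∫ x in Y, b x * w₁ x ^ q * h₁ x ∂ν) + (∫ x in Y, a x * w₂ x ^ p * h₂ x ∂ν) +
            (∫ x in Yᶜ, b x * w₁ x ^ q * w₁ x ∂ν) + ∫ x in Yᶜ, a x * w₂ x ^ p * w₂ x ∂ν) := by
  set W := stabIter ν G a b h₁ h₂ p q with hW
  have B := stabIter_bound hΩ hGm hG0 ham hbm hh₁m hh₂m ha0 hb0 hh₁ hh₂ hp hq hU0 hV0 hU hV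
  have B' := stabIter_bound hΩ hGm hG0 ham hbm hh₁m hh₂m ha0 hb0 hh₁ hh₂ hp hq hU0' hV0' hU' hV'
  rw [← hW] at B B'
  have hs₁ : ∀ k x, (W (k + 1)).1 x =
      stabLam (k + 1) * h₁ x + ∫ y, G x y * (a y * (W k).2 y ^ p) ∂ν := fun k x => rfl
  have hs₂ : ∀ k x, (W (k + 1)).2 x =
      stabLam (k + 1) * h₂ x + ∫ y, G x y * (b y * (W k).1 y ^ q) ∂ν := fun k x => rfl
  have I₁ : ∀ k, ∀ x ∈ Ω, Integrable (fun y => G x y * (a y * (W k).2 y ^ p)) ν := fun k x hx =>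
    (stab_int_of_le hΩ (stab_meas_row hGm x) (hG0 x) ham ha0 hp (hU x hx).1 (B k).2.1
      (B k).2.2.2).1
  have I₂ : ∀ k, ∀ x ∈ Ω, Integrable (fun y => G x y * (b y * (W k).1 y ^ q)) ν := fun k x hx =>
    (stab_int_of_le hΩ (stab_meas_row hGm x) (hG0 x) hbm hb0 hq (hV x hx).1 (B k).1
      (B k).2.2.1).1
  have mono : ∀ k, ∀ x ∈ Ω, (W k).1 x ≤ (W (k + 1)).1 x ∧ (W k).2 x ≤ (W (k + 1)).2 x := by
    intro k
    induction k with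
    | zero => exact fun x hx => ⟨((B 1).2.2.1 x hx).1, ((B 1).2.2.2 x hx).1⟩
    | succ k ih =>
      intro x hx
      have j₁ := (stab_int_of_le hΩ (stab_meas_row hGm x) (hG0 x) ham ha0 hp (I₁ (k + 1) x hx)
        (B k).2.1 (fun y hy => ⟨((B k).2.2.2 y hy).1, (ih y hy).2⟩)).2
      have j₂ := (stab_int_of_le hΩ (stab_meas_row hGm x) (hG0 x) hbm hb0 hq (I₂ (k + 1) x hx)
        (B k).1 (fun y hy => ⟨((B k).2.2.1 y hy).1, (ih y hy).1⟩)).2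
      have l := stabLam_mono (k + 1)
      rw [hs₁, hs₁, hs₂, hs₂]
      exact ⟨add_le_add (mul_le_mul_of_nonneg_right l (hh₁ x hx).le) j₁,
        add_le_add (mul_le_mul_of_nonneg_right l (hh₂ x hx).le) j₂⟩
  set w₁ : X → ℝ := fun x => ⨆ k, (W k).1 x with hw₁
  set w₂ : X → ℝ := fun x => ⨆ k, (W k).2 x with hw₂
  have m₁ : Measurable w₁ := Measurable.iSup fun k => (B k).1
  have m₂ : Measurable w₂ := Measurable.iSup fun k => (B k).2.1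
  have bd₁ : ∀ x ∈ Ω, BddAbove (range fun k => (W k).1 x) := fun x hx =>
    ⟨U x, by rintro _ ⟨k, rfl⟩; exact ((B k).2.2.1 x hx).2⟩
  have bd₂ : ∀ x ∈ Ω, BddAbove (range fun k => (W k).2 x) := fun x hx =>
    ⟨V x, by rintro _ ⟨k, rfl⟩; exact ((B k).2.2.2 x hx).2⟩
  have t₁ : ∀ x ∈ Ω, Tendsto (fun k => (W k).1 x) atTop (𝓝 (w₁ x)) := fun x hx =>
    tendsto_atTop_ciSup (monotone_nat_of_le_succ fun k => (mono k x hx).1) (bd₁ x hx)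
  have t₂ : ∀ x ∈ Ω, Tendsto (fun k => (W k).2 x) atTop (𝓝 (w₂ x)) := fun x hx =>
    tendsto_atTop_ciSup (monotone_nat_of_le_succ fun k => (mono k x hx).2) (bd₂ x hx)
  have le₁ : ∀ k, ∀ x ∈ Ω, (W k).1 x ≤ w₁ x := fun k x hx => le_ciSup (bd₁ x hx) k
  have le₂ : ∀ k, ∀ x ∈ Ω, (W k).2 x ≤ w₂ x := fun k x hx => le_ciSup (bd₂ x hx) k
  have p₁ : ∀ x ∈ Ω, 0 ≤ w₁ x := fun x hx => ((B 0).2.2.1 x hx).1.trans (le₁ 0 x hx)
  have p₂ : ∀ x ∈ Ω, 0 ≤ w₂ x := fun x hx => ((B 0).2.2.2 x hx).1.trans (le₂ 0 x hx)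
  have u₁ : ∀ x ∈ Ω, w₁ x ≤ U x := fun x hx => ciSup_le fun k => ((B k).2.2.1 x hx).2
  have u₂ : ∀ x ∈ Ω, w₂ x ≤ V x := fun x hx => ciSup_le fun k => ((B k).2.2.2 x hx).2
  have u₁' : ∀ x ∈ Ω, w₁ x ≤ U' x := fun x hx => ciSup_le fun k => ((B' k).2.2.1 x hx).2
  have u₂' : ∀ x ∈ Ω, w₂ x ≤ V' x := fun x hx => ciSup_le fun k => ((B' k).2.2.2 x hx).2
  have fix₁ : ∀ x ∈ Ω, w₁ x = h₁ x + ∫ y, G x y * (a y * w₂ y ^ p) ∂ν := by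
    intro x hx
    have e1 : Tendsto (fun k => (W (k + 1)).1 x) atTop (𝓝 (w₁ x)) :=
      (tendsto_add_atTop_iff_nat 1).2 (t₁ x hx)
    have e2 := stab_limit hΩ (stab_meas_row hGm x) (hG0 x) ham ha0 hp (hU x hx).1
      (fun k => (B k).2.1) (fun k => (B k).2.2.2) t₂
    have e3 : Tendsto (fun k => stabLam (k + 1)) atTop (𝓝 1) :=
      (tendsto_add_atTop_iff_nat 1).2 stabLam_tendsto
    have e4 := (e3.mul_const (h₁ x)).add e2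
    rw [one_mul] at e4
    exact tendsto_nhds_unique e1 e4
  have fix₂ : ∀ x ∈ Ω, w₂ x = h₂ x + ∫ y, G x y * (b y * w₁ y ^ q) ∂ν := by
    intro x hx
    have e1 : Tendsto (fun k => (W (k + 1)).2 x) atTop (𝓝 (w₂ x)) :=
      (tendsto_add_atTop_iff_nat 1).2 (t₂ x hx)
    have e2 := stab_limit hΩ (stab_meas_row hGm x) (hG0 x) hbm hb0 hq (hV x hx).1
      (fun k => (B k).1) (fun k => (B k).2.2.1) t₁
    have e3 : Tendsto (fun k => stabLam (k + 1)) atTop (𝓝 1) :=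
      (tendsto_add_atTop_iff_nat 1).2 stabLam_tendsto
    have e4 := (e3.mul_const (h₂ x)).add e2
    rw [one_mul] at e4
    exact tendsto_nhds_unique e1 e4
  have J₁ : ∀ x ∈ Ω, Integrable (fun y => G x y * (a y * w₂ y ^ p)) ν := fun x hx =>
    (stab_int_of_le hΩ (stab_meas_row hGm x) (hG0 x) ham ha0 hp (hU x hx).1 m₂
      (fun y hy => ⟨p₂ y hy, u₂ y hy⟩)).1
  have J₂ : ∀ x ∈ Ω, Integrable (fun y => G x y * (b y * w₁ y ^ q)) ν := fun x hx =>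
    (stab_int_of_le hΩ (stab_meas_row hGm x) (hG0 x) hbm hb0 hq (hV x hx).1 m₁
      (fun y hy => ⟨p₁ y hy, u₁ y hy⟩)).1
  have hle₁ : ∀ x ∈ Ω, h₁ x ≤ w₁ x := fun x hx => by
    have := stab_int_nonneg hΩ (hG0 x) ha0 p p₂
    linarith [fix₁ x hx]
  have hle₂ : ∀ x ∈ Ω, h₂ x ≤ w₂ x := fun x hx => by
    have := stab_int_nonneg hΩ (hG0 x) hb0 q p₁
    linarith [fix₂ x hx]
  have key₁ : ∀ k, ∀ x ∈ Ω,
      (Integrable (fun y => G x y * (a y * w₂ y ^ p - a y * (W k).2 y ^ p)) ν ∧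
        ∫ y, G x y * (a y * w₂ y ^ p - a y * (W k).2 y ^ p) ∂ν ≤ w₁ x - (W k).1 x) ∧
        (W k).1 x < w₁ x := by
    intro k x hx
    have j := (stab_int_of_le hΩ (stab_meas_row hGm x) (hG0 x) ham ha0 hp (J₁ x hx)
        (B k).2.1 (fun y hy => ⟨((B k).2.2.2 y hy).1, le₂ k y hy⟩)).2
    have l1 := stabLam_lt_one (k + 1)
    have := mul_pos (sub_pos.2 l1) (hh₁ x hx)
    have e := fix₁ x hx
    have e' := hs₁ k x
    have e'' := (mono k x hx).1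
    simp only [mul_sub]
    refine ⟨⟨(J₁ x hx).sub (I₁ k x hx), ?_⟩, by nlinarith⟩
    rw [integral_sub (J₁ x hx) (I₁ k x hx)]
    nlinarith
  have key₂ : ∀ k, ∀ x ∈ Ω,
      (Integrable (fun y => G x y * (b y * w₁ y ^ q - b y * (W k).1 y ^ q)) ν ∧
        ∫ y, G x y * (b y * w₁ y ^ q - b y * (W k).1 y ^ q) ∂ν ≤ w₂ x - (W k).2 x) ∧
        (W k).2 x < w₂ x := by
    intro k x hx
    have j := (stab_int_of_le hΩ (stab_meas_row hGm x) (hG0 x) hbm hb0 hq (J₂ x hx)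
        (B k).1 (fun y hy => ⟨((B k).2.2.1 y hy).1, le₁ k y hy⟩)).2
    have l1 := stabLam_lt_one (k + 1)
    have := mul_pos (sub_pos.2 l1) (hh₂ x hx)
    have e := fix₂ x hx
    have e' := hs₂ k x
    have e'' := (mono k x hx).2
    simp only [mul_sub]
    refine ⟨⟨(J₂ x hx).sub (I₂ k x hx), ?_⟩, by nlinarith⟩
    rw [integral_sub (J₂ x hx) (I₂ k x hx)]
    nlinarith
  refine ⟨w₁, w₂, m₁, m₂, fun x hx => ⟨hle₁ x hx, u₁ x hx, u₁' x hx, hle₂ x hx, u₂ x hx,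
    u₂' x hx, fix₁ x hx, fix₂ x hx⟩, fun Y hY => ?_⟩
  have hF := stab_fatou hΩ Y hGm hG0 hGs ham hbm m₁ m₂ (fun k => (B k).1) (fun k => (B k).2.1)
    ha0 hb0 hp hq (fun k x hx => ⟨((B k).2.2.1 x hx).1, (key₁ k x hx).2⟩)
    (fun k x hx => ⟨((B k).2.2.2 x hx).1, (key₂ k x hx).2⟩) t₁ t₂
    (fun k x hx => (key₁ k x hx).1) (fun k x hx => (key₂ k x hx).1)
  have gm : Measurable fun x => b x * w₁ x ^ q := hbm.mul (m₁.pow_const q)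
  have fm : Measurable fun x => a x * w₂ x ^ p := ham.mul (m₂.pow_const p)
  have g0 : ∀ x ∈ Ω, 0 ≤ b x * w₁ x ^ q := fun x hx =>
    mul_nonneg (hb0 x hx) (Real.rpow_nonneg (p₁ x hx) _)
  have f0 : ∀ x ∈ Ω, 0 ≤ a x * w₂ x ^ p := fun x hx =>
    mul_nonneg (ha0 x hx) (Real.rpow_nonneg (p₂ x hx) _)
  have hEn := stab_energy hΩ hY hGm hG0 hGs gm fm hh₁m hh₂m g0 f0 (fun x hx => (hh₁ x hx).le)
    (fun x hx => (hh₂ x hx).le) (fun x hx => ⟨J₁ x hx, fix₁ x hx⟩)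
    (fun x hx => ⟨J₂ x hx, fix₂ x hx⟩)
  -- conversion to real integrals
  have conv : ∀ (F E : X → ℝ), Measurable F → Integrable E ν → (∀ x ∈ Ω, 0 ≤ F x ∧ F x ≤ E x) →
      ∀ S : Set X, 0 ≤ ∫ x in S, F x ∂ν ∧
        ∫⁻ x in S, ENNReal.ofReal (F x) ∂ν = ENNReal.ofReal (∫ x in S, F x ∂ν) := by
    intro F E hF hE hb S
    have hi : Integrable F ν := by
      refine hE.mono' hF.aestronglyMeasurable ?_
      filter_upwards [hΩ] with x hx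
      rw [Real.norm_of_nonneg (hb x hx).1]; exact (hb x hx).2
    have h0 : 0 ≤ᵐ[ν.restrict S] F := by
      filter_upwards [ae_restrict_of_ae hΩ] with x hx
      exact (hb x hx).1
    exact ⟨integral_nonneg_of_ae h0, (ofReal_integral_eq_lintegral_ofReal hi.restrict h0).symm⟩
  have gU : ∀ x ∈ Ω, b x * w₁ x ^ q ≤ b x * U x ^ q := fun x hx =>
    mul_le_mul_of_nonneg_left (Real.rpow_le_rpow (p₁ x hx) (u₁ x hx) hq.le) (hb0 x hx)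
  have fV : ∀ x ∈ Ω, a x * w₂ x ^ p ≤ a x * V x ^ p := fun x hx =>
    mul_le_mul_of_nonneg_left (Real.rpow_le_rpow (p₂ x hx) (u₂ x hx) hp.le) (ha0 x hx)
  have c1 := conv _ _ (gm.mul m₁) hE₁ (fun x hx => ⟨mul_nonneg (g0 x hx) (p₁ x hx),
    mul_le_mul (gU x hx) (u₁ x hx) (p₁ x hx) ((g0 x hx).trans (gU x hx))⟩)
  have c2 := conv _ _ (fm.mul m₂) hE₂ (fun x hx => ⟨mul_nonneg (f0 x hx) (p₂ x hx),
    mul_le_mul (fV x hx) (u₂ x hx) (p₂ x hx) ((f0 x hx).trans (fV x hx))⟩)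
  have c3 := conv _ _ (gm.mul hh₁m) hE₁ (fun x hx => ⟨mul_nonneg (g0 x hx) (hh₁ x hx).le,
    mul_le_mul (gU x hx) ((hle₁ x hx).trans (u₁ x hx)) (hh₁ x hx).le
      ((g0 x hx).trans (gU x hx))⟩)
  have c4 := conv _ _ (fm.mul hh₂m) hE₂ (fun x hx => ⟨mul_nonneg (f0 x hx) (hh₂ x hx).le,
    mul_le_mul (fV x hx) ((hle₂ x hx).trans (u₂ x hx)) (hh₂ x hx).le
      ((f0 x hx).trans (fV x hx))⟩)
  simp only [Pi.mul_apply] at c1 c2 c3 c4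
  rw [(c1 Y).2, (c2 Y).2] at hF hEn
  rw [(c3 Y).2, (c4 Y).2, (c1 Yᶜ).2, (c2 Yᶜ).2] at hEn
  have n1 := (c1 Y).1
  have n2 := (c2 Y).1
  have n3 := (c3 Y).1
  have n4 := (c4 Y).1
  have n5 := (c1 Yᶜ).1
  have n6 := (c2 Yᶜ).1
  generalize (∫ x in Y, b x * w₁ x ^ q * w₁ x ∂ν) = M₁ at *
  generalize (∫ x in Y, a x * w₂ x ^ p * w₂ x ∂ν) = M₂ at *
  generalize (∫ x in Y, b x * w₁ x ^ q * h₁ x ∂ν) = H₁ at *
  generalize (∫ x in Y, a x * w₂ x ^ p * h₂ x ∂ν) = H₂ at *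
  generalize (∫ x in Yᶜ, b x * w₁ x ^ q * w₁ x ∂ν) = N₁ at *
  generalize (∫ x in Yᶜ, a x * w₂ x ^ p * w₂ x ∂ν) = N₂ at *
  generalize (∫⁻ x in Y, ∫⁻ y in Y,
    ENNReal.ofReal (G x y * (b x * w₁ x ^ q * (a y * w₂ y ^ p))) ∂ν ∂ν) = L at *
  have hκ : 0 ≤ √(p * q) := Real.sqrt_nonneg _
  generalize √(p * q) = κ at *
  rw [← ENNReal.ofReal_add n1 n2] at hF hEn
  rw [← ENNReal.ofReal_add n3 n4, ← ENNReal.ofReal_add (by positivity) n5,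
    ← ENNReal.ofReal_add (by positivity) n6] at hEn
  have fin : ENNReal.ofReal (κ * (M₁ + M₂)) ≤
      ENNReal.ofReal (κ * (H₁ + H₂ + N₁ + N₂) + (M₁ + M₂)) := by
    rw [ENNReal.ofReal_add (by positivity) (by positivity), ENNReal.ofReal_mul hκ,
      ENNReal.ofReal_mul hκ]
    rw [ENNReal.ofReal_mul (by norm_num), ENNReal.ofReal_ofNat] at hF
    calc ENNReal.ofReal κ * ENNReal.ofReal (M₁ + M₂)
        ≤ ENNReal.ofReal κ * (ENNReal.ofReal (H₁ + H₂ + N₁ + N₂) + 2 * L) := by gcongr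
      _ = ENNReal.ofReal κ * ENNReal.ofReal (H₁ + H₂ + N₁ + N₂) + 2 * ENNReal.ofReal κ * L := by
          ring
      _ ≤ _ := by gcongr
  have := (ENNReal.ofReal_le_ofReal_iff (by positivity)).1 fin
  linarith

end Crest.Agent.R077
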