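import Crest.Agent.R077.MainC
import Crest.Agent.R077.Stab

/-! # Row 77: the main inequality on the unit ball -/

set_option autoImplicit false
set_option linter.unusedSectionVars false

open MeasureTheory Metric Set Filter Topology
open scoped RealInnerProductSpace Pointwise

namespace Crest.Agent.R077

variable {E : Type*} [NormedAddCommGroup E] [InnerProductSpace ℝ E]
  [FiniteDimensional ℝ E] [MeasurableSpace E] [BorelSpace E]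

theorem final_algebra {a b a' b' κ E₁ E₂ W₁ W₂ M S T ε : ℝ} (hκ : 0 < κ) (hε : ε = a + b)
    (hS : 0 ≤ S) (hT : 0 ≤ T) (hW₁ : 0 ≤ W₁) (hW₂ : 0 ≤ W₂)
    (h1 : a * E₁ + b * E₂ ≤ a' * W₁ + b' * W₂) (h2 : |E₁ - E₂| ≤ S + T)
    (h3 : W₁ + W₂ ≤ M + S) (h4 : M ≤ κ * (2 * T + S)) :
    ε * (E₁ + E₂) ≤ (|a - b| + 2 * (|a'| + |b'|) * (2 * κ + 1) + 1) * S +
      (|a - b| + 2 * (|a'| + |b'|) * (2 * κ + 1) + 1) * T := by
  have e : ε * (E₁ + E₂) = 2 * (a * E₁ + b * E₂) - (a - b) * (E₁ - E₂) := by rw [hε]; ring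
  have i1 : -((a - b) * (E₁ - E₂)) ≤ |a - b| * (S + T) := by
    calc _ ≤ |(a - b) * (E₁ - E₂)| := neg_le_abs _
      _ = |a - b| * |E₁ - E₂| := abs_mul _ _
      _ ≤ _ := mul_le_mul_of_nonneg_left h2 (abs_nonneg _)
  have ha := abs_nonneg a'
  have hb := abs_nonneg b'
  have i2 : a' * W₁ + b' * W₂ ≤ (|a'| + |b'|) * (W₁ + W₂) := by
    have := mul_le_mul_of_nonneg_right (le_abs_self a') hW₁
    have := mul_le_mul_of_nonneg_right (le_abs_self b') hW₂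
    have := mul_nonneg ha hW₂
    have := mul_nonneg hb hW₁
    nlinarith
  have i3 : W₁ + W₂ ≤ (2 * κ + 1) * (S + T) := by nlinarith [mul_nonneg hκ.le hS]
  have i4 := mul_le_mul_of_nonneg_left i3 (add_nonneg ha hb)
  nlinarith

theorem main_ineq {m A B p q : ℝ} (hn : (Module.finrank ℝ E : ℝ) = 2 * m + 2) (hm : 0 < m)
    (hA : -2 < A) (hB : -2 < B) (hp : 0 < p) (hq : 0 < q) (hpq : 1 < p * q) :
    ∃ C₀ : ℝ, 0 < C₀ ∧ ∀ (c₁ c₂ : ℝ) (u v : E → ℝ), 0 < c₁ → 0 < c₂ →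
      IntSol m c₁ c₂ A B p q u v →
      Integrable (fun y : E => (max ‖y‖ 1) ^ (-(2 * m)) * src c₁ A p v y) →
      Integrable (fun y : E => (max ‖y‖ 1) ^ (-(2 * m)) * src c₂ B q u y) →
      ∀ δ : ℝ, 0 < δ → δ < 1 →
        ((2 * m + 2 + A) / (p + 1) + (2 * m + 2 + B) / (q + 1) - 2 * m) *
            energy c₁ c₂ A B p q u v 1 ≤
          C₀ * (energy c₁ c₂ A B p q u v 1 - energy c₁ c₂ A B p q u v (1 - δ)) +
            C₀ * δ ^ (-(2 * m)) * (mass m (src c₁ A p v) 1 * mass m (src c₂ B q u) 1) := by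
  have := nontrivial_of_hn hn hm
  set As := max A (2 * m * p - (2 * m + 4) - A) with hAs
  set Bs := max B (2 * m * q - (2 * m + 4) - B) with hBs
  set a := (2 * m + 2 + B - m * (q + 1)) / (q + 1) with ha
  set b := (2 * m + 2 + A - m * (p + 1)) / (p + 1) with hb
  set a' := (2 * m + 2 + Bs - m * (q + 1)) / (q + 1) with ha'
  set b' := (2 * m + 2 + As - m * (p + 1)) / (p + 1) with hb'
  have hs1 : 1 < √(p * q) := by
    rw [Real.lt_sqrt zero_le_one]; simpa using hpq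
  set κ := √(p * q) / (√(p * q) - 1) with hκ
  have hκ0 : 0 < κ := div_pos (by linarith) (by linarith)
  refine ⟨|a - b| + 2 * (|a'| + |b'|) * (2 * κ + 1) + 1, by positivity,
    fun c₁ c₂ u v hc₁ hc₂ S hi₁ hi₂ δ hδ hδ1 => ?_⟩
  have hu0 : ∀ x, 0 ≤ u x := fun x => (S.pu x).le
  have hv0 : ∀ x, 0 ≤ v x := fun x => (S.pv x).le
  have Hu : Half m u (src c₁ A p v) :=
    ⟨measurable_src S.cv.measurable, fun y => src_nonneg hc₁.le (hv0 y),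
      fun y hy => src_pos hc₁ hy (S.pv y), S.iu, S.eu, hi₁⟩
  have Hv : Half m v (src c₂ B q u) :=
    ⟨measurable_src S.cu.measurable, fun y => src_nonneg hc₂.le (hu0 y),
      fun y hy => src_pos hc₂ hy (S.pu y), S.iv, S.ev, hi₂⟩
  have hAs2 : -2 < As := hA.trans_le (le_max_left _ _)
  have hBs2 : -2 < Bs := hB.trans_le (le_max_left _ _)
  obtain ⟨w₁, w₂, hw₁m, hw₂m, hw, hstab⟩ := exists_min_sol (volume.restrict (ball (0 : E) 1))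
    {x : E | ‖x‖ < 1 ∧ x ≠ 0} ((ae_ball 1 0).mono fun y hy => ⟨hy.1, hy.2.1⟩)
    (Gr m) (measurable_Gr m) (Gr_nonneg m) (Gr_comm m)
    (fun y => c₁ * ‖y‖ ^ As) (fun y => c₂ * ‖y‖ ^ Bs) (hpot m (src c₁ A p v))
    (hpot m (src c₂ B q u)) u v (kel m u) (kel m v) (by fun_prop) (by fun_prop)
    Hu.measurable_hpot Hv.measurable_hpot (fun x _ => by positivity) (fun x _ => by positivity)
    (fun x hx => Hu.hpot_pos hn hm hx.2 hx.1) (fun x hx => Hv.hpot_pos hn hm hx.2 hx.1) hp hq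
    (fun x _ => hu0 x) (fun x _ => hv0 x) (fun x hx => (kel_pos m S.pu hx.2).le)
    (fun x hx => (kel_pos m S.pv hx.2).le)
    (fun x hx => (Hu.super hn hm hc₁.le hp.le S.cv S.pv hx.1 hx.2).1)
    (fun x hx => (Hv.super hn hm hc₂.le hq.le S.cu S.pu hx.1 hx.2).1)
    (fun x hx => (Hu.super hn hm hc₁.le hp.le S.cv S.pv hx.1 hx.2).2)
    (fun x hx => (Hv.super hn hm hc₂.le hq.le S.cu S.pu hx.1 hx.2).2)
    (integrableOn_src_mul (c := c₂) hn hm hBs2 hq.le S.cu S.cu)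
    (integrableOn_src_mul (c := c₁) hn hm hAs2 hp.le S.cv S.cv)
  set f := src c₁ A p v with hf
  set g := src c₂ B q u with hg
  set fw := src c₁ As p w₂ with hfw
  set gw := src c₂ Bs q w₁ with hgw
  have hw₁0 : ∀ x : E, ‖x‖ < 1 → x ≠ 0 → 0 ≤ w₁ x := fun x h1 h0 =>
    (Hu.hpot_pos hn hm h0 h1).le.trans (hw x ⟨h1, h0⟩).1
  have hw₂0 : ∀ x : E, ‖x‖ < 1 → x ≠ 0 → 0 ≤ w₂ x := fun x h1 h0 =>
    (Hv.hpot_pos hn hm h0 h1).le.trans (hw x ⟨h1, h0⟩).2.2.2.1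
  have hfwm : Measurable fw := measurable_src hw₂m
  have hgwm : Measurable gw := measurable_src hw₁m
  have hfw' : ∀ y : E, ‖y‖ < 1 → y ≠ 0 → 0 ≤ fw y ∧ fw y ≤ f y ∧ fw y ≤ kden m f y :=
    fun y h1 h0 => ⟨src_nonneg hc₁.le (hw₂0 y h1 h0),
      (src_star_le m hc₁.le hp.le hv0 h1 h0 (hw₂0 y h1 h0)).1 (hw y ⟨h1, h0⟩).2.2.2.2.1,
      (src_star_le m hc₁.le hp.le hv0 h1 h0 (hw₂0 y h1 h0)).2 (hw y ⟨h1, h0⟩).2.2.2.2.2.1⟩
  have hgw' : ∀ y : E, ‖y‖ < 1 → y ≠ 0 → 0 ≤ gw y ∧ gw y ≤ g y ∧ gw y ≤ kden m g y :=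
    fun y h1 h0 => ⟨src_nonneg hc₂.le (hw₁0 y h1 h0),
      (src_star_le m hc₂.le hq.le hu0 h1 h0 (hw₁0 y h1 h0)).1 (hw y ⟨h1, h0⟩).2.1,
      (src_star_le m hc₂.le hq.le hu0 h1 h0 (hw₁0 y h1 h0)).2 (hw y ⟨h1, h0⟩).2.2.1⟩
  have gf : Good A f := good_src hc₁.le hp.le S.cv hv0 Hu.mf fun y _ _ => ⟨Hu.f0 y, le_rfl⟩
  have gg : Good B g := good_src hc₂.le hq.le S.cu hu0 Hv.mf fun y _ _ => ⟨Hv.f0 y, le_rfl⟩
  have gfw : Good A fw := good_src hc₁.le hp.le S.cv hv0 hfwm fun y h1 h0 =>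
    ⟨(hfw' y h1 h0).1, (hfw' y h1 h0).2.1⟩
  have ggw : Good B gw := good_src hc₂.le hq.le S.cu hu0 hgwm fun y h1 h0 =>
    ⟨(hgw' y h1 h0).1, (hgw' y h1 h0).2.1⟩
  have sf : GoodS (kden m f) := Hu.goodS hn hm hp.le S.cv (measurable_kden m Hu.mf)
    fun y _ _ => ⟨kden_nonneg m Hu.f0 y, by linarith [Hu.f0 y]⟩
  have sg : GoodS (kden m g) := Hv.goodS hn hm hq.le S.cu (measurable_kden m Hv.mf)
    fun y _ _ => ⟨kden_nonneg m Hv.f0 y, by linarith [Hv.f0 y]⟩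
  have sχ : GoodS (fun y => f y + kden m f y - fw y) := Hu.goodS hn hm hp.le S.cv
    ((Hu.mf.add (measurable_kden m Hu.mf)).sub hfwm) fun y h1 h0 =>
      ⟨by linarith [Hu.f0 y, (hfw' y h1 h0).2.2], by linarith [(hfw' y h1 h0).1]⟩
  have sχ' : GoodS (fun y => g y + kden m g y - gw y) := Hv.goodS hn hm hq.le S.cu
    ((Hv.mf.add (measurable_kden m Hv.mf)).sub hgwm) fun y h1 h0 =>
      ⟨by linarith [Hv.f0 y, (hgw' y h1 h0).2.2], by linarith [(hgw' y h1 h0).1]⟩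
  have ifo : IntegrableOn f (ball (0 : E) 1) := (Hu.mass_eq hn hm).1
  have igo : IntegrableOn g (ball (0 : E) 1) := (Hv.mass_eq hn hm).1
  have ifw : IntegrableOn fw (ball (0 : E) 1) :=
    dom_integrable hfwm (fun y h1 h0 => ⟨(hfw' y h1 h0).1, (hfw' y h1 h0).2.1⟩) ifo
  have igw : IntegrableOn gw (ball (0 : E) 1) :=
    dom_integrable hgwm (fun y h1 h0 => ⟨(hgw' y h1 h0).1, (hgw' y h1 h0).2.1⟩) igo
  have iE₁ : IntegrableOn (fun x => g x * u x) (ball (0 : E) 1) :=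
    integrableOn_src_mul hn hm hB hq.le S.cu S.cu
  have iE₂ : IntegrableOn (fun x => f x * v x) (ball (0 : E) 1) :=
    integrableOn_src_mul hn hm hA hp.le S.cv S.cv
  have le₁ : ∀ y : E, ‖y‖ < 1 → y ≠ 0 → 0 ≤ gw y * w₁ y ∧ gw y * w₁ y ≤ g y * u y :=
    fun y h1 h0 => ⟨mul_nonneg (hgw' y h1 h0).1 (hw₁0 y h1 h0),
      mul_le_mul (hgw' y h1 h0).2.1 (hw y ⟨h1, h0⟩).2.1 (hw₁0 y h1 h0) (Hv.f0 y)⟩
  have le₂ : ∀ y : E, ‖y‖ < 1 → y ≠ 0 → 0 ≤ fw y * w₂ y ∧ fw y * w₂ y ≤ f y * v y :=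
    fun y h1 h0 => ⟨mul_nonneg (hfw' y h1 h0).1 (hw₂0 y h1 h0),
      mul_le_mul (hfw' y h1 h0).2.1 (hw y ⟨h1, h0⟩).2.2.2.2.1 (hw₂0 y h1 h0) (Hu.f0 y)⟩
  have iW₁ : IntegrableOn (fun x => gw x * w₁ x) (ball (0 : E) 1) :=
    dom_integrable (hgwm.mul hw₁m) le₁ iE₁
  have iW₂ : IntegrableOn (fun x => fw x * w₂ x) (ball (0 : E) 1) :=
    dom_integrable (hfwm.mul hw₂m) le₂ iE₂
  have P1 := half_ineq (Bs := Bs) hn hm hc₂.le hq hB hA S.cu hu0 hw₁m hw₁0 gf sf gfw sχ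
    (fun z hz => (Hu.repr hn hm hz).2.2)
    (fun x h1 h0 => (hw x ⟨h1, h0⟩).2.2.2.2.2.2.1.trans
      (Hu.pot_w hn hm hfwm (fun y h1 h0 => ⟨(hfw' y h1 h0).1, (hfw' y h1 h0).2.1⟩) h1 h0))
    igw iW₁
    (fun x₀ hx₀ => Hu.tendsto_w hn hm S.cu
      (fun y h1 h0 => ⟨(hw y ⟨h1, h0⟩).1, (hw y ⟨h1, h0⟩).2.1⟩) hx₀)
  have P2 := half_ineq (Bs := As) hn hm hc₁.le hp hA hB S.cv hv0 hw₂m hw₂0 gg sg ggw sχ'
    (fun z hz => (Hv.repr hn hm hz).2.2)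
    (fun x h1 h0 => (hw x ⟨h1, h0⟩).2.2.2.2.2.2.2.trans
      (Hv.pot_w hn hm hgwm (fun y h1 h0 => ⟨(hgw' y h1 h0).1, (hgw' y h1 h0).2.1⟩) h1 h0))
    ifw iW₂
    (fun x₀ hx₀ => Hv.tendsto_w hn hm S.cv
      (fun y h1 h0 => ⟨(hw y ⟨h1, h0⟩).2.2.2.1, (hw y ⟨h1, h0⟩).2.2.2.2.1⟩) hx₀)
  have X := cross_nonneg hm (fun y h1 h0 => (hfw' y h1 h0).2) (fun y h1 h0 => (hgw' y h1 h0).2)
    (deriv_pot hn hm hA g f _ Hv.mf igo gf sf).2.1
    (deriv_pot hn hm hB f g _ Hu.mf ifo gg sg).2.1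
    (deriv_pot hn hm hA gw fw _ hgwm igw gfw sχ).2.1
    (deriv_pot hn hm hB fw gw _ hfwm ifw ggw sχ').2.1
  have D1 := D_swap m f g (volume.restrict (ball (0 : E) 1))
  have D2 := D_swap m fw gw (volume.restrict (ball (0 : E) 1))
  rw [← hg, ← hgw] at P1
  rw [← hf, ← hfw] at P2
  have hsub : ball (0 : E) (1 - δ) ⊆ ball (0 : E) 1 := ball_subset_ball (by linarith)
  obtain ⟨C1, C2, C3⟩ := cross_bound hn hm Hu Hv hδ iE₁
  obtain ⟨-, C5, C6⟩ := cross_bound hn hm Hv Hu hδ iE₂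
  rw [self_swap hn hm Hu Hv C1] at C2 C3
  have Y1 := inner_bound (φ := gw) (k := hpot m f) hn hm Hu Hv hδ
    (fun y h1 h0 => ⟨(hgw' y h1 h0).1, (hgw' y h1 h0).2.1⟩)
    (fun y h1 h0 => ⟨(Hu.hpot_pos hn hm h0 h1).le, le_rfl⟩)
  have Y2 := inner_bound (φ := fw) (k := hpot m g) hn hm Hv Hu hδ
    (fun y h1 h0 => ⟨(hfw' y h1 h0).1, (hfw' y h1 h0).2.1⟩)
    (fun y h1 h0 => ⟨(Hv.hpot_pos hn hm h0 h1).le, le_rfl⟩)
  have St := hstab (ball (0 : E) (1 - δ)) measurableSet_ball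
  rw [Measure.restrict_restrict measurableSet_ball,
    Measure.restrict_restrict measurableSet_ball.compl, inter_eq_left.2 hsub, inter_comm,
    ← sdiff_eq] at St
  change (√(p * q) - 1) * ((∫ x in ball (0 : E) (1 - δ), gw x * w₁ x) +
      ∫ x in ball (0 : E) (1 - δ), fw x * w₂ x) ≤
    √(p * q) * ((∫ x in ball (0 : E) (1 - δ), gw x * hpot m f x) +
      (∫ x in ball (0 : E) (1 - δ), fw x * hpot m g x) +
      (∫ x in ball (0 : E) 1 \ ball (0 : E) (1 - δ), gw x * w₁ x) +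
      ∫ x in ball (0 : E) 1 \ ball (0 : E) (1 - δ), fw x * w₂ x) at St
  have strip : ∀ {φ ψ : E → ℝ}, IntegrableOn φ (ball (0 : E) 1) → IntegrableOn ψ (ball (0 : E) 1) →
      (∀ y : E, ‖y‖ < 1 → y ≠ 0 → 0 ≤ φ y ∧ φ y ≤ ψ y) →
      0 ≤ ∫ x in ball (0 : E) 1, φ x ∧ 0 ≤ ∫ x in ball (0 : E) 1 \ ball (0 : E) (1 - δ), φ x ∧
      ∫ x in ball (0 : E) 1 \ ball (0 : E) (1 - δ), φ x ≤
        (∫ x in ball (0 : E) 1, ψ x) - ∫ x in ball (0 : E) (1 - δ), ψ x := by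
    intro φ ψ h1 h2 h
    have hae : ∀ᵐ y ∂(volume.restrict (ball (0 : E) 1 \ ball (0 : E) (1 - δ))),
        0 ≤ φ y ∧ φ y ≤ ψ y :=
      ae_restrict_of_ae_restrict_of_subset sdiff_subset
        ((ae_ball 1 0).mono fun y hy => h y hy.1 hy.2.1)
    refine ⟨integral_nonneg_of_ae ((ae_ball 1 0).mono fun y hy => (h y hy.1 hy.2.1).1),
      integral_nonneg_of_ae (hae.mono fun y hy => hy.1), ?_⟩
    rw [← setIntegral_sdiff measurableSet_ball h2 hsub]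
    exact integral_mono_ae (h1.mono_set sdiff_subset) (h2.mono_set sdiff_subset)
      (hae.mono fun y hy => hy.2)
  obtain ⟨Z1, Z2, Z3⟩ := strip iW₁ iE₁ le₁
  obtain ⟨Z4, Z5, Z6⟩ := strip iW₂ iE₂ le₂
  have Z7 := setIntegral_sdiff measurableSet_ball iW₁ hsub
  have Z8 := setIntegral_sdiff measurableSet_ball iW₂ hsub
  have hT : 0 ≤ δ ^ (-(2 * m)) * (mass m f 1 * mass m g 1) := by
    rw [(Hu.mass_eq hn hm).2.2, (Hv.mass_eq hn hm).2.2]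
    exact mul_nonneg (Real.rpow_nonneg hδ.le _) (mul_nonneg
      (add_nonneg (integral_nonneg Hu.f0) (integral_nonneg (kden_nonneg m Hu.f0)))
      (add_nonneg (integral_nonneg Hv.f0) (integral_nonneg (kden_nonneg m Hv.f0))))
  rw [mul_comm (mass m g 1)] at C6 Y2
  simp only [energy]
  rw [← hf, ← hg, mul_assoc _ (δ ^ (-(2 * m)))]
  have hp1 : p + 1 ≠ 0 := by linarith
  have hq1 : q + 1 ≠ 0 := by linarith
  refine final_algebra (a := a) (b := b) (a' := a') (b' := b')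
    (W₁ := ∫ x in ball (0 : E) 1, gw x * w₁ x) (W₂ := ∫ x in ball (0 : E) 1, fw x * w₂ x)
    (M := (∫ x in ball (0 : E) (1 - δ), gw x * w₁ x) + ∫ x in ball (0 : E) (1 - δ), fw x * w₂ x)
    hκ0 (by rw [ha, hb]; field_simp; ring) (by linarith) hT Z1 Z4 ?_ ?_ (by linarith) ?_
  · have e1 : ∀ x y : ℝ, (-(2 * m + 2 + B - m * (q + 1)) * x + (2 * m + 2 + Bs - m * (q + 1)) * y) /
        (q + 1) = -(a * x) + a' * y := fun x y => by rw [ha, ha']; ring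
    have e2 : ∀ x y : ℝ, (-(2 * m + 2 + A - m * (p + 1)) * x + (2 * m + 2 + As - m * (p + 1)) * y) /
        (p + 1) = -(b * x) + b' * y := fun x y => by rw [hb, hb']; ring
    rw [e1] at P1
    rw [e2] at P2
    linarith
  · rw [abs_le]; constructor <;> linarith
  · rw [hκ, div_mul_eq_mul_div, le_div_iff₀ (by linarith), mul_comm]
    refine St.trans (mul_le_mul_of_nonneg_left ?_ (by linarith))
    linarith

end Crest.Agent.R077
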