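import Crest.Agent.R077.Basic

/-! # Row 77: Kelvin representation on the unit ball for one equation `u = K f` -/

set_option autoImplicit false
set_option linter.unusedSectionVars false
set_option linter.unusedVariables false

open MeasureTheory Metric Set Filter Topology
open scoped RealInnerProductSpace Pointwise

namespace Crest.Agent.R077

variable {E : Type*} [NormedAddCommGroup E] [InnerProductSpace ℝ E]

/-- Kelvin transform of a potential. -/
noncomputable def kel (m : ℝ) (u : E → ℝ) (x : E) : ℝ := (‖x‖ ^ 2) ^ (-m) * u (kinv x)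

/-- Kelvin transform of a density. -/
noncomputable def kden (m : ℝ) (f : E → ℝ) (y : E) : ℝ := (‖y‖ ^ 2) ^ (-(m + 2)) * f (kinv y)

/-- Green function of the unit ball. -/
noncomputable def Gr (m : ℝ) (x y : E) : ℝ := max (K m x y - Ks m x y) 0

theorem Gr_nonneg (m : ℝ) (x y : E) : 0 ≤ Gr m x y := le_max_right _ _

theorem Gr_comm (m : ℝ) (x y : E) : Gr m x y = Gr m y x := by
  simp only [Gr, K_comm m x y, Ks_comm m x y]

theorem kel_pos (m : ℝ) {u : E → ℝ} (hu : ∀ x, 0 < u x) {x : E} (hx : x ≠ 0) : 0 < kel m u x :=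
  mul_pos (Real.rpow_pos_of_pos (pow_pos (norm_pos_iff.2 hx) 2) _) (hu _)

theorem kden_nonneg (m : ℝ) {f : E → ℝ} (hf : ∀ x, 0 ≤ f x) (x : E) : 0 ≤ kden m f x :=
  mul_nonneg (Real.rpow_nonneg (by positivity) _) (hf _)

theorem sq_rpow (x : E) (a : ℝ) : (‖x‖ ^ 2) ^ a = ‖x‖ ^ (2 * a) := by
  rw [← Real.rpow_natCast, ← Real.rpow_mul (norm_nonneg _)]; norm_num

/-- The Kelvin transform of the source is the source of the Kelvin transform. -/
theorem kden_src (m c A p : ℝ) {v : E → ℝ} (hv : ∀ x, 0 ≤ v x) {y : E} (hy : y ≠ 0) :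
    kden m (src c A p v) y = src c (2 * m * p - (2 * m + 4) - A) p (kel m v) y := by
  have h : 0 < ‖y‖ := norm_pos_iff.2 hy
  simp only [kden, src, kel, sq_rpow, norm_kinv]
  rw [Real.mul_rpow (Real.rpow_nonneg h.le _) (hv _), ← Real.rpow_mul h.le, Real.inv_rpow h.le,
    ← Real.rpow_neg h.le]
  have e : ‖y‖ ^ (2 * -(m + 2)) * ‖y‖ ^ (-A) =
      ‖y‖ ^ (2 * m * p - (2 * m + 4) - A) * ‖y‖ ^ (2 * -m * p) := by
    rw [← Real.rpow_add h, ← Real.rpow_add h]; congr 1; ring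
  calc ‖y‖ ^ (2 * -(m + 2)) * (c * ‖y‖ ^ (-A) * v (kinv y) ^ p)
      = c * (‖y‖ ^ (2 * -(m + 2)) * ‖y‖ ^ (-A)) * v (kinv y) ^ p := by ring
    _ = _ := by rw [e]; ring

theorem src_mono {c A A' p : ℝ} {v w : E → ℝ} (hc : 0 ≤ c) (hp : 0 ≤ p) (hA : A ≤ A') {y : E}
    (hy : y ≠ 0) (hy1 : ‖y‖ < 1) (hw : 0 ≤ w y) (hwv : w y ≤ v y) :
    src c A' p w y ≤ src c A p v y := by
  have h : 0 < ‖y‖ := norm_pos_iff.2 hy
  simp only [src]
  exact mul_le_mul (mul_le_mul_of_nonneg_left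
    (Real.rpow_le_rpow_of_exponent_ge h hy1.le hA) hc) (Real.rpow_le_rpow hw hwv hp)
    (Real.rpow_nonneg hw _) (mul_nonneg hc (Real.rpow_nonneg h.le _))

variable [FiniteDimensional ℝ E] [MeasurableSpace E] [BorelSpace E]

theorem measurable_kel (m : ℝ) {u : E → ℝ} (hu : Measurable u) : Measurable (kel m u) := by
  have := hu.comp (measurable_kinv (E := E))
  unfold kel
  exact (by fun_prop : Measurable fun x : E => (‖x‖ ^ 2) ^ (-m)).mul this

theorem measurable_kden (m : ℝ) {u : E → ℝ} (hu : Measurable u) : Measurable (kden m u) := by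
  have := hu.comp (measurable_kinv (E := E))
  unfold kden
  exact (by fun_prop : Measurable fun x : E => (‖x‖ ^ 2) ^ (-(m + 2))).mul this

theorem measurable_Gr (m : ℝ) : Measurable (fun z : E × E => Gr m z.1 z.2) :=
  ((measurable_K m).sub (measurable_Ks m)).max measurable_const

theorem measurable_K_right (m : ℝ) (x : E) : Measurable (fun y : E => K m x y) := by
  unfold K; fun_prop

theorem measurable_Ks_right (m : ℝ) (x : E) : Measurable (fun y : E => Ks m x y) := by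
  unfold Ks Qs; fun_prop

theorem ae_ball [Nontrivial E] (R : ℝ) (x : E) :
    ∀ᵐ y ∂(volume.restrict (ball (0 : E) R)), ‖y‖ < R ∧ y ≠ 0 ∧ y ≠ x := by
  have h1 : ∀ᵐ y ∂(volume : Measure E), y ≠ 0 := by simp [ae_iff]
  have h2 : ∀ᵐ y ∂(volume : Measure E), y ≠ x := by simp [ae_iff]
  filter_upwards [ae_restrict_mem measurableSet_ball, ae_restrict_of_ae h1,
    ae_restrict_of_ae h2] with y h h' h''
  exact ⟨mem_ball_zero_iff.1 h, h', h''⟩

/-- Harmonic function with the boundary values of `u`. -/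
noncomputable def hpot (m : ℝ) (f : E → ℝ) (x : E) : ℝ :=
  ∫ y in ball (0 : E) 1, Ks m x y * (f y + kden m f y)

/-- One equation `u = K f` of the integral system. -/
structure Half (m : ℝ) (u f : E → ℝ) : Prop where
  mf : Measurable f
  f0 : ∀ y, 0 ≤ f y
  fp : ∀ y, y ≠ 0 → 0 < f y
  int : ∀ x, x ≠ 0 → Integrable (fun y => K m x y * f y)
  eq : ∀ x, x ≠ 0 → u x = ∫ y, K m x y * f y
  im : Integrable (fun y : E => (max ‖y‖ 1) ^ (-(2 * m)) * f y)

theorem jac_mul {m : ℝ} (hn : (Module.finrank ℝ E : ℝ) = 2 * m + 2) {y : E} (hy : y ≠ 0) :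
    ((‖y‖ ^ 2) ^ (Module.finrank ℝ E))⁻¹ * (‖y‖ ^ 2) ^ m = (‖y‖ ^ 2) ^ (-(m + 2)) := by
  have h : 0 < ‖y‖ ^ 2 := pow_pos (norm_pos_iff.2 hy) 2
  rw [rpow_finrank hn, ← Real.rpow_neg h.le, ← Real.rpow_add h]
  congr 1; ring

namespace Half

variable {m : ℝ} {u f : E → ℝ}

theorem repr (hn : (Module.finrank ℝ E : ℝ) = 2 * m + 2) (hm : 0 < m) (H : Half m u f) {z : E}
    (hz : z ≠ 0) :
    IntegrableOn (fun y => K m z y * f y) (ball (0 : E) 1) ∧
      IntegrableOn (fun y => Ks m z y * kden m f y) (ball (0 : E) 1) ∧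
      u z = pot m f (kden m f) z := by
  have := nontrivial_of_hn hn hm
  have e : ∀ᵐ y ∂(volume.restrict (ball (0 : E) 1)),
      ((‖y‖ ^ 2) ^ (Module.finrank ℝ E))⁻¹ * (K m z (kinv y) * f (kinv y)) =
        Ks m z y * kden m f y := by
    filter_upwards [ae_ball 1 0] with y hy
    rw [K_kinv_right m z hy.2.1, kden, ← jac_mul hn hy.2.1]; ring
  refine ⟨(H.int z hz).integrableOn, ?_, ?_⟩
  · exact ((kelvin_integrableOn _).1 (H.int z hz).integrableOn).congr e
  · rw [H.eq z hz, integral_split _ (H.int z hz), kelvin_integral, integral_congr_ae e, pot]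

theorem repr' (hn : (Module.finrank ℝ E : ℝ) = 2 * m + 2) (hm : 0 < m) (H : Half m u f) {x : E}
    (hx : x ≠ 0) :
    IntegrableOn (fun y => K m x y * kden m f y) (ball (0 : E) 1) ∧
      IntegrableOn (fun y => Ks m x y * f y) (ball (0 : E) 1) ∧
      kel m u x = pot m (kden m f) f x := by
  obtain ⟨h1, h2, h3⟩ := H.repr hn hm (kinv_ne_zero hx)
  have h : 0 < ‖x‖ ^ 2 := pow_pos (norm_pos_iff.2 hx) 2
  have hc : (‖x‖ ^ 2) ^ (-m) * (‖x‖ ^ 2) ^ m = 1 := by rw [← Real.rpow_add h]; simp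
  have e1 : ∀ y, (‖x‖ ^ 2) ^ (-m) * (K m (kinv x) y * f y) = Ks m x y * f y := by
    intro y; rw [K_kinv_left m hx]
    calc _ = ((‖x‖ ^ 2) ^ (-m) * (‖x‖ ^ 2) ^ m) * (Ks m x y * f y) := by ring
      _ = _ := by rw [hc, one_mul]
  have e2 : ∀ y, (‖x‖ ^ 2) ^ (-m) * (Ks m (kinv x) y * kden m f y) = K m x y * kden m f y := by
    intro y; rw [Ks_kinv_left m hx]
    calc _ = ((‖x‖ ^ 2) ^ (-m) * (‖x‖ ^ 2) ^ m) * (K m x y * kden m f y) := by ring
      _ = _ := by rw [hc, one_mul]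
  refine ⟨?_, ?_, ?_⟩
  · exact (h2.const_mul ((‖x‖ ^ 2) ^ (-m))).congr (Eventually.of_forall e2)
  · exact (h1.const_mul ((‖x‖ ^ 2) ^ (-m))).congr (Eventually.of_forall e1)
  · rw [kel, h3, pot, pot, mul_add, ← integral_const_mul, ← integral_const_mul]
    simp only [e1, e2]; ring

theorem mass_eq (hn : (Module.finrank ℝ E : ℝ) = 2 * m + 2) (hm : 0 < m) (H : Half m u f) :
    IntegrableOn f (ball (0 : E) 1) ∧ IntegrableOn (kden m f) (ball (0 : E) 1) ∧
      mass m f 1 = (∫ y in ball (0 : E) 1, f y) + ∫ y in ball (0 : E) 1, kden m f y := by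
  have := nontrivial_of_hn hn hm
  have e1 : ∀ᵐ y ∂(volume.restrict (ball (0 : E) 1)), (max ‖y‖ 1) ^ (-(2 * m)) * f y = f y := by
    filter_upwards [ae_ball 1 0] with y hy
    rw [max_eq_right hy.1.le]; simp
  have e2 : ∀ᵐ y ∂(volume.restrict (ball (0 : E) 1)),
      ((‖y‖ ^ 2) ^ (Module.finrank ℝ E))⁻¹ * ((max ‖kinv y‖ 1) ^ (-(2 * m)) * f (kinv y)) =
        kden m f y := by
    filter_upwards [ae_ball 1 0] with y hy
    have h : 0 < ‖y‖ := norm_pos_iff.2 hy.2.1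
    rw [norm_kinv, max_eq_left ((one_le_inv₀ h).2 hy.1.le), kden, ← jac_mul hn hy.2.1,
      Real.inv_rpow h.le, Real.rpow_neg h.le, inv_inv, sq_rpow]
    ring
  refine ⟨H.im.integrableOn.congr e1, ((kelvin_integrableOn _).1 H.im.integrableOn).congr e2, ?_⟩
  rw [mass, integral_split _ H.im, kelvin_integral, integral_congr_ae e1, integral_congr_ae e2]

theorem int_hpot (hn : (Module.finrank ℝ E : ℝ) = 2 * m + 2) (hm : 0 < m) (H : Half m u f)
    {x : E} (hx : x ≠ 0) :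
    IntegrableOn (fun y => Ks m x y * (f y + kden m f y)) (ball (0 : E) 1) := by
  refine ((H.repr' hn hm hx).2.1.add (H.repr hn hm hx).2.1).congr
    (Eventually.of_forall fun y => ?_)
  simp only [Pi.add_apply, mul_add]

theorem hpot_eq (hn : (Module.finrank ℝ E : ℝ) = 2 * m + 2) (hm : 0 < m) (H : Half m u f)
    {x : E} (hx : x ≠ 0) :
    hpot m f x = (∫ y in ball (0 : E) 1, Ks m x y * f y) +
      ∫ y in ball (0 : E) 1, Ks m x y * kden m f y := by
  rw [hpot, ← integral_add (H.repr' hn hm hx).2.1 (H.repr hn hm hx).2.1]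
  simp only [mul_add]

theorem measurable_hpot (H : Half m u f) : Measurable (hpot m f) := by
  have h : Measurable (fun z : E × E => Ks m z.1 z.2 * (f z.2 + kden m f z.2)) :=
    (measurable_Ks m).mul ((H.mf.add (measurable_kden m H.mf)).comp measurable_snd)
  exact (h.stronglyMeasurable.integral_prod_right'
    (ν := volume.restrict (ball (0 : E) 1))).measurable

theorem hpot_pos (hn : (Module.finrank ℝ E : ℝ) = 2 * m + 2) (hm : 0 < m) (H : Half m u f)
    {x : E} (hx : x ≠ 0) (hx1 : ‖x‖ < 1) : 0 < hpot m f x := by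
  have := nontrivial_of_hn hn hm
  rw [hpot, setIntegral_pos_iff_support_of_nonneg_ae
    (Eventually.of_forall fun y => mul_nonneg (Ks_nonneg m x y)
      (add_nonneg (H.f0 y) (kden_nonneg m H.f0 y))) (H.int_hpot hn hm hx)]
  have h1 : (ball (0 : E) 1 \ {0} : Set E) ⊆
      (Function.support fun y => Ks m x y * (f y + kden m f y)) ∩ ball (0 : E) 1 := by
    intro y hy
    exact ⟨(mul_pos (Ks_pos m hx1.le (mem_ball_zero_iff.1 hy.1))
      (add_pos_of_pos_of_nonneg (H.fp y hy.2) (kden_nonneg m H.f0 y))).ne', hy.1⟩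
  refine lt_of_lt_of_le ?_ (measure_mono h1)
  rw [measure_congr (ball_diff_ae_eq 1)]
  exact measure_ball_pos _ _ one_pos

theorem hpot_le_mass (hn : (Module.finrank ℝ E : ℝ) = 2 * m + 2) (hm : 0 < m) (H : Half m u f)
    {δ : ℝ} (hδ : 0 < δ) {x : E} (hx : x ≠ 0) (hx1 : ‖x‖ ≤ 1 - δ) :
    hpot m f x ≤ δ ^ (-(2 * m)) * mass m f 1 := by
  obtain ⟨h1, h2, h3⟩ := H.mass_eq hn hm
  rw [h3, ← integral_add h1 h2, ← integral_const_mul, hpot]
  refine setIntegral_mono_on (H.int_hpot hn hm hx) ((h1.add h2).const_mul _) measurableSet_ball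
    fun y hy => ?_
  exact mul_le_mul_of_nonneg_right (Ks_le_of_norm_le hm.le hδ hx1 (mem_ball_zero_iff.1 hy).le)
    (add_nonneg (H.f0 y) (kden_nonneg m H.f0 y))

end Half

theorem Gr_integral {m : ℝ} [Nontrivial E] (hm : 0 < m) {x : E} (hx1 : ‖x‖ < 1) {ψ : E → ℝ}
    (h1 : IntegrableOn (fun y => K m x y * ψ y) (ball (0 : E) 1))
    (h2 : IntegrableOn (fun y => Ks m x y * ψ y) (ball (0 : E) 1)) :
    IntegrableOn (fun y => Gr m x y * ψ y) (ball (0 : E) 1) ∧
      ∫ y in ball (0 : E) 1, Gr m x y * ψ y =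
        (∫ y in ball (0 : E) 1, K m x y * ψ y) - ∫ y in ball (0 : E) 1, Ks m x y * ψ y := by
  have e : ∀ᵐ y ∂(volume.restrict (ball (0 : E) 1)),
      K m x y * ψ y - Ks m x y * ψ y = Gr m x y * ψ y := by
    filter_upwards [ae_ball 1 x] with y hy
    rw [Gr, max_eq_left (sub_nonneg.2 (Ks_le_K hm.le hx1.le hy.1.le hy.2.2.symm))]; ring
  exact ⟨(h1.sub h2).congr e, by rw [← integral_congr_ae e, integral_sub h1 h2]⟩

namespace Half

variable {m : ℝ} {u f : E → ℝ}

theorem green_repr (hn : (Module.finrank ℝ E : ℝ) = 2 * m + 2) (hm : 0 < m) (H : Half m u f)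
    {x : E} (hx : x ≠ 0) (hx1 : ‖x‖ < 1) :
    (IntegrableOn (fun y => Gr m x y * f y) (ball (0 : E) 1) ∧
      hpot m f x + ∫ y in ball (0 : E) 1, Gr m x y * f y = u x) ∧
    (IntegrableOn (fun y => Gr m x y * kden m f y) (ball (0 : E) 1) ∧
      hpot m f x + ∫ y in ball (0 : E) 1, Gr m x y * kden m f y = kel m u x) := by
  have := nontrivial_of_hn hn hm
  obtain ⟨h1, h2, h3⟩ := H.repr hn hm hx
  obtain ⟨h4, h5, h6⟩ := H.repr' hn hm hx
  obtain ⟨h7, h8⟩ := Gr_integral hm hx1 h1 h5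
  obtain ⟨h9, h10⟩ := Gr_integral hm hx1 h4 h2
  refine ⟨⟨h7, ?_⟩, h9, ?_⟩
  · rw [H.hpot_eq hn hm hx, h8, h3, pot]; ring
  · rw [H.hpot_eq hn hm hx, h10, h6, pot]; ring

theorem hpot_lsc (hn : (Module.finrank ℝ E : ℝ) = 2 * m + 2) (hm : 0 < m) (H : Half m u f)
    {x₀ : E} (hx₀ : ‖x₀‖ = 1) {a : ℝ} (ha : a < u x₀) :
    ∀ᶠ x in 𝓝 x₀, a < hpot m f x := by
  have := nontrivial_of_hn hn hm
  have hx₀0 : x₀ ≠ 0 := by rintro rfl; simp at hx₀
  have hF0 : ∀ x y, 0 ≤ Ks m x y * (f y + kden m f y) := fun x y =>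
    mul_nonneg (Ks_nonneg m x y) (add_nonneg (H.f0 y) (kden_nonneg m H.f0 y))
  have hh0 : ∀ x, 0 ≤ hpot m f x := fun x => integral_nonneg (hF0 x)
  by_cases ha0 : a < 0
  · exact Eventually.of_forall fun x => ha0.trans_le (hh0 x)
  push Not at ha0
  have hval : hpot m f x₀ = u x₀ := by
    rw [H.hpot_eq hn hm hx₀0, (H.repr hn hm hx₀0).2.2, pot]
    simp only [Ks_eq_K_of_norm_eq_one m hx₀]
  have hl : ∀ x, x ≠ 0 → ∫⁻ y in ball (0 : E) 1, ENNReal.ofReal (Ks m x y * (f y + kden m f y)) =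
      ENNReal.ofReal (hpot m f x) := fun x hx =>
    (ofReal_integral_eq_lintegral_ofReal (H.int_hpot hn hm hx)
      (Eventually.of_forall (hF0 x))).symm
  have hfat := lintegral_liminf_le (μ := volume.restrict (ball (0 : E) 1)) (u := 𝓝 x₀)
    (f := fun x y => ENNReal.ofReal (Ks m x y * (f y + kden m f y)))
    (fun x => ((measurable_Ks_right m x).mul (H.mf.add (measurable_kden m H.mf))).ennreal_ofReal)
  have hlim : ∀ᵐ y ∂(volume.restrict (ball (0 : E) 1)),
      liminf (fun x => ENNReal.ofReal (Ks m x y * (f y + kden m f y))) (𝓝 x₀) =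
        ENNReal.ofReal (Ks m x₀ y * (f y + kden m f y)) := by
    filter_upwards [ae_ball 1 0] with y hy
    apply Tendsto.liminf_eq
    apply ENNReal.tendsto_ofReal
    refine Tendsto.mul_const _ ?_
    have hq : ContinuousAt (fun x : E => Qs x y) x₀ := by unfold Qs; fun_prop
    exact hq.rpow_const (Or.inl (Qs_pos hx₀.le hy.1).ne')
  rw [lintegral_congr_ae hlim, hl x₀ hx₀0, hval] at hfat
  have hlt : ENNReal.ofReal a < liminf (fun x => ∫⁻ y in ball (0 : E) 1,
      ENNReal.ofReal (Ks m x y * (f y + kden m f y))) (𝓝 x₀) :=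
    lt_of_lt_of_le ((ENNReal.ofReal_lt_ofReal_iff (by linarith)).2 ha) hfat
  filter_upwards [eventually_lt_of_lt_liminf hlt, eventually_ne_nhds hx₀0] with x hx hx0
  rw [hl x hx0] at hx
  exact (ENNReal.ofReal_lt_ofReal_iff_of_nonneg ha0).1 hx

end Half

end Crest.Agent.R077
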