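import Crest.Agent.R077.MainA
import Crest.Agent.R077.DerivD

/-! # Row 77: dilation (Pohozaev) inequalities -/

set_option autoImplicit false
set_option linter.unusedSectionVars false
set_option linter.unusedVariables false

open MeasureTheory Metric Set Filter Topology
open scoped RealInnerProductSpace Pointwise

namespace Crest.Agent.R077

theorem young_convex {q s t : ℝ} (hq : 0 < q) (hs : 0 ≤ s) (ht : 0 ≤ t) :
    s ^ q * t ≤ (q * (s ^ q * s) + t ^ q * t) / (q + 1) := by
  have hq1 : 0 < q + 1 := by linarith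
  have h := Real.geom_mean_le_arith_mean2_weighted (w₁ := q / (q + 1)) (w₂ := 1 / (q + 1))
    (p₁ := s ^ (q + 1)) (p₂ := t ^ (q + 1)) (by positivity) (by positivity) (by positivity)
    (by positivity) (by field_simp)
  rw [← Real.rpow_mul hs, ← Real.rpow_mul ht, mul_div_cancel₀ _ hq1.ne', mul_div_cancel₀ _ hq1.ne',
    Real.rpow_one, Real.rpow_add_one' hs hq1.ne', Real.rpow_add_one' ht hq1.ne'] at h
  calc _ ≤ _ := h
    _ = _ := by field_simp

theorem tendsto_exp_slope (a : ℝ) :
    Tendsto (fun h : ℝ => (Real.exp (a * h) - 1) / h) (𝓝[>] 0) (𝓝 a) := by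
  have h1 : HasDerivAt (fun h : ℝ => Real.exp (a * h)) a 0 := by
    have := ((hasDerivAt_id (0 : ℝ)).const_mul a).exp
    simpa using this
  have h2 := h1.tendsto_slope_zero_right
  simpa [div_eq_inv_mul] using h2

variable {E : Type*} [NormedAddCommGroup E] [InnerProductSpace ℝ E]

theorem src_dilate (m c β q h : ℝ) (W : E → ℝ) {x : E} (hW : 0 ≤ W (Real.exp h • x)) :
    src c β q (fun x => Real.exp (m * h) * W (Real.exp h • x)) x *
        (Real.exp (m * h) * W (Real.exp h • x)) =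
      Real.exp ((m * (q + 1) - β) * h) * (src c β q W (Real.exp h • x) * W (Real.exp h • x)) := by
  have he := Real.exp_pos h
  simp only [src]
  rw [norm_smul, Real.norm_of_nonneg he.le, Real.mul_rpow he.le (norm_nonneg _),
    Real.mul_rpow (Real.exp_pos _).le hW, ← Real.exp_mul, ← Real.exp_mul]
  have e : Real.exp (m * h * q) * Real.exp (m * h) =
      Real.exp ((m * (q + 1) - β) * h) * Real.exp (h * β) := by
    rw [← Real.exp_add, ← Real.exp_add]; congr 1; ring
  calc _ = (Real.exp (m * h * q) * Real.exp (m * h)) *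
      (c * ‖x‖ ^ β * W (Real.exp h • x) ^ q * W (Real.exp h • x)) := by ring
    _ = _ := by rw [e]; ring

variable [FiniteDimensional ℝ E] [MeasurableSpace E] [BorelSpace E]

theorem setIntegral_ball_dilate {m : ℝ} (hn : (Module.finrank ℝ E : ℝ) = 2 * m + 2) (ζ : E → ℝ)
    (h r : ℝ) :
    ∫ x in ball (0 : E) r, ζ (Real.exp h • x) =
      Real.exp (-((2 * m + 2) * h)) * ∫ x in ball (0 : E) (Real.exp h * r), ζ x := by
  have he := Real.exp_pos h
  rw [Measure.setIntegral_comp_smul_of_pos volume ζ _ he, rpow_finrank hn, smul_eq_mul,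
    _root_.smul_ball he.ne', smul_zero, Real.norm_of_nonneg he.le, ← Real.exp_mul,
    ← Real.exp_neg]
  congr 2; ring

theorem integrableOn_ball_dilate (ζ : E → ℝ) (h r : ℝ)
    (hζ : IntegrableOn ζ (ball (0 : E) (Real.exp h * r))) :
    IntegrableOn (fun x => ζ (Real.exp h • x)) (ball (0 : E) r) := by
  have he := Real.exp_pos h
  rw [← integrable_indicator_iff measurableSet_ball] at hζ ⊢
  refine (hζ.comp_smul he.ne').congr (Eventually.of_forall fun x => ?_)
  have : Real.exp h • x ∈ ball (0 : E) (Real.exp h * r) ↔ x ∈ ball (0 : E) r := by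
    simp only [mem_ball_zero_iff, norm_smul, Real.norm_of_nonneg he.le]
    exact mul_lt_mul_iff_right₀ he
  by_cases hx : x ∈ ball (0 : E) r
  · simp only [indicator_of_mem hx, indicator_of_mem (this.2 hx)]
  · simp only [indicator_of_notMem hx, indicator_of_notMem (mt this.1 hx)]

theorem conv_ineq {m c β q h : ℝ} (hn : (Module.finrank ℝ E : ℝ) = 2 * m + 2) (hm : 0 < m)
    (hc : 0 ≤ c) (hq : 0 < q) (W : E → ℝ) (hWm : Measurable W)
    (hW0 : ∀ x : E, ‖x‖ < 1 → x ≠ 0 → 0 ≤ W x)
    (hWh : ∀ x : E, ‖x‖ < 1 → x ≠ 0 → 0 ≤ W (Real.exp h • x))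
    (hi1 : IntegrableOn (fun x => src c β q W x * W x) (ball (0 : E) 1))
    (hi2 : IntegrableOn (fun x => src c β q W x * W x) (ball (0 : E) (Real.exp h))) :
    ∫ x in ball (0 : E) 1, src c β q W x * (Real.exp (m * h) * W (Real.exp h • x) - W x) ≤
      (Real.exp (-((2 * m + 2 + β - m * (q + 1)) * h)) *
        (∫ x in ball (0 : E) (Real.exp h), src c β q W x * W x) -
          ∫ x in ball (0 : E) 1, src c β q W x * W x) / (q + 1) := by
  have := nontrivial_of_hn hn hm
  have hq1 : 0 < q + 1 := by linarith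
  set ζ : E → ℝ := fun x => src c β q W x * W x with hζ
  have hi3 : IntegrableOn (fun x => ζ (Real.exp h • x)) (ball (0 : E) 1) :=
    integrableOn_ball_dilate ζ h 1 (by rwa [mul_one])
  have hpt : ∀ᵐ x ∂(volume.restrict (ball (0 : E) 1)),
      0 ≤ src c β q W x * (Real.exp (m * h) * W (Real.exp h • x)) ∧
      src c β q W x * (Real.exp (m * h) * W (Real.exp h • x)) ≤
        (q * ζ x + Real.exp ((m * (q + 1) - β) * h) * ζ (Real.exp h • x)) / (q + 1) := by
    filter_upwards [ae_ball 1 0] with x hx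
    have h0 := hW0 x hx.1 hx.2.1
    have h1 : 0 ≤ Real.exp (m * h) * W (Real.exp h • x) :=
      mul_nonneg (Real.exp_pos _).le (hWh x hx.1 hx.2.1)
    refine ⟨mul_nonneg (src_nonneg hc h0) h1, ?_⟩
    simp only [hζ]
    rw [← src_dilate m c β q h W (hWh x hx.1 hx.2.1)]
    have h2 := mul_le_mul_of_nonneg_left (young_convex hq h0 h1)
      (mul_nonneg hc (Real.rpow_nonneg (norm_nonneg x) β))
    simp only [src]
    calc _ = _ := by ring
      _ ≤ _ := h2
      _ = _ := by ring
  have hi4 : IntegrableOn (fun x =>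
      (q * ζ x + Real.exp ((m * (q + 1) - β) * h) * ζ (Real.exp h • x)) / (q + 1))
      (ball (0 : E) 1) := ((hi1.const_mul q).add (hi3.const_mul _)).div_const _
  have hi5 : IntegrableOn (fun x => src c β q W x * (Real.exp (m * h) * W (Real.exp h • x)))
      (ball (0 : E) 1) := by
    refine Integrable.mono' hi4 ?_ ?_
    · exact ((measurable_src hWm).mul
        ((hWm.comp (measurable_const_smul _)).const_mul _)).aestronglyMeasurable
    · filter_upwards [hpt] with x hx
      rw [Real.norm_of_nonneg hx.1]; exact hx.2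
  have h6 := integral_mono_ae hi5 hi4 (hpt.mono fun x hx => hx.2)
  rw [integral_div, integral_add (hi1.const_mul q) (hi3.const_mul _), integral_const_mul,
    integral_const_mul, setIntegral_ball_dilate hn ζ h 1, mul_one, ← mul_assoc,
    ← Real.exp_add] at h6
  simp only [mul_sub]
  rw [integral_sub hi5 hi1]
  have e : (m * (q + 1) - β) * h + -((2 * m + 2) * h) = -((2 * m + 2 + β - m * (q + 1)) * h) := by
    ring
  rw [e] at h6
  rw [le_div_iff₀ hq1] at h6 ⊢
  linarith

theorem strip_ineq {m c B Bs q : ℝ} (hn : (Module.finrank ℝ E : ℝ) = 2 * m + 2) (hm : 0 < m)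
    (hq : 0 < q) (hB : -2 < B) {u w : E → ℝ} (hu : Continuous u)
    (hiw : IntegrableOn (fun x => src c Bs q w x * w x) (ball (0 : E) 1))
    (hw : ∀ x₀ : E, ‖x₀‖ = 1 → Tendsto w (𝓝[ball (0 : E) 1] x₀) (𝓝 (u x₀))) (τ τ' : ℝ) {η : ℝ}
    (hη : 0 < η) :
    ∀ᶠ h in 𝓝[>] (0 : ℝ),
      Real.exp (-(τ * h)) * ((∫ x in ball (0 : E) (Real.exp h), src c B q u x * u x) -
          ∫ x in ball (0 : E) 1, src c B q u x * u x) -
        Real.exp (τ' * h) * ((∫ x in ball (0 : E) 1, src c Bs q w x * w x) -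
          ∫ x in ball (0 : E) (Real.exp (-h)), src c Bs q w x * w x) ≤ η * h := by
  have := nontrivial_of_hn hn hm
  set ζ : E → ℝ := fun x => src c B q u x * u x with hζ
  set ξ : E → ℝ := fun x => src c Bs q w x * w x with hξ
  set ω := (volume : Measure E).real (ball 0 1) with hω
  have hω0 : 0 ≤ ω := measureReal_nonneg
  set η' := η / (ω * (2 * m + 2) + 1) with hη'
  have hη'0 : 0 < η' := by positivity
  set Z : ℝ → E → ℝ := fun h x =>
    Real.exp ((2 * m + 2 - τ) * h) * ζ (Real.exp h • x) - Real.exp (τ' * h) * ξ x with hZ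
  have hev : ∀ᶠ h in 𝓝 (0 : ℝ), ∀ x ∈ closedBall (0 : E) 1,
      Real.exp (-h) ≤ ‖x‖ → x ∈ ball (0 : E) 1 → Z h x < η' := by
    apply (isCompact_closedBall (0 : E) 1).eventually_forall_of_forall_eventually
    intro x₀ hx₀
    rcases (mem_closedBall_zero_iff.1 hx₀).eq_or_lt with h1 | h1
    · have hx0 : x₀ ≠ 0 := by rintro rfl; simp at h1
      have hζc : ContinuousAt ζ x₀ :=
        ((continuousOn_src hu hq.le).continuousAt (isOpen_compl_singleton.mem_nhds hx0)).mul
          hu.continuousAt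
      have t1 : Tendsto (fun z : ℝ × E => Real.exp ((2 * m + 2 - τ) * z.1) * ζ (Real.exp z.1 • z.2))
          (𝓝 (0, x₀)) (𝓝 (ζ x₀)) := by
        have a1 : ContinuousAt (fun z : ℝ × E => Real.exp z.1 • z.2) (0, x₀) := by fun_prop
        have a2 : ContinuousAt (fun z : ℝ × E => ζ (Real.exp z.1 • z.2)) (0, x₀) :=
          ContinuousAt.comp (g := ζ) (f := fun z : ℝ × E => Real.exp z.1 • z.2)
            (by simpa using hζc) a1
        have a3 : ContinuousAt (fun z : ℝ × E => Real.exp ((2 * m + 2 - τ) * z.1)) (0, x₀) := by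
          fun_prop
        simpa using a3.tendsto.mul a2.tendsto
      have t2 : Tendsto (fun z : ℝ × E => w z.2) (𝓝[{z | z.2 ∈ ball (0 : E) 1}] (0, x₀))
          (𝓝 (u x₀)) :=
        (hw x₀ h1).comp (tendsto_nhdsWithin_of_tendsto_nhds_of_eventually_within _
          (continuousAt_snd.tendsto.mono_left nhdsWithin_le_nhds) self_mem_nhdsWithin)
      have t3 : Tendsto (fun z : ℝ × E => Real.exp (τ' * z.1) * ξ z.2)
          (𝓝[{z | z.2 ∈ ball (0 : E) 1}] (0, x₀)) (𝓝 (ζ x₀)) := by
        have a1 : ContinuousAt (fun z : ℝ × E => Real.exp (τ' * z.1) * (c * ‖z.2‖ ^ Bs)) (0, x₀) := by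
          have : ContinuousAt (fun z : ℝ × E => ‖z.2‖ ^ Bs) (0, x₀) :=
            (by fun_prop : ContinuousAt (fun z : ℝ × E => ‖z.2‖) (0, x₀)).rpow_const
              (Or.inl (by simp [h1]))
          fun_prop
        have a2 := ((a1.tendsto.mono_left nhdsWithin_le_nhds).mul
          (t2.rpow_const (Or.inr hq.le))).mul t2
        simp only [hξ, hζ, src, h1, Real.one_rpow, mul_zero, Real.exp_zero, one_mul, mul_one] at a2 ⊢
        refine a2.congr fun z => by ring
      have t4 := (t1.mono_left nhdsWithin_le_nhds).sub t3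
      rw [sub_self] at t4
      have t5 := eventually_nhdsWithin_iff.1 (t4.eventually (gt_mem_nhds hη'0))
      exact t5.mono fun z hz _ hz' => hz hz'
    · have a1 : ContinuousAt (fun z : ℝ × E => ‖z.2‖) (0, x₀) := by fun_prop
      have a2 : ContinuousAt (fun z : ℝ × E => Real.exp (-z.1)) (0, x₀) := by fun_prop
      filter_upwards [a1.eventually_lt a2 (by simpa using h1)] with z hz hz'
      exact absurd hz (not_lt.2 hz')
  filter_upwards [nhdsWithin_le_nhds hev, self_mem_nhdsWithin] with h hh (h0 : 0 < h)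
  have hsub : ball (0 : E) (Real.exp (-h)) ⊆ ball (0 : E) 1 :=
    ball_subset_ball (Real.exp_le_one_iff.2 (by linarith))
  have hiζ : ∀ R, IntegrableOn ζ (ball (0 : E) R) := fun R =>
    integrableOn_src_mul hn hm hB hq.le hu hu
  have hi3 : IntegrableOn (fun x => ζ (Real.exp h • x)) (ball (0 : E) 1) :=
    integrableOn_ball_dilate ζ h 1 (hiζ _)
  have e1 : Real.exp (-(τ * h)) * ((∫ x in ball (0 : E) (Real.exp h), ζ x) -
      ∫ x in ball (0 : E) 1, ζ x) = Real.exp ((2 * m + 2 - τ) * h) *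
        ∫ x in ball (0 : E) 1 \ ball (0 : E) (Real.exp (-h)), ζ (Real.exp h • x) := by
    rw [setIntegral_sdiff measurableSet_ball hi3 hsub, setIntegral_ball_dilate hn ζ h,
      setIntegral_ball_dilate hn ζ h, mul_one, ← Real.exp_add, add_neg_cancel, Real.exp_zero,
      ← mul_sub, ← mul_assoc, ← Real.exp_add]
    congr 2; ring
  rw [e1, ← setIntegral_sdiff measurableSet_ball hiw hsub, ← integral_const_mul,
    ← integral_const_mul, ← integral_sub ((hi3.mono_set sdiff_subset).const_mul _)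
      ((hiw.mono_set sdiff_subset).const_mul _)]
  have hfin : volume (ball (0 : E) 1 \ ball (0 : E) (Real.exp (-h))) ≠ ⊤ :=
    ((measure_mono sdiff_subset).trans_lt measure_ball_lt_top).ne
  have hvol : (volume : Measure E).real (ball (0 : E) 1 \ ball (0 : E) (Real.exp (-h))) ≤
      ω * (2 * m + 2) * h := by
    rw [measureReal_sdiff hsub measurableSet_ball measure_ball_lt_top.ne,
      ← Measure.addHaar_real_closedBall_eq_addHaar_real_ball volume 0 (Real.exp (-h)),
      Measure.addHaar_real_closedBall volume 0 (Real.exp_pos _).le, rpow_finrank hn,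
      ← Real.exp_mul, ← hω]
    have := Real.add_one_le_exp (-h * (2 * m + 2))
    nlinarith
  calc _ ≤ ∫ x in ball (0 : E) 1 \ ball (0 : E) (Real.exp (-h)), η' := by
        refine setIntegral_mono_on (((hi3.mono_set sdiff_subset).const_mul _).sub
          ((hiw.mono_set sdiff_subset).const_mul _)) (integrableOn_const hfin)
          (measurableSet_ball.diff measurableSet_ball) fun x hx => ?_
        exact (hh x (ball_subset_closedBall hx.1) (by simpa using hx.2) hx.1).le
    _ = (volume : Measure E).real (ball (0 : E) 1 \ ball (0 : E) (Real.exp (-h))) * η' := by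
        simp
    _ ≤ ω * (2 * m + 2) * h * η' := mul_le_mul_of_nonneg_right hvol hη'0.le
    _ ≤ η * h := by
        have : η = η' * (ω * (2 * m + 2) + 1) := by rw [hη']; field_simp
        rw [this]; nlinarith [mul_pos hη'0 h0]

theorem half_ineq {m c B Bs q σ : ℝ} (hn : (Module.finrank ℝ E : ℝ) = 2 * m + 2) (hm : 0 < m)
    (hc : 0 ≤ c) (hq : 0 < q) (hB : -2 < B) (hσ : -2 < σ) {u w f f' fw χ : E → ℝ}
    (hu : Continuous u) (hu0 : ∀ x, 0 ≤ u x) (hwm : Measurable w)
    (hw0 : ∀ x : E, ‖x‖ < 1 → x ≠ 0 → 0 ≤ w x)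
    (hf : Good σ f) (hf' : GoodS f') (hfw : Good σ fw) (hχ : GoodS χ)
    (hup : ∀ z, z ≠ 0 → u z = pot m f f' z)
    (hwp : ∀ x : E, ‖x‖ < 1 → x ≠ 0 → w x = pot m fw χ x)
    (hig : IntegrableOn (src c Bs q w) (ball (0 : E) 1))
    (hiw : IntegrableOn (fun x => src c Bs q w x * w x) (ball (0 : E) 1))
    (hw : ∀ x₀ : E, ‖x₀‖ = 1 → Tendsto w (𝓝[ball (0 : E) 1] x₀) (𝓝 (u x₀))) :
    ((∫ z : E × E, src c B q u z.1 * (D m z.1 z.2 * f z.2)
        ∂((volume.restrict (ball (0 : E) 1)).prod (volume.restrict (ball (0 : E) 1)))) +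
      ∫ z : E × E, src c B q u z.1 * (Ds m z.1 z.2 * f' z.2)
        ∂((volume.restrict (ball (0 : E) 1)).prod (volume.restrict (ball (0 : E) 1)))) -
    ((∫ z : E × E, src c Bs q w z.1 * (D m z.1 z.2 * fw z.2)
        ∂((volume.restrict (ball (0 : E) 1)).prod (volume.restrict (ball (0 : E) 1)))) +
      ∫ z : E × E, src c Bs q w z.1 * (Ds m z.1 z.2 * χ z.2)
        ∂((volume.restrict (ball (0 : E) 1)).prod (volume.restrict (ball (0 : E) 1)))) ≤
    (-(2 * m + 2 + B - m * (q + 1)) * (∫ x in ball (0 : E) 1, src c B q u x * u x) +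
      (2 * m + 2 + Bs - m * (q + 1)) * ∫ x in ball (0 : E) 1, src c Bs q w x * w x) / (q + 1) := by
  have := nontrivial_of_hn hn hm
  have hq1 : 0 < q + 1 := by linarith
  have T1 := (deriv_pot hn hm hσ (src c B q u) f f' (measurable_src hu.measurable)
    (integrableOn_src hn hm hB hq.le hu) hf hf').2.2
  have T2 := (deriv_pot hn hm hσ (src c Bs q w) fw χ (measurable_src hwm) hig hfw hχ).2.2
  set τ := 2 * m + 2 + B - m * (q + 1) with hτ
  set τ' := 2 * m + 2 + Bs - m * (q + 1) with hτ'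
  set E₁ := ∫ x in ball (0 : E) 1, src c B q u x * u x with hE₁
  set E₂ := ∫ x in ball (0 : E) 1, src c Bs q w x * w x with hE₂
  have n1 : 𝓝[>] (0 : ℝ) ≤ 𝓝[≠] 0 := nhdsWithin_mono _ fun x (hx : 0 < x) => hx.ne'
  have n2 : Tendsto (fun h : ℝ => -h) (𝓝[>] (0 : ℝ)) (𝓝[≠] 0) := by
    apply tendsto_nhdsWithin_of_tendsto_nhds_of_eventually_within
    · simpa using (continuous_neg.tendsto (0 : ℝ)).mono_left nhdsWithin_le_nhds
    · filter_upwards [self_mem_nhdsWithin] with h (hh : 0 < h)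
      exact (neg_lt_zero.2 hh).ne
  have T3 := (T1.mono_left n1).sub (T2.comp n2)
  refine le_of_forall_pos_le_add fun η hη => ?_
  have T4 : Tendsto (fun h : ℝ => ((Real.exp (-τ * h) - 1) / h * E₁ +
      (Real.exp (τ' * h) - 1) / h * E₂) / (q + 1) + η) (𝓝[>] 0)
      (𝓝 ((-τ * E₁ + τ' * E₂) / (q + 1) + η)) :=
    ((((tendsto_exp_slope (-τ)).mul_const E₁).add
      ((tendsto_exp_slope τ').mul_const E₂)).div_const _).add_const η
  refine le_of_tendsto_of_tendsto T3 T4 ?_
  filter_upwards [strip_ineq (c := c) hn hm hq hB hu hiw hw τ τ' (mul_pos hη hq1),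
    self_mem_nhdsWithin] with h hs (h0 : 0 < h)
  have hsub : ball (0 : E) (Real.exp (-h)) ⊆ ball (0 : E) 1 :=
    ball_subset_ball (Real.exp_le_one_iff.2 (by linarith))
  have hin : ∀ x : E, ‖x‖ < 1 → x ≠ 0 →
      ‖Real.exp (-h) • x‖ < 1 ∧ Real.exp (-h) • x ≠ 0 := by
    intro x hx hx0
    refine ⟨?_, smul_ne_zero (Real.exp_pos _).ne' hx0⟩
    rw [norm_smul, Real.norm_of_nonneg (Real.exp_pos _).le]
    have : Real.exp (-h) ≤ 1 := Real.exp_le_one_iff.2 (by linarith)
    nlinarith [norm_nonneg x, Real.exp_pos (-h)]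
  have c1 := conv_ineq (c := c) (β := B) (h := h) hn hm hc hq u hu.measurable
    (fun x _ _ => hu0 x) (fun x _ _ => hu0 _) (integrableOn_src_mul hn hm hB hq.le hu hu)
    (integrableOn_src_mul hn hm hB hq.le hu hu)
  have c2 := conv_ineq (c := c) (β := Bs) (h := -h) hn hm hc hq w hwm hw0
    (fun x hx hx0 => hw0 _ (hin x hx hx0).1 (hin x hx hx0).2) hiw (hiw.mono_set hsub)
  have e1 : ∫ x in ball (0 : E) 1, src c B q u x *
      (Real.exp (m * h) * pot m f f' (Real.exp h • x) - pot m f f' x) =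
      ∫ x in ball (0 : E) 1, src c B q u x * (Real.exp (m * h) * u (Real.exp h • x) - u x) := by
    refine integral_congr_ae ?_
    filter_upwards [ae_ball 1 0] with x hx
    rw [hup x hx.2.1, hup _ (smul_ne_zero (Real.exp_pos _).ne' hx.2.1)]
  have e2 : ∫ x in ball (0 : E) 1, src c Bs q w x *
      (Real.exp (m * -h) * pot m fw χ (Real.exp (-h) • x) - pot m fw χ x) =
      ∫ x in ball (0 : E) 1, src c Bs q w x *
        (Real.exp (m * -h) * w (Real.exp (-h) • x) - w x) := by
    refine integral_congr_ae ?_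
    filter_upwards [ae_ball 1 0] with x hx
    rw [hwp x hx.1 hx.2.1, hwp _ (hin x hx.1 hx.2.1).1 (hin x hx.1 hx.2.1).2]
  simp only [Function.comp]
  rw [e1, e2]
  rw [← hτ, ← hE₁, le_div_iff₀ hq1] at c1
  rw [← hτ', ← hE₂, le_div_iff₀ hq1, mul_neg τ' h, neg_neg] at c2
  rw [← hE₁, ← hE₂] at hs
  rw [neg_mul]
  set a := ∫ x in ball (0 : E) 1, src c B q u x * (Real.exp (m * h) * u (Real.exp h • x) - u x)
  set b := ∫ x in ball (0 : E) 1, src c Bs q w x *
        (Real.exp (m * -h) * w (Real.exp (-h) • x) - w x)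
  have key : (a + b) * (q + 1) ≤ (Real.exp (-(τ * h)) - 1) * E₁ + (Real.exp (τ' * h) - 1) * E₂ +
      η * (q + 1) * h := by nlinarith
  have e3 : a / h - b / -h = (a + b) / h := by field_simp; ring
  have e4 : ((Real.exp (-(τ * h)) - 1) / h * E₁ + (Real.exp (τ' * h) - 1) / h * E₂) / (q + 1) + η =
      (((Real.exp (-(τ * h)) - 1) * E₁ + (Real.exp (τ' * h) - 1) * E₂ +
      η * (q + 1) * h) / (q + 1)) / h := by field_simp
  rw [e3, e4]
  exact div_le_div_of_nonneg_right ((le_div_iff₀ hq1).2 key) h0.le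

end Crest.Agent.R077
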