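import Crest.Agent.R077.MainB

/-! # Row 77: one-sided data for the main inequality -/

set_option autoImplicit false
set_option linter.unusedSectionVars false
set_option linter.unusedVariables false

open MeasureTheory Metric Set Filter Topology
open scoped RealInnerProductSpace Pointwise

namespace Crest.Agent.R077

variable {E : Type*} [NormedAddCommGroup E] [InnerProductSpace ℝ E]
  [FiniteDimensional ℝ E] [MeasurableSpace E] [BorelSpace E]

theorem dom_integral [Nontrivial E] {k φ ψ : E → ℝ} (hk : Measurable k) (hk0 : ∀ y, 0 ≤ k y)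
    (hψ : Measurable ψ) (h : ∀ y : E, ‖y‖ < 1 → y ≠ 0 → 0 ≤ ψ y ∧ ψ y ≤ φ y)
    (hi : IntegrableOn (fun y => k y * φ y) (ball (0 : E) 1)) :
    IntegrableOn (fun y => k y * ψ y) (ball (0 : E) 1) ∧
      ∫ y in ball (0 : E) 1, k y * ψ y ≤ ∫ y in ball (0 : E) 1, k y * φ y := by
  have h1 : ∀ᵐ y ∂(volume.restrict (ball (0 : E) 1)), 0 ≤ k y * ψ y ∧ k y * ψ y ≤ k y * φ y := by
    filter_upwards [ae_ball 1 0] with y hy
    exact ⟨mul_nonneg (hk0 y) (h y hy.1 hy.2.1).1,
      mul_le_mul_of_nonneg_left (h y hy.1 hy.2.1).2 (hk0 y)⟩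
  have h2 : IntegrableOn (fun y => k y * ψ y) (ball (0 : E) 1) := by
    refine Integrable.mono' hi (hk.mul hψ).aestronglyMeasurable ?_
    filter_upwards [h1] with y hy
    rw [Real.norm_of_nonneg hy.1]; exact hy.2
  exact ⟨h2, integral_mono_ae h2 hi (h1.mono fun y hy => hy.2)⟩

theorem dom_integrable [Nontrivial E] {φ ψ : E → ℝ}
    (hψ : Measurable ψ) (h : ∀ y : E, ‖y‖ < 1 → y ≠ 0 → 0 ≤ ψ y ∧ ψ y ≤ φ y)
    (hi : IntegrableOn φ (ball (0 : E) 1)) : IntegrableOn ψ (ball (0 : E) 1) := by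
  have := (dom_integral (k := fun _ => (1 : ℝ)) measurable_const (fun _ => zero_le_one) hψ h
    (by simpa using hi)).1
  simpa using this

theorem measurable_Gr_right (m : ℝ) (x : E) : Measurable (fun y : E => Gr m x y) :=
  ((measurable_K_right m x).sub (measurable_Ks_right m x)).max measurable_const

/-- The reduced source is below the source and below its Kelvin transform. -/
theorem src_star_le (m : ℝ) {c A p : ℝ} (hc : 0 ≤ c) (hp : 0 ≤ p) {v w : E → ℝ}
    (hv0 : ∀ x, 0 ≤ v x) {y : E} (hy1 : ‖y‖ < 1) (hy : y ≠ 0) (hw0 : 0 ≤ w y) :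
    (w y ≤ v y → src c (max A (2 * m * p - (2 * m + 4) - A)) p w y ≤ src c A p v y) ∧
    (w y ≤ kel m v y →
      src c (max A (2 * m * p - (2 * m + 4) - A)) p w y ≤ kden m (src c A p v) y) := by
  refine ⟨fun h => src_mono hc hp (le_max_left _ _) hy hy1 hw0 h, fun h => ?_⟩
  rw [kden_src m c A p hv0 hy]
  exact src_mono hc hp (le_max_right _ _) hy hy1 hw0 h

theorem Half.super {m c A p : ℝ} {u v : E → ℝ} (hn : (Module.finrank ℝ E : ℝ) = 2 * m + 2)
    (hm : 0 < m) (hc : 0 ≤ c) (hp : 0 ≤ p) (hv : Continuous v) (hv0 : ∀ x, 0 < v x)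
    (H : Half m u (src c A p v)) {x : E} (hx1 : ‖x‖ < 1) (hx : x ≠ 0) :
    (IntegrableOn (fun y => Gr m x y * src c (max A (2 * m * p - (2 * m + 4) - A)) p v y)
        (ball (0 : E) 1) ∧
      hpot m (src c A p v) x + ∫ y in ball (0 : E) 1,
        Gr m x y * src c (max A (2 * m * p - (2 * m + 4) - A)) p v y ≤ u x) ∧
    (IntegrableOn (fun y => Gr m x y * src c (max A (2 * m * p - (2 * m + 4) - A)) p (kel m v) y)
        (ball (0 : E) 1) ∧
      hpot m (src c A p v) x + ∫ y in ball (0 : E) 1,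
        Gr m x y * src c (max A (2 * m * p - (2 * m + 4) - A)) p (kel m v) y ≤ kel m u x) := by
  have := nontrivial_of_hn hn hm
  obtain ⟨⟨h1, h2⟩, h3, h4⟩ := H.green_repr hn hm hx hx1
  obtain ⟨h5, h6⟩ := dom_integral (measurable_Gr_right m x) (Gr_nonneg m x)
    (measurable_src (c := c) (A := max A (2 * m * p - (2 * m + 4) - A)) (p := p) hv.measurable)
    (fun y hy1 hy => ⟨src_nonneg hc (hv0 y).le,
      (src_star_le m hc hp (fun x => (hv0 x).le) hy1 hy (hv0 y).le).1 le_rfl⟩) h1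
  obtain ⟨h7, h8⟩ := dom_integral (measurable_Gr_right m x) (Gr_nonneg m x)
    (measurable_src (c := c) (A := max A (2 * m * p - (2 * m + 4) - A)) (p := p)
      (measurable_kel m hv.measurable))
    (fun y hy1 hy => ⟨src_nonneg hc (kel_pos m hv0 hy).le,
      (src_star_le m hc hp (fun x => (hv0 x).le) hy1 hy (kel_pos m hv0 hy).le).2 le_rfl⟩) h3
  exact ⟨⟨h5, by linarith⟩, h7, by linarith⟩

theorem good_src {c A p : ℝ} (hc : 0 ≤ c) (hp : 0 ≤ p) {v ψ : E → ℝ} (hv : Continuous v)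
    (hv0 : ∀ x, 0 ≤ v x) (hψ : Measurable ψ)
    (h : ∀ y : E, ‖y‖ < 1 → y ≠ 0 → 0 ≤ ψ y ∧ ψ y ≤ src c A p v y) : Good A ψ := by
  obtain ⟨C, hC⟩ := (isCompact_closedBall (0 : E) 1).exists_bound_of_continuousOn
    (hv.rpow_const (p := p) fun _ => Or.inr hp).continuousOn
  refine ⟨hψ, c * C, fun y hy hy0 => ?_⟩
  obtain ⟨h1, h2⟩ := h y (mem_ball_zero_iff.1 hy) hy0
  rw [abs_of_nonneg h1]
  refine h2.trans ?_
  have h3 := (le_abs_self _).trans (hC y (ball_subset_closedBall hy))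
  have h4 := mul_le_mul_of_nonneg_left h3 (mul_nonneg hc (Real.rpow_nonneg (norm_nonneg y) A))
  simp only [src]
  linarith

theorem Half.goodS {m c A p : ℝ} {u v : E → ℝ} (hn : (Module.finrank ℝ E : ℝ) = 2 * m + 2)
    (hm : 0 < m) (hp : 0 ≤ p) (hv : Continuous v) (H : Half m u (src c A p v)) {χ : E → ℝ}
    (hχ : Measurable χ)
    (h : ∀ y : E, ‖y‖ < 1 → y ≠ 0 → 0 ≤ χ y ∧ χ y ≤ src c A p v y + kden m (src c A p v) y) :
    GoodS χ := by
  have := nontrivial_of_hn hn hm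
  obtain ⟨h1, h2, -⟩ := H.mass_eq hn hm
  refine ⟨hχ, dom_integrable hχ h (h1.add h2), ?_⟩
  have hK : IsCompact (closedBall (0 : E) 1 \ ball 0 (1 / 4)) :=
    (isCompact_closedBall _ _).diff isOpen_ball
  have hcont : ContinuousOn (fun y => src c A p v y + kden m (src c A p v) y)
      (closedBall (0 : E) 1 \ ball 0 (1 / 4)) := by
    intro y hy
    have hy0 : y ≠ 0 := by rintro rfl; exact hy.2 (by simp)
    have a1 : ∀ z : E, z ≠ 0 → ContinuousAt (src c A p v) z := fun z hz =>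
      (continuousOn_src hv hp).continuousAt (isOpen_compl_singleton.mem_nhds hz)
    apply ContinuousAt.continuousWithinAt
    refine (a1 y hy0).add ?_
    unfold kden
    refine ContinuousAt.mul ?_ (ContinuousAt.comp (a1 _ (kinv_ne_zero hy0)) (continuousAt_kinv hy0))
    exact (by fun_prop : ContinuousAt (fun y : E => ‖y‖ ^ 2) y).rpow_const
      (Or.inl (pow_ne_zero _ (norm_ne_zero_iff.2 hy0)))
  obtain ⟨C, hC⟩ := hK.exists_bound_of_continuousOn hcont
  refine ⟨C, fun y hy hy1 => ?_⟩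
  have hy0 : y ≠ 0 := by rintro rfl; norm_num at hy
  obtain ⟨h3, h4⟩ := h y hy1 hy0
  rw [abs_of_nonneg h3]
  exact h4.trans ((le_abs_self _).trans
    (hC y ⟨mem_closedBall_zero_iff.2 hy1.le, by simpa using hy⟩))

theorem Half.pot_w {m : ℝ} {u f fw : E → ℝ} (hn : (Module.finrank ℝ E : ℝ) = 2 * m + 2)
    (hm : 0 < m) (H : Half m u f) (hfw : Measurable fw)
    (h : ∀ y : E, ‖y‖ < 1 → y ≠ 0 → 0 ≤ fw y ∧ fw y ≤ f y) {x : E} (hx1 : ‖x‖ < 1) (hx : x ≠ 0) :
    hpot m f x + ∫ y in ball (0 : E) 1, Gr m x y * fw y =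
      pot m fw (fun y => f y + kden m f y - fw y) x := by
  have := nontrivial_of_hn hn hm
  have h1 := (dom_integral (measurable_K_right m x) (K_nonneg m x) hfw h (H.repr hn hm hx).1).1
  have h2 := (dom_integral (measurable_Ks_right m x) (Ks_nonneg m x) hfw h
    (H.repr' hn hm hx).2.1).1
  rw [(Gr_integral hm hx1 h1 h2).2, pot, hpot]
  simp only [mul_sub]
  rw [integral_sub (H.int_hpot hn hm hx) h2]
  ring

theorem Half.tendsto_w {m : ℝ} {u f w : E → ℝ} (hn : (Module.finrank ℝ E : ℝ) = 2 * m + 2)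
    (hm : 0 < m) (H : Half m u f) (hu : Continuous u)
    (h : ∀ y : E, ‖y‖ < 1 → y ≠ 0 → hpot m f y ≤ w y ∧ w y ≤ u y) {x₀ : E} (hx₀ : ‖x₀‖ = 1) :
    Tendsto w (𝓝[ball (0 : E) 1] x₀) (𝓝 (u x₀)) := by
  have hx0 : x₀ ≠ 0 := by rintro rfl; simp at hx₀
  rw [tendsto_order]
  constructor
  · intro a ha
    filter_upwards [nhdsWithin_le_nhds (H.hpot_lsc hn hm hx₀ ha), self_mem_nhdsWithin,
      nhdsWithin_le_nhds (eventually_ne_nhds hx0)] with x hx hx1 hx2
    exact lt_of_lt_of_le hx (h x (mem_ball_zero_iff.1 hx1) hx2).1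
  · intro a ha
    filter_upwards [nhdsWithin_le_nhds (hu.continuousAt.eventually (gt_mem_nhds ha)),
      self_mem_nhdsWithin, nhdsWithin_le_nhds (eventually_ne_nhds hx0)] with x hx hx1 hx2
    exact lt_of_le_of_lt (h x (mem_ball_zero_iff.1 hx1) hx2).2 hx

theorem inner_bound {m δ : ℝ} {u v f g φ k : E → ℝ} (hn : (Module.finrank ℝ E : ℝ) = 2 * m + 2)
    (hm : 0 < m) (Hu : Half m u f) (Hv : Half m v g) (hδ : 0 < δ)
    (hφ : ∀ y : E, ‖y‖ < 1 → y ≠ 0 → 0 ≤ φ y ∧ φ y ≤ g y)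
    (hk : ∀ y : E, ‖y‖ < 1 → y ≠ 0 → 0 ≤ k y ∧ k y ≤ hpot m f y) :
    ∫ x in ball (0 : E) (1 - δ), φ x * k x ≤ δ ^ (-(2 * m)) * (mass m f 1 * mass m g 1) := by
  have := nontrivial_of_hn hn hm
  obtain ⟨h1, h2, h3⟩ := Hv.mass_eq hn hm
  obtain ⟨h4, h5, h6⟩ := Hu.mass_eq hn hm
  have hsub : ball (0 : E) (1 - δ) ⊆ ball (0 : E) 1 := ball_subset_ball (by linarith)
  have hM : 0 ≤ δ ^ (-(2 * m)) * mass m f 1 := by
    rw [h6]
    exact mul_nonneg (Real.rpow_nonneg hδ.le _) (add_nonneg (integral_nonneg Hu.f0)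
      (integral_nonneg (kden_nonneg m Hu.f0)))
  calc _ ≤ ∫ x in ball (0 : E) (1 - δ), g x * (δ ^ (-(2 * m)) * mass m f 1) := by
        refine integral_mono_of_nonneg ?_ ((h1.mono_set hsub).mul_const _) ?_
        · filter_upwards [ae_ball (1 - δ) 0] with y hy
          exact mul_nonneg (hφ y (by linarith [hy.1]) hy.2.1).1 (hk y (by linarith [hy.1]) hy.2.1).1
        · filter_upwards [ae_ball (1 - δ) 0] with y hy
          exact mul_le_mul (hφ y (by linarith [hy.1]) hy.2.1).2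
            ((hk y (by linarith [hy.1]) hy.2.1).2.trans (Hu.hpot_le_mass hn hm hδ hy.2.1 hy.1.le))
            (hk y (by linarith [hy.1]) hy.2.1).1 (Hv.f0 y)
    _ = (∫ x in ball (0 : E) (1 - δ), g x) * (δ ^ (-(2 * m)) * mass m f 1) := integral_mul_const _ _
    _ ≤ mass m g 1 * (δ ^ (-(2 * m)) * mass m f 1) := by
        refine mul_le_mul_of_nonneg_right ?_ hM
        rw [h3]
        have a1 := setIntegral_mono_set h1 (Eventually.of_forall Hv.f0) hsub.eventuallyLE
        have a2 : 0 ≤ ∫ y in ball (0 : E) 1, kden m g y := integral_nonneg (kden_nonneg m Hv.f0)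
        linarith
    _ = _ := by ring

theorem measurable_KB {m : ℝ} {f : E → ℝ} (hf : Measurable f) :
    Measurable (fun x : E => ∫ y in ball (0 : E) 1, K m x y * f y) := by
  have h : Measurable (fun z : E × E => K m z.1 z.2 * f z.2) :=
    (measurable_K m).mul (hf.comp measurable_snd)
  exact (h.stronglyMeasurable.integral_prod_right'
    (ν := volume.restrict (ball (0 : E) 1))).measurable

theorem cross_bound {m δ : ℝ} {u v f g : E → ℝ} (hn : (Module.finrank ℝ E : ℝ) = 2 * m + 2)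
    (hm : 0 < m) (Hu : Half m u f) (Hv : Half m v g) (hδ : 0 < δ)
    (hi : IntegrableOn (fun x => g x * u x) (ball (0 : E) 1)) :
    IntegrableOn (fun x => g x * ∫ y in ball (0 : E) 1, K m x y * f y) (ball (0 : E) 1) ∧
    0 ≤ (∫ x in ball (0 : E) 1, g x * u x) -
      ∫ x in ball (0 : E) 1, g x * ∫ y in ball (0 : E) 1, K m x y * f y ∧
    (∫ x in ball (0 : E) 1, g x * u x) -
      ∫ x in ball (0 : E) 1, g x * ∫ y in ball (0 : E) 1, K m x y * f y ≤
      ((∫ x in ball (0 : E) 1, g x * u x) - ∫ x in ball (0 : E) (1 - δ), g x * u x) +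
        δ ^ (-(2 * m)) * (mass m f 1 * mass m g 1) := by
  have := nontrivial_of_hn hn hm
  set P : E → ℝ := fun x => ∫ y in ball (0 : E) 1, K m x y * f y with hP
  have hP0 : ∀ x, 0 ≤ P x := fun x => integral_nonneg fun y => mul_nonneg (K_nonneg m x y) (Hu.f0 y)
  have hPu : ∀ x : E, x ≠ 0 → 0 ≤ u x - P x ∧ u x - P x ≤ hpot m f x := by
    intro x hx
    have e : u x - P x = ∫ y in ball (0 : E) 1, Ks m x y * kden m f y := by
      rw [(Hu.repr hn hm hx).2.2, pot]; simp only [hP]; ring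
    rw [e, Hu.hpot_eq hn hm hx]
    have a1 : 0 ≤ ∫ y in ball (0 : E) 1, Ks m x y * kden m f y :=
      integral_nonneg fun y => mul_nonneg (Ks_nonneg m x y) (kden_nonneg m Hu.f0 y)
    have a2 : 0 ≤ ∫ y in ball (0 : E) 1, Ks m x y * f y :=
      integral_nonneg fun y => mul_nonneg (Ks_nonneg m x y) (Hu.f0 y)
    exact ⟨a1, by linarith⟩
  obtain ⟨h1, h2⟩ := dom_integral (k := g) (φ := u) (ψ := P) Hv.mf Hv.f0 (measurable_KB Hu.mf)
    (fun y _ hy => ⟨hP0 y, by linarith [(hPu y hy).1]⟩) hi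
  refine ⟨h1, by linarith, ?_⟩
  have hsub : ball (0 : E) (1 - δ) ⊆ ball (0 : E) 1 := ball_subset_ball (by linarith)
  have h3 := inner_bound (φ := g) (k := fun x => u x - P x) hn hm Hu Hv hδ
    (fun y _ _ => ⟨Hv.f0 y, le_rfl⟩) (fun y _ hy => hPu y hy)
  simp only [mul_sub] at h3
  rw [integral_sub (hi.mono_set hsub) (h1.mono_set hsub)] at h3
  have h4 := setIntegral_mono_set h1
    (Eventually.of_forall fun x => mul_nonneg (Hv.f0 x) (hP0 x)) hsub.eventuallyLE
  linarith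

theorem self_swap {m : ℝ} {u v f g : E → ℝ} (hn : (Module.finrank ℝ E : ℝ) = 2 * m + 2)
    (hm : 0 < m) (Hu : Half m u f) (Hv : Half m v g)
    (hi : IntegrableOn (fun x => g x * ∫ y in ball (0 : E) 1, K m x y * f y) (ball (0 : E) 1)) :
    ∫ x in ball (0 : E) 1, g x * ∫ y in ball (0 : E) 1, K m x y * f y =
      ∫ x in ball (0 : E) 1, f x * ∫ y in ball (0 : E) 1, K m x y * g y := by
  have := nontrivial_of_hn hn hm
  have hm' : Measurable (fun z : E × E => g z.1 * (K m z.1 z.2 * f z.2)) :=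
    (Hv.mf.comp measurable_fst).mul ((measurable_K m).mul (Hu.mf.comp measurable_snd))
  have hint : Integrable (Function.uncurry fun x y : E => g x * (K m x y * f y))
      ((volume.restrict (ball (0 : E) 1)).prod (volume.restrict (ball (0 : E) 1))) := by
    refine (integrable_prod_iff hm'.aestronglyMeasurable).2 ⟨?_, ?_⟩
    · filter_upwards [ae_ball 1 0] with x hx
      exact (Hu.repr hn hm hx.2.1).1.const_mul _
    · refine hi.congr (Eventually.of_forall fun x => ?_)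
      simp only
      rw [← integral_const_mul]
      refine integral_congr_ae (Eventually.of_forall fun y => ?_)
      simp only
      rw [Real.norm_of_nonneg (mul_nonneg (Hv.f0 x) (mul_nonneg (K_nonneg m x y) (Hu.f0 y)))]
  simp only [← integral_const_mul]
  rw [integral_integral_swap hint]
  refine integral_congr_ae (Eventually.of_forall fun x =>
    integral_congr_ae (Eventually.of_forall fun y => ?_))
  simp only [K_comm m y x]; ring

theorem D_swap (m : ℝ) (φ ψ : E → ℝ) (ν : Measure E) [SFinite ν] :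
    ∫ z : E × E, φ z.1 * (D m z.1 z.2 * ψ z.2) ∂(ν.prod ν) =
      -∫ z : E × E, ψ z.1 * (D m z.1 z.2 * φ z.2) ∂(ν.prod ν) := by
  rw [← integral_prod_swap, ← integral_neg]
  refine integral_congr_ae (Eventually.of_forall fun z => ?_)
  simp only [Prod.fst_swap, Prod.snd_swap, D_anti m z.1 z.2]; ring

theorem cross_nonneg {m : ℝ} [Nontrivial E] (hm : 0 < m) {f f' fw g g' gw : E → ℝ}
    (hf : ∀ y : E, ‖y‖ < 1 → y ≠ 0 → fw y ≤ f y ∧ fw y ≤ f' y)
    (hg : ∀ y : E, ‖y‖ < 1 → y ≠ 0 → gw y ≤ g y ∧ gw y ≤ g' y)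
    (I1 : Integrable (fun z : E × E => g z.1 * (Ds m z.1 z.2 * f' z.2))
        ((volume.restrict (ball (0 : E) 1)).prod (volume.restrict (ball (0 : E) 1))))
    (I2 : Integrable (fun z : E × E => f z.1 * (Ds m z.1 z.2 * g' z.2))
        ((volume.restrict (ball (0 : E) 1)).prod (volume.restrict (ball (0 : E) 1))))
    (I3 : Integrable (fun z : E × E => gw z.1 * (Ds m z.1 z.2 * (f z.2 + f' z.2 - fw z.2)))
        ((volume.restrict (ball (0 : E) 1)).prod (volume.restrict (ball (0 : E) 1))))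
    (I4 : Integrable (fun z : E × E => fw z.1 * (Ds m z.1 z.2 * (g z.2 + g' z.2 - gw z.2)))
        ((volume.restrict (ball (0 : E) 1)).prod (volume.restrict (ball (0 : E) 1)))) :
    (∫ z : E × E, gw z.1 * (Ds m z.1 z.2 * (f z.2 + f' z.2 - fw z.2))
        ∂((volume.restrict (ball (0 : E) 1)).prod (volume.restrict (ball (0 : E) 1)))) +
      ∫ z : E × E, fw z.1 * (Ds m z.1 z.2 * (g z.2 + g' z.2 - gw z.2))
        ∂((volume.restrict (ball (0 : E) 1)).prod (volume.restrict (ball (0 : E) 1))) ≤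
    (∫ z : E × E, g z.1 * (Ds m z.1 z.2 * f' z.2)
        ∂((volume.restrict (ball (0 : E) 1)).prod (volume.restrict (ball (0 : E) 1)))) +
      ∫ z : E × E, f z.1 * (Ds m z.1 z.2 * g' z.2)
        ∂((volume.restrict (ball (0 : E) 1)).prod (volume.restrict (ball (0 : E) 1))) := by
  rw [← integral_prod_swap (fun z : E × E => fw z.1 * (Ds m z.1 z.2 * (g z.2 + g' z.2 - gw z.2))),
    ← integral_prod_swap (fun z : E × E => f z.1 * (Ds m z.1 z.2 * g' z.2))]
  have J2 := I2.swap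
  have J4 := I4.swap
  simp only [Function.comp_def] at J2 J4
  rw [← integral_add I3 J4, ← integral_add I1 J2]
  refine integral_mono_ae (I3.add J4) (I1.add J2) ?_
  filter_upwards [Measure.quasiMeasurePreserving_fst.ae (ae_ball (E := E) 1 0),
    Measure.quasiMeasurePreserving_snd.ae (ae_ball (E := E) 1 0)] with z h1 h2
  simp only [Prod.fst_swap, Prod.snd_swap, Ds_comm m z.2 z.1]
  have a0 := Ds_nonneg hm.le h1.1.le h2.1.le
  have a1 := mul_nonneg a0 (mul_nonneg (sub_nonneg.2 (hg z.1 h1.1 h1.2.1).1)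
    (sub_nonneg.2 (hf z.2 h2.1 h2.2.1).2))
  have a2 := mul_nonneg a0 (mul_nonneg (sub_nonneg.2 (hg z.1 h1.1 h1.2.1).2)
    (sub_nonneg.2 (hf z.2 h2.1 h2.2.1).1))
  nlinarith

end Crest.Agent.R077
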